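import Vale.Agent.P159.H145.Loc2
import Vale.Agent.P159.H612.Local4

/-!
P159 / second order flow, module LOC2, torus (helper145): locality of the NEUTRAL functional in
every real background, price `exp ((T⁰ + 16 ω) / 2)`, error `8 ω²`.
Input: `Far` (`H612.lb4`) for the sources `t u`, `t g`.
-/

namespace Vale.Agent.P159.H145

open MeasureTheory Set intervalIntegral Finset
open Vale.Agent.P159.TM.H104 (EM Lg)
open Vale.Agent.P159.H37
open Vale.Agent.P159.H612 (Far)
open Vale.Agent.P159.TM.SpecC (Tor wT)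

variable {N : ℕ} [NeZero N] {b t : ℝ}

/-- scalar mass -/
abbrev mt (N : ℕ) (t : ℝ) : Matrix (Tor N) (Tor N) ℝ := t • (1 : Matrix (Tor N) (Tor N) ℝ)

lemma per_wT : Per (wT b N) := fun h => TM.H41.shift_wT h

omit [NeZero N] in
lemma mt_symm : (mt N t).transpose = mt N t := by
  unfold mt
  rw [Matrix.transpose_smul, Matrix.transpose_one]

lemma em_mt (hb : 0 ≤ b) (ht : 0 < t) : EM (wM (wT b N) (mt N t)) := H789.em_wt hb ht

lemma mt_mulVec (F : Tor N → ℝ) : (mt N t).mulVec F = t • F := by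
  unfold mt
  rw [Matrix.smul_mulVec, Matrix.one_mulVec]

lemma bf_mt (u g : Tor N → ℝ) : bf (mt N t) u g = t * ∑ x, u x * g x := by
  rw [bf_eq, mt_mulVec, dotProduct_smul, smul_eq_mul]
  rfl

/-- the hull in background letters -/
lemma hull_eq (F u g : Tor N → ℝ) (p q c : ℝ) :
    t • cs F c + p • (t • u) + q • (t • g) = (mt N t).mulVec (cs (F + p • u + q • g) c) := by
  rw [mt_mulVec, cs_add, cs_add, smul_add, smul_add, smul_comm p t u, smul_comm q t g]

/-- mixed differences of `LM` from `Far` -/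
lemma LM_far (hb : 0 ≤ b) (ht : 0 < t) {F u g : Tor N → ℝ} {A B r τ : ℝ}
    (hf : Far (wt N b t) (t • u) (t • g) A B r) (hs : ∑ x, u x * g x = 0) {c : ℝ}
    (hτ : ∀ p ∈ Icc (0 : ℝ) 1, ∀ q ∈ Icc (0 : ℝ) 1,
      Tq (wt N b t) ((mt N t).mulVec (cs (F + p • u + q • g) c)) ≤ τ) :
    |LM (wT b N) (mt N t) (cs (F + u + g) c) - LM (wT b N) (mt N t) (cs (F + u) c) -
      LM (wT b N) (mt N t) (cs (F + g) c) + LM (wT b N) (mt N t) (cs F c)| ≤
      Real.exp (τ / 2) * A * B * r := by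
  have hb0 : bf (mt N t) u g = 0 := by rw [bf_mt, hs, mul_zero]
  rw [cs_add, cs_add, cs_add, LM_mixed mt_symm (em_mt hb ht), hb0, sub_zero, mt_mulVec, mt_mulVec,
    mt_mulVec]
  refine hf.lg (t • cs F c) τ fun p hp q hq => ?_
  rw [hull_eq]
  exact hτ p hp q hq

/-- **locality of the neutral functional on the torus** (mixed differences) -/
theorem pair_torus (hb : 0 ≤ b) (ht : 0 < t) {ω : ℝ} (hO : OscZ (wT b N) (mt N t) ω)
    (hω : ω ≤ 1 / 2) {F u g : Tor N → ℝ} {A B r τ : ℝ}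
    (hf : Far (wt N b t) (t • u) (t • g) A B r) (hs : ∑ x, u x * g x = 0)
    (hτ : ∀ p ∈ Icc (0 : ℝ) 1, ∀ q ∈ Icc (0 : ℝ) 1,
      T0 (wT b N) (mt N t) (F + p • u + q • g) ≤ τ) :
    |L0 (wT b N) (mt N t) (F + u + g) - L0 (wT b N) (mt N t) (F + u) -
      L0 (wT b N) (mt N t) (F + g) + L0 (wT b N) (mt N t) F| ≤
      Real.exp ((τ + 16 * ω) / 2) * A * B * r + 8 * ω ^ 2 := by
  refine pair mt_symm (em_mt hb ht) hO hω F u g fun c _ => LM_far hb ht hf hs fun p hp q hq => ?_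
  have h1 := (abs_le.1 (Tq_le_T0 per_wT mt_symm (em_mt hb ht) hO hω (F + p • u + q • g) c)).2
  have h2 := hτ p hp q hq
  have h3 : Tq (wt N b t) ((mt N t).mulVec (cs (F + p • u + q • g) c)) =
      Tq (wM (wT b N) (mt N t)) ((mt N t).mulVec (cs (F + p • u + q • g) c)) := rfl
  rw [h3]
  linarith

/-- **(LOC2)** second differences of the neutral functional in the direction `g` do not see the far
part `u` of the field -/
theorem loc2_torus (hb : 0 ≤ b) (ht : 0 < t) {ω : ℝ} (hO : OscZ (wT b N) (mt N t) ω)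
    (hω : ω ≤ 1 / 2) {F u g : Tor N → ℝ} {A B r τ : ℝ}
    (hf1 : Far (wt N b t) (t • u) (t • g) A B r)
    (hf2 : Far (wt N b t) (t • u) (t • (-g)) A B r) (hs : ∑ x, u x * g x = 0)
    (hτ : ∀ p ∈ Icc (0 : ℝ) 1, ∀ q ∈ Icc (-1 : ℝ) 1,
      T0 (wT b N) (mt N t) (F + p • u + q • g) ≤ τ) :
    |(L0 (wT b N) (mt N t) (F + u + g) + L0 (wT b N) (mt N t) (F + u - g) -
        2 * L0 (wT b N) (mt N t) (F + u)) -
      (L0 (wT b N) (mt N t) (F + g) + L0 (wT b N) (mt N t) (F - g) -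
        2 * L0 (wT b N) (mt N t) F)| ≤
      2 * (Real.exp ((τ + 16 * ω) / 2) * A * B * r + 8 * ω ^ 2) := by
  have hs' : ∑ x, u x * (-g) x = 0 := by
    have : ∑ x, u x * (-g) x = -∑ x, u x * g x := by
      rw [← Finset.sum_neg_distrib]
      exact Finset.sum_congr rfl fun x _ => by simp
    rw [this, hs, neg_zero]
  have a1 := abs_le.1 (pair_torus hb ht hO hω (F := F) hf1 hs (τ := τ) fun p hp q hq =>
    hτ p hp q ⟨by linarith [hq.1], hq.2⟩)
  have a2 := abs_le.1 (pair_torus hb ht hO hω (F := F) hf2 hs' (τ := τ) fun p hp q hq => by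
    have h1 := hτ p hp (-q) ⟨by linarith [hq.2], by linarith [hq.1]⟩
    have h2 : F + p • u + (-q) • g = F + p • u + q • (-g) := by
      rw [neg_smul, smul_neg]
    rwa [h2] at h1)
  rw [← sub_eq_add_neg, ← sub_eq_add_neg] at a2
  rw [abs_le]
  constructor <;> linarith [a1.1, a1.2, a2.1, a2.2]

end Vale.Agent.P159.H145
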