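import Vale.Agent.P159.H37.Spec0L

/-!
P159 / second order flow, module PAIR/TORN (helper145).

The neutral partition function is the mean of `Z(F + c)` over the constants `c ∈ [0,1]`.  If
`Z(F + c)` oscillates by a relative amount `≤ ω` then

  `log Z⁰(F) = ∫₀¹ log Z(F + c) dc + O(ω²)`      (`avg_log`, error in `[0, 2 ω²]`).

Hence every linear combination of values of `log Z⁰` is the mean over `c` of the same linear
combination of values of `log Z(· + c)`, with an error `2 ω² Σ |a_i|`: second order in the charge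
activity.  `pair`: mixed differences (locality).  `torn`: two tori.
-/

namespace Vale.Agent.P159.H145

open MeasureTheory Set intervalIntegral Finset

/-! ### one function on `[0,1]` -/

/-- `x - 2 x² ≤ log (1 + x)` for `|x| ≤ 1/2` -/
lemma log_one_add_ge {x : ℝ} (hx : |x| ≤ 1 / 2) : x - 2 * x ^ 2 ≤ Real.log (1 + x) := by
  have h1 := (abs_le.1 hx).1
  have h2 : (0 : ℝ) < 1 + x := by linarith
  have h3 := Real.one_sub_inv_le_log_of_pos h2
  refine le_trans ?_ h3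
  have h4 : 1 - (1 + x)⁻¹ = x / (1 + x) := by
    field_simp
    ring
  rw [h4, le_div_iff₀ h2]
  nlinarith [sq_nonneg x, mul_nonneg (sq_nonneg x) (by linarith : (0 : ℝ) ≤ 1 + 2 * x)]

/-- relative oscillation of a positive function on `[0,1]` around its mean -/
structure Osc (ω : ℝ) (Z : ℝ → ℝ) : Prop where
  cont : ContinuousOn Z (Icc 0 1)
  pos : ∀ c ∈ Icc (0 : ℝ) 1, 0 < Z c
  osc : ∀ c ∈ Icc (0 : ℝ) 1, |Z c - ∫ s in (0 : ℝ)..1, Z s| ≤ ω * ∫ s in (0 : ℝ)..1, Z s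

lemma Osc.mean_pos {ω : ℝ} {Z : ℝ → ℝ} (h : Osc ω Z) : 0 < ∫ s in (0 : ℝ)..1, Z s := by
  refine intervalIntegral_pos_of_pos_on ?_ ?_ one_pos
  · exact (h.cont.mono (by rw [Set.uIcc_of_le zero_le_one])).intervalIntegrable
  · intro c hc
    exact h.pos c ⟨hc.1.le, hc.2.le⟩

lemma Osc.int {ω : ℝ} {Z : ℝ → ℝ} (h : Osc ω Z) : IntervalIntegrable Z volume 0 1 :=
  (h.cont.mono (by rw [Set.uIcc_of_le zero_le_one])).intervalIntegrable

lemma Osc.int_log {ω : ℝ} {Z : ℝ → ℝ} (h : Osc ω Z) :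
    IntervalIntegrable (fun c => Real.log (Z c)) volume 0 1 := by
  refine ContinuousOn.intervalIntegrable ?_
  rw [Set.uIcc_of_le zero_le_one]
  exact h.cont.log fun c hc => (h.pos c hc).ne'

/-- **(AVG)** `0 ≤ log ∫ Z - ∫ log Z ≤ 2 ω²` -/
theorem avg_log {ω : ℝ} {Z : ℝ → ℝ} (h : Osc ω Z) (hω : ω ≤ 1 / 2) :
    0 ≤ Real.log (∫ c in (0 : ℝ)..1, Z c) - ∫ c in (0 : ℝ)..1, Real.log (Z c) ∧
      Real.log (∫ c in (0 : ℝ)..1, Z c) - ∫ c in (0 : ℝ)..1, Real.log (Z c) ≤ 2 * ω ^ 2 := by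
  set m := ∫ c in (0 : ℝ)..1, Z c with hm
  have hm0 : 0 < m := h.mean_pos
  -- pointwise bounds
  have key : ∀ c ∈ Icc (0 : ℝ) 1, Real.log m + (Z c / m - 1) - 2 * ω ^ 2 ≤ Real.log (Z c) ∧
      Real.log (Z c) ≤ Real.log m + (Z c / m - 1) := by
    intro c hc
    have hz := h.pos c hc
    have h1 : |Z c / m - 1| ≤ ω := by
      have h2 : Z c / m - 1 = (Z c - m) / m := by field_simp
      rw [h2, abs_div, abs_of_pos hm0, div_le_iff₀ hm0]
      exact h.osc c hc
    have h3 : Real.log (Z c) = Real.log m + Real.log (1 + (Z c / m - 1)) := by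
      rw [← Real.log_mul hm0.ne' (by have := div_pos hz hm0; linarith)]
      congr 1
      field_simp
      ring
    have h4 := log_one_add_ge (h1.trans hω)
    have h5 : (Z c / m - 1) ^ 2 ≤ ω ^ 2 := by
      rw [← sq_abs]
      exact pow_le_pow_left₀ (abs_nonneg _) h1 2
    have h6 : Real.log (1 + (Z c / m - 1)) ≤ Z c / m - 1 := by
      have := Real.log_le_sub_one_of_pos (x := 1 + (Z c / m - 1))
        (by have := div_pos hz hm0; linarith)
      linarith
    constructor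
    · rw [h3]; linarith
    · rw [h3]; linarith
  have hi : IntervalIntegrable (fun c => Real.log m + (Z c / m - 1)) volume 0 1 :=
    intervalIntegrable_const.add ((h.int.div_const m).sub intervalIntegrable_const)
  have hval : ∫ c in (0 : ℝ)..1, (Real.log m + (Z c / m - 1)) = Real.log m := by
    rw [intervalIntegral.integral_add intervalIntegrable_const
      ((h.int.div_const m).sub intervalIntegrable_const),
      intervalIntegral.integral_sub (h.int.div_const m) intervalIntegrable_const,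
      intervalIntegral.integral_div]
    simp only [intervalIntegral.integral_const, sub_zero, smul_eq_mul, one_mul]
    rw [← hm, div_self hm0.ne']
    ring
  have hval2 : ∫ c in (0 : ℝ)..1, (Real.log m + (Z c / m - 1) - 2 * ω ^ 2) =
      Real.log m - 2 * ω ^ 2 := by
    rw [intervalIntegral.integral_sub hi intervalIntegrable_const, hval]
    simp
  have hup : ∫ c in (0 : ℝ)..1, Real.log (Z c) ≤ Real.log m := by
    rw [← hval]
    exact intervalIntegral.integral_mono_on zero_le_one h.int_log hi fun c hc => (key c hc).2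
  have hlo : Real.log m - 2 * ω ^ 2 ≤ ∫ c in (0 : ℝ)..1, Real.log (Z c) := by
    rw [← hval2]
    exact intervalIntegral.integral_mono_on zero_le_one (hi.sub intervalIntegrable_const)
      h.int_log fun c hc => (key c hc).1
  constructor <;> linarith

theorem avg_log_abs {ω : ℝ} {Z : ℝ → ℝ} (h : Osc ω Z) (hω : ω ≤ 1 / 2) :
    |Real.log (∫ c in (0 : ℝ)..1, Z c) - ∫ c in (0 : ℝ)..1, Real.log (Z c)| ≤ 2 * ω ^ 2 := by
  have h1 := avg_log h hω
  rw [abs_of_nonneg h1.1]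
  exact h1.2

/-- **(COMB)** linear combinations of the values of `log ∫ Z` -/
theorem comb {ι : Type*} (s : Finset ι) (a : ι → ℝ) (ω : ι → ℝ) (Z : ι → ℝ → ℝ)
    (h : ∀ i ∈ s, Osc (ω i) (Z i)) (hω : ∀ i ∈ s, ω i ≤ 1 / 2) :
    |∑ i ∈ s, a i * Real.log (∫ c in (0 : ℝ)..1, Z i c) -
        ∫ c in (0 : ℝ)..1, ∑ i ∈ s, a i * Real.log (Z i c)| ≤ ∑ i ∈ s, |a i| * (2 * ω i ^ 2) := by
  rw [intervalIntegral.integral_finsetSum fun i hi => (h i hi).int_log.const_mul (a i),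
    ← Finset.sum_sub_distrib]
  refine (Finset.abs_sum_le_sum_abs _ _).trans (Finset.sum_le_sum fun i hi => ?_)
  rw [intervalIntegral.integral_const_mul, ← mul_sub, abs_mul]
  exact mul_le_mul_of_nonneg_left (avg_log_abs (h i hi) (hω i hi)) (abs_nonneg _)

/-- a pointwise bound of the combination gives the bound of the neutral combination -/
theorem comb_le {ι : Type*} (s : Finset ι) (a : ι → ℝ) (ω : ι → ℝ) (Z : ι → ℝ → ℝ) {ε : ℝ}
    (h : ∀ i ∈ s, Osc (ω i) (Z i)) (hω : ∀ i ∈ s, ω i ≤ 1 / 2)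
    (hε : ∀ c ∈ Icc (0 : ℝ) 1, |∑ i ∈ s, a i * Real.log (Z i c)| ≤ ε) :
    |∑ i ∈ s, a i * Real.log (∫ c in (0 : ℝ)..1, Z i c)| ≤
      ε + ∑ i ∈ s, |a i| * (2 * ω i ^ 2) := by
  have h1 := comb s a ω Z h hω
  have h2 : |∫ c in (0 : ℝ)..1, ∑ i ∈ s, a i * Real.log (Z i c)| ≤ ε := by
    have := intervalIntegral.norm_integral_le_of_norm_le_const (a := (0 : ℝ)) (b := 1) (C := ε)
      (f := fun c => ∑ i ∈ s, a i * Real.log (Z i c)) fun c hc => by
        rw [uIoc_of_le zero_le_one] at hc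
        exact hε c ⟨hc.1.le, hc.2⟩
    simpa using this
  have h3 := abs_sub_abs_le_abs_sub
    (∑ i ∈ s, a i * Real.log (∫ c in (0 : ℝ)..1, Z i c))
    (∫ c in (0 : ℝ)..1, ∑ i ∈ s, a i * Real.log (Z i c))
  linarith

/-- one-sided version -/
theorem comb_le' {ι : Type*} (s : Finset ι) (a : ι → ℝ) (ω : ι → ℝ) (Z : ι → ℝ → ℝ) {ε : ℝ}
    (h : ∀ i ∈ s, Osc (ω i) (Z i)) (hω : ∀ i ∈ s, ω i ≤ 1 / 2)
    (hε : ∀ c ∈ Icc (0 : ℝ) 1, ∑ i ∈ s, a i * Real.log (Z i c) ≤ ε) :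
    ∑ i ∈ s, a i * Real.log (∫ c in (0 : ℝ)..1, Z i c) ≤
      ε + ∑ i ∈ s, |a i| * (2 * ω i ^ 2) := by
  have h1 := (abs_le.1 (comb s a ω Z h hω)).2
  have h2 : ∫ c in (0 : ℝ)..1, ∑ i ∈ s, a i * Real.log (Z i c) ≤ ε := by
    have h3 := intervalIntegral.integral_mono_on (a := (0 : ℝ)) (b := 1) (μ := volume)
      (f := fun c => ∑ i ∈ s, a i * Real.log (Z i c)) (g := fun _ => ε) zero_le_one
      (by
        have h4 := IntervalIntegrable.sum s fun i hi => (h i hi).int_log.const_mul (a i)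
        refine h4.congr fun c _ => ?_
        simp only [Finset.sum_apply])
      intervalIntegrable_const hε
    simpa using h3
  linarith

/-- **(PAIR / TORN), four functions**: if the mixed difference of the logarithms is `≤ ε` for every
constant, then the mixed difference of the logarithms of the means is `≤ ε + 8 ω²`. -/
theorem four {ω ε : ℝ} {Z₁₁ Z₁₀ Z₀₁ Z₀₀ : ℝ → ℝ} (h₁₁ : Osc ω Z₁₁) (h₁₀ : Osc ω Z₁₀)
    (h₀₁ : Osc ω Z₀₁) (h₀₀ : Osc ω Z₀₀) (hω : ω ≤ 1 / 2)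
    (hε : ∀ c ∈ Icc (0 : ℝ) 1,
      |Real.log (Z₁₁ c) - Real.log (Z₁₀ c) - Real.log (Z₀₁ c) + Real.log (Z₀₀ c)| ≤ ε) :
    |Real.log (∫ c in (0 : ℝ)..1, Z₁₁ c) - Real.log (∫ c in (0 : ℝ)..1, Z₁₀ c) -
        Real.log (∫ c in (0 : ℝ)..1, Z₀₁ c) + Real.log (∫ c in (0 : ℝ)..1, Z₀₀ c)| ≤
      ε + 8 * ω ^ 2 := by
  have h := comb_le (Finset.univ : Finset (Fin 4)) ![1, -1, -1, 1] (fun _ => ω)
    ![Z₁₁, Z₁₀, Z₀₁, Z₀₀] (ε := ε) ?_ (fun _ _ => hω) ?_
  · simp only [Fin.sum_univ_four, Matrix.cons_val_zero, Matrix.cons_val_one, Matrix.cons_val] at h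
    have e1 : Real.log (∫ c in (0 : ℝ)..1, Z₁₁ c) - Real.log (∫ c in (0 : ℝ)..1, Z₁₀ c) -
        Real.log (∫ c in (0 : ℝ)..1, Z₀₁ c) + Real.log (∫ c in (0 : ℝ)..1, Z₀₀ c) =
        1 * Real.log (∫ c in (0 : ℝ)..1, Z₁₁ c) + -1 * Real.log (∫ c in (0 : ℝ)..1, Z₁₀ c) +
        -1 * Real.log (∫ c in (0 : ℝ)..1, Z₀₁ c) + 1 * Real.log (∫ c in (0 : ℝ)..1, Z₀₀ c) := by
      ring
    rw [e1]
    refine h.trans (le_of_eq ?_)
    norm_num
    ring
  · intro i _
    fin_cases i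
    · exact h₁₁
    · exact h₁₀
    · exact h₀₁
    · exact h₀₀
  · intro c hc
    have := hε c hc
    simp only [Fin.sum_univ_four, Matrix.cons_val_zero, Matrix.cons_val_one, Matrix.cons_val]
    refine le_trans (le_of_eq ?_) this
    congr 1
    ring

/-! ### the neutral model in the letters of `Spec0` -/

open Vale.Agent.P159.TM.H104 (EM Lg)
open Vale.Agent.P159.H37

section inst

variable {V : Type*} [Fintype V] [DecidableEq V] {w : (V → ℤ) → ℝ} {M : Matrix V V ℝ}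

/-- `log Z_M(F)` -/
noncomputable def LM (w : (V → ℤ) → ℝ) (M : Matrix V V ℝ) (F : V → ℝ) : ℝ := Real.log (ZM w M F)

/-- `log Z⁰_M(F)` -/
noncomputable def L0 (w : (V → ℤ) → ℝ) (M : Matrix V V ℝ) (F : V → ℝ) : ℝ := Real.log (Zn w M F)

/-- shift by a constant -/
def cs (F : V → ℝ) (c : ℝ) : V → ℝ := fun x => F x + c

/-- relative oscillation of `Z` under constants, around the neutral value -/
def OscZ (w : (V → ℤ) → ℝ) (M : Matrix V V ℝ) (ω : ℝ) : Prop :=
  ∀ (F : V → ℝ), ∀ c ∈ Icc (0 : ℝ) 1, |ZM w M (cs F c) - Zn w M F| ≤ ω * Zn w M F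

omit [DecidableEq V] in
lemma continuous_ZM (hM : M.transpose = M) (hE : EM (wM w M)) : Continuous (ZM w M) := by
  have h1 : ZM w M = fun F => Real.exp (-(qf M F / 2)) * Zs (wM w M) (M.mulVec F) := by
    funext F
    exact ZM_eq w hM F
  rw [h1]
  have h2 := continuous_Zs hE
  have h3 : Continuous fun F : V → ℝ => M.mulVec F := by fun_prop
  have h4 : Continuous fun F : V → ℝ => qf M F := by
    unfold qf
    fun_prop
  exact (h4.div_const 2).neg.rexp.mul (h2.comp h3)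

omit [Fintype V] [DecidableEq V] in
lemma continuous_cs (F : V → ℝ) : Continuous (cs F) := by
  unfold cs
  fun_prop

omit [DecidableEq V] in
lemma osc_of (hM : M.transpose = M) (hE : EM (wM w M)) {ω : ℝ} (hO : OscZ w M ω) (F : V → ℝ) :
    Osc ω fun c => ZM w M (cs F c) where
  cont := ((continuous_ZM hM hE).comp (continuous_cs F)).continuousOn
  pos := fun _ _ => ZM_pos hM hE _
  osc := fun c hc => hO F c hc

omit [DecidableEq V] in
lemma Zn_pos (hM : M.transpose = M) (hE : EM (wM w M)) (F : V → ℝ) : 0 < Zn w M F := by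
  unfold Zn
  refine intervalIntegral_pos_of_pos_on ?_ ?_ one_pos
  · exact ((continuous_ZM hM hE).comp (continuous_cs F)).intervalIntegrable _ _
  · intro c _
    exact ZM_pos hM hE _

omit [DecidableEq V] in
lemma Un_eq (hM : M.transpose = M) (hE : EM (wM w M)) (F : V → ℝ) :
    Un w M F = L0 w M 0 - L0 w M F := by
  unfold Un L0
  rw [Real.log_div (Zn_pos hM hE F).ne' (Zn_pos hM hE 0).ne']
  ring

omit [DecidableEq V] in
/-- **(AVG)** the neutral free energy is the mean of the free energy over constants, up to `2 ω²`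
(and with a sign) -/
theorem L0_avg (hM : M.transpose = M) (hE : EM (wM w M)) {ω : ℝ} (hO : OscZ w M ω)
    (hω : ω ≤ 1 / 2) (F : V → ℝ) :
    0 ≤ L0 w M F - ∫ c in (0 : ℝ)..1, LM w M (cs F c) ∧
      L0 w M F - ∫ c in (0 : ℝ)..1, LM w M (cs F c) ≤ 2 * ω ^ 2 :=
  avg_log (osc_of hM hE hO F) hω

omit [DecidableEq V] in
/-- **(PAIR)** -/
theorem pair (hM : M.transpose = M) (hE : EM (wM w M)) {ω ε : ℝ} (hO : OscZ w M ω)
    (hω : ω ≤ 1 / 2) (F f g : V → ℝ)
    (hε : ∀ c ∈ Icc (0 : ℝ) 1, |LM w M (cs (F + f + g) c) - LM w M (cs (F + f) c) -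
      LM w M (cs (F + g) c) + LM w M (cs F c)| ≤ ε) :
    |L0 w M (F + f + g) - L0 w M (F + f) - L0 w M (F + g) + L0 w M F| ≤ ε + 8 * ω ^ 2 :=
  four (osc_of hM hE hO _) (osc_of hM hE hO _) (osc_of hM hE hO _) (osc_of hM hE hO _) hω hε

omit [DecidableEq V] in
/-- **(TORN)** two models (two tori, two masses, ..) -/
theorem torn {V' : Type*} [Fintype V'] {w' : (V' → ℤ) → ℝ} {M' : Matrix V' V' ℝ}
    (hM : M.transpose = M) (hE : EM (wM w M)) (hM' : M'.transpose = M') (hE' : EM (wM w' M'))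
    {ω ε : ℝ} (hO : OscZ w M ω) (hO' : OscZ w' M' ω) (hω : ω ≤ 1 / 2) (F : V → ℝ) (F' : V' → ℝ)
    (hε : ∀ c ∈ Icc (0 : ℝ) 1, |(LM w M (cs F c) - LM w M (cs 0 c)) -
      (LM w' M' (cs F' c) - LM w' M' (cs 0 c))| ≤ ε) :
    |Un w M F - Un w' M' F'| ≤ ε + 8 * ω ^ 2 := by
  have h := four (ε := ε) (osc_of hM hE hO F) (osc_of hM hE hO 0) (osc_of hM' hE' hO' F')
    (osc_of hM' hE' hO' 0) hω ?_
  · rw [Un_eq hM hE, Un_eq hM' hE']
    refine le_trans (le_of_eq ?_) h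
    rw [← abs_neg]
    unfold L0 Zn cs
    congr 1
    ring
  · intro c hc
    refine le_trans (le_of_eq ?_) (hε c hc)
    unfold LM
    congr 1
    ring

/-- `T⁰(F) = log Z⁰(2F) - 4 log Z⁰(F) + 3 log Z⁰(0)` -/
noncomputable def T0 (w : (V → ℤ) → ℝ) (M : Matrix V V ℝ) (F : V → ℝ) : ℝ :=
  L0 w M ((2 : ℝ) • F) - 4 * L0 w M F + 3 * L0 w M 0

omit [DecidableEq V] in
/-- `T⁰` under a change of the model: from the values at `F` and at `2 F` -/
theorem torn_T0 {V' : Type*} [Fintype V'] {w' : (V' → ℤ) → ℝ} {M' : Matrix V' V' ℝ}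
    (hM : M.transpose = M) (hE : EM (wM w M)) (hM' : M'.transpose = M') (hE' : EM (wM w' M'))
    {ω ε : ℝ} (hO : OscZ w M ω) (hO' : OscZ w' M' ω) (hω : ω ≤ 1 / 2) (F : V → ℝ) (F' : V' → ℝ)
    (h1 : ∀ c ∈ Icc (0 : ℝ) 1, |(LM w M (cs F c) - LM w M (cs 0 c)) -
      (LM w' M' (cs F' c) - LM w' M' (cs 0 c))| ≤ ε)
    (h2 : ∀ c ∈ Icc (0 : ℝ) 1, |(LM w M (cs ((2 : ℝ) • F) c) - LM w M (cs 0 c)) -
      (LM w' M' (cs ((2 : ℝ) • F') c) - LM w' M' (cs 0 c))| ≤ ε) :
    |T0 w M F - T0 w' M' F'| ≤ 5 * ε + 40 * ω ^ 2 := by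
  have a1 := torn hM hE hM' hE' hO hO' hω F F' h1
  have a2 := torn hM hE hM' hE' hO hO' hω ((2 : ℝ) • F) ((2 : ℝ) • F') h2
  rw [Un_eq hM hE, Un_eq hM' hE'] at a1 a2
  unfold T0
  rw [abs_le] at a1 a2 ⊢
  constructor <;> linarith [a1.1, a1.2, a2.1, a2.2]

omit [DecidableEq V] in
/-- `T⁰` as a mean over constants -/
theorem T0_avg (hM : M.transpose = M) (hE : EM (wM w M)) {ω : ℝ} (hO : OscZ w M ω)
    (hω : ω ≤ 1 / 2) (F : V → ℝ) :
    |T0 w M F - ∫ c in (0 : ℝ)..1, (LM w M (cs ((2 : ℝ) • F) c) - 4 * LM w M (cs F c) +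
      3 * LM w M (cs 0 c))| ≤ 8 * ω ^ 2 := by
  have i1 := (osc_of hM hE hO ((2 : ℝ) • F)).int_log
  have i2 := (osc_of hM hE hO F).int_log
  have i3 := (osc_of hM hE hO 0).int_log
  have e : ∫ c in (0 : ℝ)..1, (LM w M (cs ((2 : ℝ) • F) c) - 4 * LM w M (cs F c) +
      3 * LM w M (cs 0 c)) = (∫ c in (0 : ℝ)..1, LM w M (cs ((2 : ℝ) • F) c)) -
      4 * (∫ c in (0 : ℝ)..1, LM w M (cs F c)) + 3 * ∫ c in (0 : ℝ)..1, LM w M (cs 0 c) := by
    unfold LM
    rw [intervalIntegral.integral_add (i1.sub (i2.const_mul 4)) (i3.const_mul 3),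
      intervalIntegral.integral_sub i1 (i2.const_mul 4), intervalIntegral.integral_const_mul,
      intervalIntegral.integral_const_mul]
  rw [e]
  have a1 := L0_avg hM hE hO hω ((2 : ℝ) • F)
  have a2 := L0_avg hM hE hO hω F
  have a3 := L0_avg hM hE hO hω 0
  unfold T0
  rw [abs_le]
  constructor <;> nlinarith [a1.1, a1.2, a2.1, a2.2, a3.1, a3.2]

omit [DecidableEq V] in
/-- background letters and source letters -/
lemma LM_eq (hM : M.transpose = M) (hE : EM (wM w M)) (F : V → ℝ) :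
    LM w M F = Lg (wM w M) (M.mulVec F) - qf M F / 2 := by
  unfold LM
  rw [ZM_eq w hM, Real.log_mul (Real.exp_pos _).ne' (Zs_pos hE _).ne', Real.log_exp]
  unfold Lg Zs
  ring

omit [DecidableEq V] in
/-- mixed differences: background letters and source letters -/
lemma LM_mixed (hM : M.transpose = M) (hE : EM (wM w M)) (F f g : V → ℝ) :
    LM w M (F + f + g) - LM w M (F + f) - LM w M (F + g) + LM w M F =
      (Lg (wM w M) (M.mulVec F + M.mulVec f + M.mulVec g) -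
        Lg (wM w M) (M.mulVec F + M.mulVec f) - Lg (wM w M) (M.mulVec F + M.mulVec g) +
        Lg (wM w M) (M.mulVec F)) - bf M f g := by
  rw [LM_eq hM hE, LM_eq hM hE, LM_eq hM hE, LM_eq hM hE]
  have e1 := qf_add_vec hM (F + f) g
  have e2 := qf_add_vec hM F g
  have e3 := bf_add_left M F f g
  rw [Matrix.mulVec_add, Matrix.mulVec_add, Matrix.mulVec_add]
  linarith

omit [Fintype V] [DecidableEq V] in
lemma cs_add (F f : V → ℝ) (c : ℝ) : cs (F + f) c = cs F c + f := by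
  funext x
  simp only [cs, Pi.add_apply]
  ring

omit [DecidableEq V] in
/-- **locality of the neutral functional**, source letters: a bound of the mixed difference of
`Lg` at every background `F + c` gives the one of the neutral model, with error `8 ω²` -/
theorem pair_src (hM : M.transpose = M) (hE : EM (wM w M)) {ω ε : ℝ} (hO : OscZ w M ω)
    (hω : ω ≤ 1 / 2) (F f g : V → ℝ) (hb : bf M f g = 0)
    (hε : ∀ c ∈ Icc (0 : ℝ) 1, |Lg (wM w M) (M.mulVec (cs F c) + M.mulVec f + M.mulVec g) -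
        Lg (wM w M) (M.mulVec (cs F c) + M.mulVec f) -
        Lg (wM w M) (M.mulVec (cs F c) + M.mulVec g) + Lg (wM w M) (M.mulVec (cs F c))| ≤ ε) :
    |L0 w M (F + f + g) - L0 w M (F + f) - L0 w M (F + g) + L0 w M F| ≤ ε + 8 * ω ^ 2 := by
  refine pair hM hE hO hω F f g fun c hc => ?_
  have h := hε c hc
  rw [cs_add, cs_add, cs_add, LM_mixed hM hE, hb, sub_zero]
  exact h

omit [DecidableEq V] in
/-- **almost additivity**: the neutral functional of a sum of two far fields -/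
theorem pair_zero (hM : M.transpose = M) (hE : EM (wM w M)) {ω ε : ℝ} (hO : OscZ w M ω)
    (hω : ω ≤ 1 / 2) (f g : V → ℝ)
    (hε : ∀ c ∈ Icc (0 : ℝ) 1, |LM w M (cs (0 + f + g) c) - LM w M (cs (0 + f) c) -
      LM w M (cs (0 + g) c) + LM w M (cs 0 c)| ≤ ε) :
    |Un w M (f + g) - Un w M f - Un w M g| ≤ ε + 8 * ω ^ 2 := by
  have h := pair hM hE hO hω 0 f g hε
  rw [zero_add, zero_add] at h
  rw [Un_eq hM hE, Un_eq hM hE, Un_eq hM hE, ← abs_neg]
  refine le_trans (le_of_eq ?_) h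
  congr 1
  ring

end inst

end Vale.Agent.P159.H145
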