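import Vale.Agent.P159.H972.ParL

/-!
P159 / P_up (helper145), module NUM, part 1: numbers of one step in powers of `ε`.

* `two_lg_ge`, `two_lg_le` : `2 ^ lg c ε` against `ε ^ (-c)`;
* `absorb`, `exp_absorb`, `log_le_pow` : smallness for small `ε`;
* `StN` : the numbers of one step (window, torus, cells) with their bounds.
-/

set_option linter.unusedSectionVars false

namespace Vale.Agent.P159.H145

open Finset Matrix
open Vale.Agent.P159.H972

noncomputable section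

lemma two_lg_ge {c e : ℝ} (he : 0 < e) : e ^ (-c) ≤ (2 : ℝ) ^ lg c e := by
  have h1 : c * Real.logb 2 (1 / e) ≤ (lg c e : ℝ) := Nat.le_ceil _
  have h2 : e ^ (-c) = (2 : ℝ) ^ (c * Real.logb 2 (1 / e)) := by
    rw [mul_comm, Real.rpow_mul (by norm_num), Real.rpow_logb two_pos (by norm_num) (by positivity),
      one_div, Real.inv_rpow he.le, Real.rpow_neg he.le]
  rw [h2, ← Real.rpow_natCast]
  exact Real.rpow_le_rpow_of_exponent_le one_le_two h1

lemma two_lg_le {c e : ℝ} (hc : 0 ≤ c) (he : 0 < e) (he1 : e ≤ 1) :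
    (2 : ℝ) ^ lg c e ≤ 2 * e ^ (-c) := by
  have h0 := logb_nonneg' he he1
  have h1 : (lg c e : ℝ) ≤ c * Real.logb 2 (1 / e) + 1 :=
    (Nat.ceil_lt_add_one (by positivity)).le
  have h2 : e ^ (-c) = (2 : ℝ) ^ (c * Real.logb 2 (1 / e)) := by
    rw [mul_comm, Real.rpow_mul (by norm_num), Real.rpow_logb two_pos (by norm_num) (by positivity),
      one_div, Real.inv_rpow he.le, Real.rpow_neg he.le]
  rw [h2, ← Real.rpow_natCast]
  calc (2 : ℝ) ^ (lg c e : ℝ) ≤ (2 : ℝ) ^ (c * Real.logb 2 (1 / e) + 1) :=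
        Real.rpow_le_rpow_of_exponent_le one_le_two h1
    _ = _ := by rw [Real.rpow_add two_pos, Real.rpow_one, mul_comm]

/-- constants are absorbed -/
lemma absorb {A a κ : ℝ} (hA : 0 ≤ A) (ha : 0 < a) (hκ : 0 < κ) :
    ∃ E : ℝ, 0 < E ∧ ∀ e, 0 < e → e ≤ E → A * e ^ a ≤ κ := by
  refine ⟨(κ / (A + 1)) ^ (1 / a), by positivity, fun e he h => ?_⟩
  have h1 : e ^ a ≤ κ / (A + 1) := by
    calc e ^ a ≤ ((κ / (A + 1)) ^ (1 / a)) ^ a := Real.rpow_le_rpow he.le h ha.le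
      _ = κ / (A + 1) := by
        rw [← Real.rpow_mul (by positivity), one_div, inv_mul_cancel₀ ha.ne', Real.rpow_one]
  calc A * e ^ a ≤ A * (κ / (A + 1)) := mul_le_mul_of_nonneg_left h1 hA
    _ = κ * (A / (A + 1)) := by ring
    _ ≤ κ * 1 := mul_le_mul_of_nonneg_left ((div_le_one (by linarith)).2 (by linarith)) hκ.le
    _ = κ := mul_one κ

lemma log_le_pow {a e : ℝ} (ha : 0 < a) (he : 0 < e) : Real.log (1 / e) ≤ e ^ (-a) / a := by
  have h := Real.log_le_rpow_div (x := 1 / e) (by positivity) ha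
  rwa [one_div, Real.inv_rpow he.le, ← Real.rpow_neg he.le, ← one_div] at h

/-- stretched exponentials are smaller than powers -/
lemma exp_absorb {c a : ℝ} (q : ℝ) (hc : 0 < c) (ha : 0 < a) :
    ∃ E : ℝ, 0 < E ∧ ∀ e, 0 < e → e ≤ E → Real.exp (-(c * e ^ (-a))) ≤ e ^ q := by
  obtain ⟨E, hE, h⟩ := absorb (A := |q| * (2 / a)) (a := a / 2) (κ := c) (by positivity)
    (by linarith) hc
  refine ⟨min E 1, lt_min hE one_pos, fun e he h1 => ?_⟩
  have h2 := h e he (h1.trans (min_le_left _ _))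
  have he1 : e ≤ 1 := h1.trans (min_le_right _ _)
  have h3 := log_le_pow (a := a / 2) (by linarith) he
  have h5 : 0 ≤ Real.log (1 / e) := Real.log_nonneg ((le_div_iff₀ he).2 (by linarith))
  have h4 : e ^ q = Real.exp (-(q * Real.log (1 / e))) := by
    rw [Real.rpow_def_of_pos he, one_div, Real.log_inv]
    congr 1
    ring
  rw [h4, Real.exp_le_exp, neg_le_neg_iff]
  have h6 : e ^ (a / 2) * e ^ (-(a / 2)) = 1 := by
    rw [← Real.rpow_add he, add_neg_cancel, Real.rpow_zero]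
  have h7 : e ^ (-a) = e ^ (-(a / 2)) * e ^ (-(a / 2)) := by
    rw [← Real.rpow_add he]
    congr 1
    ring
  have h8 : 0 < e ^ (-(a / 2)) := Real.rpow_pos_of_pos he _
  calc q * Real.log (1 / e) ≤ |q| * Real.log (1 / e) :=
        mul_le_mul_of_nonneg_right (le_abs_self q) h5
    _ ≤ |q| * (e ^ (-(a / 2)) / (a / 2)) := mul_le_mul_of_nonneg_left h3 (abs_nonneg q)
    _ = (|q| * (2 / a)) * e ^ (-(a / 2)) := by
        field_simp
    _ = (|q| * (2 / a)) * (e ^ (a / 2) * e ^ (-(a / 2))) * e ^ (-(a / 2)) := by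
        rw [h6, mul_one]
    _ = (|q| * (2 / a) * e ^ (a / 2)) * (e ^ (-(a / 2)) * e ^ (-(a / 2))) := by ring
    _ ≤ c * (e ^ (-(a / 2)) * e ^ (-(a / 2))) :=
        mul_le_mul_of_nonneg_right h2 (by positivity)
    _ = _ := by rw [h7]

lemma rpow_anti {e a b : ℝ} (he : 0 < e) (he1 : e ≤ 1) (h : a ≤ b) : e ^ b ≤ e ^ a :=
  Real.rpow_le_rpow_of_exponent_ge he he1 h

lemma one_le_rpow_neg {e a : ℝ} (he : 0 < e) (he1 : e ≤ 1) (ha : 0 ≤ a) : 1 ≤ e ^ (-a) := by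
  have := rpow_anti he he1 (show -a ≤ 0 by linarith)
  rwa [Real.rpow_zero] at this

lemma pow_base {e a : ℝ} (he : 0 < e) (A : ℝ) (k : ℕ) :
    (A * e ^ a) ^ k = A ^ k * e ^ (a * k) := by
  rw [mul_pow, ← Real.rpow_natCast (e ^ a) k, ← Real.rpow_mul he.le]

/-! ### the numbers of one step -/

/-- the numbers of one step from level `n` to level `m`: `M = 2 ^ (m - n)`, number of boxes
`nb = 2 ^ (r - n)` per side, `mm` cells per side of a box -/
structure StN (th thp C0 : ℝ) (n m r s : ℕ) (ε : ℝ) : Prop where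
  ε0 : 0 < ε
  ε1 : ε ≤ 1 / 2
  th0 : 0 < th
  thp0 : 0 < thp
  C00 : 0 ≤ C0
  hth : th ≤ thp
  lo : n + lg thp ε ≤ m
  up : m ≤ n + 4 * lg thp ε
  hr : r = m + lg th ε + 1
  hs : n ≤ s + lg C0 ε
  hsn : s ≤ n

namespace StN

variable {th thp C0 ε : ℝ} {n m r s : ℕ} (h : StN th thp C0 n m r s ε)
include h

lemma ε1' : ε ≤ 1 := h.ε1.trans (by norm_num)

lemma nm : n ≤ m := by have := h.lo; omega

lemma mr : m < r := by have := h.hr; omega

/-- lower bound of the mass ratio -/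
lemma M_ge : ε ^ (-thp) ≤ (2 : ℝ) ^ (m - n) :=
  (two_lg_ge h.ε0).trans (pow_le_pow_right₀ one_le_two (by have := h.lo; omega))

lemma M_le : (2 : ℝ) ^ (m - n) ≤ 16 * ε ^ (-(4 * thp)) := by
  have h1 := two_lg_le h.thp0.le h.ε0 h.ε1'
  calc (2 : ℝ) ^ (m - n) ≤ 2 ^ (4 * lg thp ε) :=
        pow_le_pow_right₀ one_le_two (by have := h.up; omega)
    _ = ((2 : ℝ) ^ lg thp ε) ^ 4 := by rw [← pow_mul, mul_comm]
    _ ≤ (2 * ε ^ (-thp)) ^ 4 := by gcongr
    _ = 16 * ε ^ (-(4 * thp)) := by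
        rw [pow_base h.ε0]
        norm_num
        congr 1
        ring

lemma K_le : (2 : ℝ) ^ lg th ε ≤ 2 * ε ^ (-th) := two_lg_le h.th0.le h.ε0 h.ε1'

lemma K_ge : ε ^ (-th) ≤ (2 : ℝ) ^ lg th ε := two_lg_ge h.ε0

lemma nb_eq : (2 : ℝ) ^ (r - n) = 2 * 2 ^ lg th ε * 2 ^ (m - n) := by
  have : r - n = (m - n) + lg th ε + 1 := by have := h.hr; have := h.nm; omega
  rw [this, pow_add, pow_add, pow_one]
  ring

lemma nb_le : (2 : ℝ) ^ (r - n) ≤ 64 * ε ^ (-(5 * thp)) := by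
  rw [h.nb_eq]
  calc 2 * (2 : ℝ) ^ lg th ε * 2 ^ (m - n) ≤ 2 * (2 * ε ^ (-th)) * (16 * ε ^ (-(4 * thp))) := by
        have h1 := h.K_le
        have h2 := h.M_le
        have h3 : 0 ≤ ε ^ (-th) := Real.rpow_nonneg h.ε0.le _
        exact mul_le_mul (mul_le_mul_of_nonneg_left h1 zero_le_two) h2 (by positivity)
          (by positivity)
    _ = 64 * (ε ^ (-th) * ε ^ (-(4 * thp))) := by ring
    _ ≤ 64 * (ε ^ (-thp) * ε ^ (-(4 * thp))) := by
        have h1 := rpow_anti h.ε0 h.ε1' (show -thp ≤ -th by linarith [h.hth])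
        have h3 : 0 ≤ ε ^ (-(4 * thp)) := Real.rpow_nonneg h.ε0.le _
        exact mul_le_mul_of_nonneg_left (mul_le_mul_of_nonneg_right h1 h3) (by norm_num)
    _ = _ := by
        rw [← Real.rpow_add h.ε0]
        congr 2
        ring

lemma nb_ge : 2 * (2 : ℝ) ^ (m - n) ≤ 2 ^ (r - n) := by
  rw [h.nb_eq]
  have h1 : (1 : ℝ) ≤ 2 ^ lg th ε := one_le_pow₀ one_le_two
  have h2 : (0 : ℝ) < 2 ^ (m - n) := by positivity
  nlinarith

lemma mm_le : (2 : ℝ) ^ (n - s) ≤ 2 * ε ^ (-C0) :=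
  (pow_le_pow_right₀ one_le_two (by have := h.hs; omega)).trans (two_lg_le h.C00 h.ε0 h.ε1')

lemma nc_le : (2 : ℝ) ^ (r - s) ≤ 128 * ε ^ (-(5 * thp + C0)) := by
  have e : r - s = (r - n) + (n - s) := by
    have := h.hsn; have := h.nm; have := h.mr; omega
  rw [e, pow_add]
  calc (2 : ℝ) ^ (r - n) * 2 ^ (n - s) ≤ (64 * ε ^ (-(5 * thp))) * (2 * ε ^ (-C0)) :=
        mul_le_mul h.nb_le h.mm_le (by positivity)
          (mul_nonneg (by norm_num) (Real.rpow_nonneg h.ε0.le _))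
    _ = 128 * (ε ^ (-(5 * thp)) * ε ^ (-C0)) := by ring
    _ = _ := by
        rw [← Real.rpow_add h.ε0]
        congr 2
        ring

/-- the common polynomial bound -/
lemma M_leB : (2 : ℝ) ^ (m - n) ≤ 64 * ε ^ (-(5 * thp)) := by
  have h1 := h.nb_ge
  have h2 := h.nb_le
  have h3 : (0 : ℝ) < 2 ^ (m - n) := by positivity
  linarith

lemma one_le_B : 1 ≤ 64 * ε ^ (-(5 * thp)) := by
  have := one_le_rpow_neg h.ε0 h.ε1' (show 0 ≤ 5 * thp by linarith [h.thp0])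
  linarith

end StN

end

end Vale.Agent.P159.H145
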