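import Vale.Agent.P159.TM.H576.Fat

/-!
P159, module DZ (helper145), part 1: the swap across a set `K` of edges.

`σ : Sys V E S` swap invariant system. `totT σ K x` is the weight in which the first end point of
every edge of `K` is swapped. `Cuts σ K om A` : inside the open set `om` the edges of `K` are the
boundary edges of `A`; then the swap of `A` undoes the twist. Hence twisted and untwisted integrals
of a function of the window `W` differ by at most the weight of the open sets which have no such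
`A` outside `W`.
-/

set_option linter.unusedSectionVars false
set_option linter.unusedDecidableInType false

namespace Vale.Agent.P159.H145.Dz

open scoped ENNReal
open Finset Vale.Agent.P159.TM.H60 Vale.Agent.P159.TM.H576

variable {V E S : Type*} [Fintype V] [DecidableEq V] [Fintype E] [DecidableEq E]
variable (σ : Sys V E S) (K : Finset E)

/-- open weight with the twist -/
noncomputable def opT (e : E) (x y : S) : ℝ := if e ∈ K then σ.op e (σ.sw x) y else σ.op e x y

/-- full weight with the twist -/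
noncomputable def flT (e : E) (x y : S) : ℝ := if e ∈ K then σ.fl e (σ.sw x) y else σ.fl e x y

/-- total weight with the twist -/
noncomputable def totT (x : V → S) : ℝ :=
  (∏ e, flT σ K e (x (σ.s e)) (x (σ.t e))) * ∏ v, σ.g v (x v)

/-- weight of the open set `om` with the twist -/
noncomputable def wtT (om : Finset E) (x : V → S) : ℝ :=
  (∏ e ∈ om, opT σ K e (x (σ.s e)) (x (σ.t e))) * (∏ e ∈ omᶜ, σ.cl e (x (σ.s e)) (x (σ.t e)))
    * ∏ v, σ.g v (x v)

lemma opT_add_cl (e : E) (x y : S) : opT σ K e x y + σ.cl e x y = flT σ K e x y := by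
  unfold opT flT
  split_ifs
  · rw [← σ.op_add_cl e (σ.sw x) y, σ.cl_sw_left]
  · exact σ.op_add_cl e x y

lemma opT_nonneg (e : E) (x y : S) : 0 ≤ opT σ K e x y := by
  unfold opT
  split_ifs <;> exact σ.op_nonneg _ _ _

lemma flT_nonneg (e : E) (x y : S) : 0 ≤ flT σ K e x y := by
  unfold flT
  split_ifs <;> exact σ.fl_nonneg _ _ _

lemma sum_wtT (x : V → S) : ∑ om : Finset E, wtT σ K om x = totT σ K x := by
  unfold wtT totT
  rw [← Finset.sum_mul, ← full_expand]
  simp only [opT_add_cl]

lemma wtT_nonneg (om : Finset E) (x : V → S) : 0 ≤ wtT σ K om x := by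
  unfold wtT
  refine mul_nonneg (mul_nonneg ?_ ?_) ?_
  · exact Finset.prod_nonneg fun e _ => opT_nonneg σ K _ _ _
  · exact Finset.prod_nonneg fun e _ => σ.cl_nonneg _ _ _
  · exact Finset.prod_nonneg fun v _ => σ.g_nonneg _ _

lemma totT_nonneg (x : V → S) : 0 ≤ totT σ K x := by
  rw [← sum_wtT]
  exact Finset.sum_nonneg fun om _ => wtT_nonneg σ K om x

/-- inside `om`, the edges of `K` are the boundary edges of `A` -/
def Cuts (om : Finset E) (A : Finset V) : Prop := ∀ e ∈ om, (e ∈ K ↔ e ∈ bdE σ.s σ.t A)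

/-- the swap of `A` undoes the twist -/
theorem wtT_flip {om : Finset E} {A : Finset V} (h : Cuts σ K om A) (x : V → S) :
    wtT σ K om (σ.flip A x) = σ.wt om x := by
  unfold wtT Sys.wt
  have hg : ∏ v, σ.g v (σ.flip A x v) = ∏ v, σ.g v (x v) := by
    refine Finset.prod_congr rfl fun v _ => ?_
    by_cases hv : v ∈ A
    · rw [σ.flip_mem hv, σ.g_sw]
    · rw [σ.flip_not_mem hv]
  have hop : ∏ e ∈ om, opT σ K e (σ.flip A x (σ.s e)) (σ.flip A x (σ.t e))
      = ∏ e ∈ om, σ.op e (x (σ.s e)) (x (σ.t e)) := by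
    refine Finset.prod_congr rfl fun e he => ?_
    have h1 := h e he
    rw [mem_bdE] at h1
    unfold opT
    by_cases hK : e ∈ K
    · rw [if_pos hK]
      have h2 := h1.1 hK
      by_cases hs : σ.s e ∈ A
      · have ht : σ.t e ∉ A := fun ht => h2 ⟨fun _ => ht, fun _ => hs⟩
        rw [σ.flip_mem hs, σ.flip_not_mem ht, σ.sw_sw]
      · have ht : σ.t e ∈ A := by
          by_contra ht
          exact h2 ⟨fun h => absurd h hs, fun h => absurd h ht⟩
        rw [σ.flip_not_mem hs, σ.flip_mem ht, σ.op_sw_sw]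
    · rw [if_neg hK]
      have h2 : (σ.s e ∈ A ↔ σ.t e ∈ A) := by
        by_contra h3
        exact hK (h1.2 h3)
      by_cases hs : σ.s e ∈ A
      · rw [σ.flip_mem hs, σ.flip_mem (h2.1 hs), σ.op_sw_sw]
      · rw [σ.flip_not_mem hs, σ.flip_not_mem (fun ht => hs (h2.2 ht))]
  have hcl : ∏ e ∈ omᶜ, σ.cl e (σ.flip A x (σ.s e)) (σ.flip A x (σ.t e))
      = ∏ e ∈ omᶜ, σ.cl e (x (σ.s e)) (x (σ.t e)) := by
    refine Finset.prod_congr rfl fun e _ => ?_
    by_cases hs : σ.s e ∈ A
    · by_cases ht : σ.t e ∈ A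
      · rw [σ.flip_mem hs, σ.flip_mem ht, σ.cl_sw_sw]
      · rw [σ.flip_mem hs, σ.flip_not_mem ht, σ.cl_sw_left]
    · by_cases ht : σ.t e ∈ A
      · rw [σ.flip_not_mem hs, σ.flip_mem ht, σ.cl_sw_right]
      · rw [σ.flip_not_mem hs, σ.flip_not_mem ht]
  rw [hg, hop, hcl]

open Classical in
/-- a nonzero twisted weight produces a set `A` -/
theorem cuts_of_wtT {om : Finset E} {x : V → S} (h : wtT σ K om x ≠ 0) :
    Cuts σ K om (univ.filter fun v => σ.d (x v) < 0) := by
  intro e he
  have h0 : opT σ K e (x (σ.s e)) (x (σ.t e)) ≠ 0 := by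
    intro h0
    apply h
    unfold wtT
    rw [Finset.prod_eq_zero he h0, zero_mul, zero_mul]
  rw [mem_bdE]
  simp only [Finset.mem_filter, Finset.mem_univ, true_and]
  unfold opT at h0
  by_cases hK : e ∈ K
  · rw [if_pos hK] at h0
    have h1 := σ.op_pos h0
    rw [σ.d_sw] at h1
    simp only [hK, true_iff]
    intro h2
    by_cases h3 : σ.d (x (σ.s e)) < 0
    · have h4 := h2.1 h3
      nlinarith
    · have h4 : ¬ σ.d (x (σ.t e)) < 0 := fun h5 => h3 (h2.2 h5)
      nlinarith
  · rw [if_neg hK] at h0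
    have h1 := σ.op_pos h0
    simp only [hK, false_iff, not_not]
    constructor
    · intro h2
      nlinarith
    · intro h2
      nlinarith

/-! ### integrals -/

/-- the twisted weight of every open set is at most the untwisted one -/
theorem tsum_wtT_le (om : Finset E) : ∑' x : V → S, ENNReal.ofReal (wtT σ K om x) ≤
    ∑' x : V → S, ENNReal.ofReal (σ.wt om x) := by
  classical
  by_cases h : ∃ x : V → S, wtT σ K om x ≠ 0
  · obtain ⟨x, hx⟩ := h
    have hA := cuts_of_wtT σ K hx
    set A := univ.filter fun v => σ.d (x v) < 0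
    rw [← (σ.flipE A).tsum_eq (fun x => ENNReal.ofReal (wtT σ K om x))]
    refine (tsum_congr fun y => ?_).le
    show ENNReal.ofReal (wtT σ K om (σ.flip A y)) = _
    rw [wtT_flip σ K hA]
  · push Not at h
    have : ∀ x : V → S, ENNReal.ofReal (wtT σ K om x) = 0 := fun x => by rw [h x]; simp
    simp only [this]
    simp

/-- the integral of a function of the configuration with the twist -/
noncomputable def IT (F : (V → S) → ℝ≥0∞) : ℝ≥0∞ := ∑' x : V → S, ENNReal.ofReal (totT σ K x) * F x

/-- the integral of a function of the configuration -/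
noncomputable def I0 (F : (V → S) → ℝ≥0∞) : ℝ≥0∞ := ∑' x : V → S, ENNReal.ofReal (σ.tot x) * F x

lemma IT_eq (F : (V → S) → ℝ≥0∞) : IT σ K F =
    ∑ om : Finset E, ∑' x : V → S, ENNReal.ofReal (wtT σ K om x) * F x := by
  unfold IT
  rw [← Summable.tsum_finsetSum fun _ _ => ENNReal.summable]
  refine tsum_congr fun x => ?_
  rw [← sum_wtT, ENNReal.ofReal_sum_of_nonneg fun om _ => wtT_nonneg σ K om x, Finset.sum_mul]

lemma I0_eq (F : (V → S) → ℝ≥0∞) : I0 σ F =
    ∑ om : Finset E, ∑' x : V → S, ENNReal.ofReal (σ.wt om x) * F x := by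
  unfold I0
  rw [← Summable.tsum_finsetSum fun _ _ => ENNReal.summable]
  refine tsum_congr fun x => ?_
  rw [← σ.sum_wt, ENNReal.ofReal_sum_of_nonneg fun om _ => σ.wt_nonneg om x, Finset.sum_mul]

lemma I0_Ex (F : (V → S) → ℝ≥0∞) : I0 σ F = Ex σ fun x _ => F x := by
  rw [I0_eq]
  unfold Ex
  rw [← Summable.tsum_finsetSum fun _ _ => ENNReal.summable]

/-- the open sets which cannot be untwisted outside `W` -/
def Bad (W : Finset V) (om : Finset E) : Prop := ¬ ∃ A : Finset V, Disjoint A W ∧ Cuts σ K om A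

lemma IT_one_le : IT σ K (fun _ => 1) ≤ I0 σ fun _ => 1 := by
  rw [IT_eq, I0_eq]
  simp only [mul_one]
  exact Finset.sum_le_sum fun om _ => tsum_wtT_le σ K om

lemma flip_good {W A : Finset V} (hA : Disjoint A W) {F : (V → S) → ℝ≥0∞}
    (hF : ∀ x x' : V → S, (∀ v ∈ W, x v = x' v) → F x = F x') (x : V → S) :
    F (σ.flip A x) = F x :=
  hF _ _ fun _ hv => σ.flip_not_mem (Finset.disjoint_right.1 hA hv)

lemma tsum_good {W A : Finset V} {om : Finset E} (hA : Disjoint A W) (hc : Cuts σ K om A)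
    {F : (V → S) → ℝ≥0∞} (hF : ∀ x x' : V → S, (∀ v ∈ W, x v = x' v) → F x = F x') :
    ∑' x : V → S, ENNReal.ofReal (wtT σ K om x) * F x =
      ∑' x : V → S, ENNReal.ofReal (σ.wt om x) * F x := by
  rw [← (σ.flipE A).tsum_eq (fun x => ENNReal.ofReal (wtT σ K om x) * F x)]
  refine tsum_congr fun y => ?_
  show ENNReal.ofReal (wtT σ K om (σ.flip A y)) * F (σ.flip A y) = _
  rw [wtT_flip σ K hc, flip_good σ hA hF]

/-- **the twist raises the integral of a local function at most by the bad open sets** -/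
theorem IT_le {W : Finset V} {F : (V → S) → ℝ≥0∞} {C : ℝ≥0∞}
    (hF : ∀ x x' : V → S, (∀ v ∈ W, x v = x' v) → F x = F x') (hC : ∀ x, F x ≤ C) :
    IT σ K F ≤ I0 σ F + C * Ex σ fun _ om => ind (Bad σ K W om) := by
  have e : C * Ex σ (fun _ om => ind (Bad σ K W om)) =
      ∑ om : Finset E, ∑' x : V → S, C * (ENNReal.ofReal (σ.wt om x) * ind (Bad σ K W om)) := by
    unfold Ex
    rw [← ENNReal.tsum_mul_left, ← Summable.tsum_finsetSum fun _ _ => ENNReal.summable]
    exact tsum_congr fun x => Finset.mul_sum _ _ _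
  rw [e, IT_eq, I0_eq, ← Finset.sum_add_distrib]
  refine Finset.sum_le_sum fun om _ => ?_
  by_cases hb : Bad σ K W om
  · refine le_add_left ?_
    simp only [ind_true hb, mul_one]
    rw [ENNReal.tsum_mul_left]
    calc ∑' x : V → S, ENNReal.ofReal (wtT σ K om x) * F x
        ≤ ∑' x : V → S, ENNReal.ofReal (wtT σ K om x) * C :=
          ENNReal.tsum_le_tsum fun x => mul_le_mul' le_rfl (hC x)
      _ = C * ∑' x : V → S, ENNReal.ofReal (wtT σ K om x) := by
          rw [ENNReal.tsum_mul_right, mul_comm]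
      _ ≤ _ := mul_le_mul' le_rfl (tsum_wtT_le σ K om)
  · unfold Bad at hb
    push Not at hb
    obtain ⟨A, hA, hc⟩ := hb
    rw [tsum_good σ K hA hc hF]
    exact le_self_add

/-- **and lowers it at most by the bad open sets** -/
theorem I0_le {W : Finset V} {F : (V → S) → ℝ≥0∞} {C : ℝ≥0∞}
    (hF : ∀ x x' : V → S, (∀ v ∈ W, x v = x' v) → F x = F x') (hC : ∀ x, F x ≤ C) :
    I0 σ F ≤ IT σ K F + C * Ex σ fun _ om => ind (Bad σ K W om) := by
  have e : C * Ex σ (fun _ om => ind (Bad σ K W om)) =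
      ∑ om : Finset E, ∑' x : V → S, C * (ENNReal.ofReal (σ.wt om x) * ind (Bad σ K W om)) := by
    unfold Ex
    rw [← ENNReal.tsum_mul_left, ← Summable.tsum_finsetSum fun _ _ => ENNReal.summable]
    exact tsum_congr fun x => Finset.mul_sum _ _ _
  rw [e, IT_eq, I0_eq, ← Finset.sum_add_distrib]
  refine Finset.sum_le_sum fun om _ => ?_
  by_cases hb : Bad σ K W om
  · refine le_add_left ?_
    simp only [ind_true hb, mul_one]
    rw [ENNReal.tsum_mul_left]
    calc ∑' x : V → S, ENNReal.ofReal (σ.wt om x) * F x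
        ≤ ∑' x : V → S, ENNReal.ofReal (σ.wt om x) * C :=
          ENNReal.tsum_le_tsum fun x => mul_le_mul' le_rfl (hC x)
      _ = _ := by rw [ENNReal.tsum_mul_right, mul_comm]
  · unfold Bad at hb
    push Not at hb
    obtain ⟨A, hA, hc⟩ := hb
    rw [tsum_good σ K hA hc hF]
    exact le_self_add

end Vale.Agent.P159.H145.Dz
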