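import Vale.Agent.P159.H145.Dz1
import Vale.Agent.P159.H963.Chess2

/-!
P159, module DZ (helper145), part 2: two copies on the rectangular torus `ZMod a × ZMod c`, and the
torus `ZMod (2 a) × ZMod c` as the twisted two copies.
-/

set_option linter.unusedSectionVars false
set_option linter.unusedDecidableInType false

namespace Vale.Agent.P159.H145.Dz

open scoped ENNReal
open Finset Vale.Agent.P159.TM.H60 Vale.Agent.P159.TM.H576
open Vale.Agent.P159.H963.Chess (Zt)

/-- data of the model: even positive log-concave edge weight, nonnegative site weight -/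
structure Dat where
  /-- edge weight -/
  w : ℤ → ℝ
  /-- site weight -/
  g : ℤ → ℝ
  w_pos : ∀ n, 0 < w n
  w_neg : ∀ n, w (-n) = w n
  w_log : T1.H897.LogC w
  g_nonneg : ∀ n, 0 ≤ g n

variable (D : Dat) (a c : ℕ)

/-- vertices of the rectangular torus -/
abbrev VR (a c : ℕ) : Type := ZMod a × ZMod c

/-- edges of the rectangular torus: `true` first direction, `false` second direction -/
abbrev ER (a c : ℕ) : Type := VR a c × Bool

/-- start of an edge -/
def rS {a c : ℕ} (e : ER a c) : VR a c := e.1

/-- end of an edge -/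
def rT {a c : ℕ} (e : ER a c) : VR a c := e.1 + (if e.2 then (1, 0) else (0, 1))

/-- two copies on the rectangular torus -/
noncomputable def σR : Sys (VR a c) (ER a c) (ℤ × ℤ) :=
  two rS rT (fun _ => D.w) (fun _ n => (D.w_pos n).le) (fun _ => D.w_log) (fun _ => D.g)
    fun _ n => D.g_nonneg n

variable [NeZero a] [NeZero c]

/-- edges from the column `-1` to the column `0` -/
def KH : Finset (ER a c) := univ.filter fun e => e.2 = true ∧ e.1.1 = -1

/-- edges from the row `-1` to the row `0` -/
def KV : Finset (ER a c) := univ.filter fun e => e.2 = false ∧ e.1.2 = -1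

/-- one-copy weight of the rectangular torus -/
noncomputable def wR (h : VR a c → ℤ) : ℝ :=
  ∏ x, D.g (h x) * (D.w (h (x + (1, 0)) - h x) * D.w (h (x + (0, 1)) - h x))

/-- one-copy partition function, in the extended nonnegative reals -/
noncomputable def ZR : ℝ≥0∞ := ∑' h : VR a c → ℤ, ENNReal.ofReal (wR D a c h)

lemma wR_nonneg (h : VR a c → ℤ) : 0 ≤ wR D a c h :=
  Finset.prod_nonneg fun _ _ => mul_nonneg (D.g_nonneg _) (mul_nonneg (D.w_pos _).le (D.w_pos _).le)

lemma ZR_eq_Zt : ZR D a c =
    Zt a c (fun n => ENNReal.ofReal (D.w n)) fun _ n => ENNReal.ofReal (D.g n) := by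
  unfold ZR Zt wR
  refine tsum_congr fun h => ?_
  rw [ENNReal.ofReal_prod_of_nonneg fun x _ => mul_nonneg (D.g_nonneg _)
    (mul_nonneg (D.w_pos _).le (D.w_pos _).le)]
  refine Finset.prod_congr rfl fun x _ => ?_
  rw [ENNReal.ofReal_mul (D.g_nonneg _), ENNReal.ofReal_mul (D.w_pos _).le]

lemma ZR_swap : ZR D a c = ZR D c a := by
  rw [ZR_eq_Zt, ZR_eq_Zt, Vale.Agent.P159.H963.Chess.Zt_swap]

/-- products over the edges -/
lemma prod_edges {M : Type*} [CommMonoid M] (f : ER a c → M) :
    ∏ e, f e = ∏ x : VR a c, f (x, true) * f (x, false) := by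
  rw [Fintype.prod_prod_type]
  exact Finset.prod_congr rfl fun x _ => Fintype.prod_bool _

lemma tot_R (x : VR a c → ℤ × ℤ) :
    (σR D a c).tot x = wR D a c (fun v => (x v).1) * wR D a c fun v => (x v).2 := by
  have h1 : (σR D a c).tot x = (∏ e : ER a c, D.w ((x (rT e)).1 - (x (rS e)).1) *
      D.w ((x (rT e)).2 - (x (rS e)).2)) * ∏ v : VR a c, D.g (x v).1 * D.g (x v).2 := rfl
  rw [h1, prod_edges, ← Finset.prod_mul_distrib]
  unfold wR
  rw [← Finset.prod_mul_distrib]
  refine Finset.prod_congr rfl fun v _ => ?_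
  simp only [rS, rT, if_true, Bool.false_eq_true, if_false]
  ring

/-- the configuration of two copies as a pair -/
def prE (V : Type*) : (V → ℤ × ℤ) ≃ (V → ℤ) × (V → ℤ) where
  toFun x := (fun v => (x v).1, fun v => (x v).2)
  invFun p v := (p.1 v, p.2 v)
  left_inv x := by funext v; rfl
  right_inv p := by rfl

lemma I0_pair (F : (VR a c → ℤ) → (VR a c → ℤ) → ℝ≥0∞) :
    I0 (σR D a c) (fun x => F (fun v => (x v).1) fun v => (x v).2) =
      ∑' h : VR a c → ℤ, ∑' h' : VR a c → ℤ, ENNReal.ofReal (wR D a c h) *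
        (ENNReal.ofReal (wR D a c h') * F h h') := by
  unfold I0
  rw [← (prE (VR a c)).symm.tsum_eq, ENNReal.tsum_prod']
  refine tsum_congr fun h => tsum_congr fun h' => ?_
  rw [tot_R, ENNReal.ofReal_mul (wR_nonneg D a c _), mul_assoc]
  rfl

lemma I0_one : I0 (σR D a c) (fun _ => 1) = ZR D a c ^ 2 := by
  have h := I0_pair D a c fun _ _ => 1
  rw [h, sq]
  unfold ZR
  rw [← ENNReal.tsum_mul_right]
  refine tsum_congr fun h => ?_
  rw [ENNReal.tsum_mul_left]
  simp only [mul_one]

/-! ### the double cover -/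

section cover

variable [NeZero (2 * a)]

/-- the section `ZMod a → ZMod (2 a)` -/
def io (i : ZMod a) : ZMod (2 * a) := ((i.val : ℕ) : ZMod (2 * a))

lemma io_val (i : ZMod a) : (io a i).val = i.val := by
  unfold io
  exact ZMod.val_natCast_of_lt (by have := ZMod.val_lt i; omega)

lemma io_add_val (i : ZMod a) : (io a i + (a : ZMod (2 * a))).val = i.val + a := by
  have h1 : io a i + (a : ZMod (2 * a)) = ((i.val + a : ℕ) : ZMod (2 * a)) := by
    unfold io
    push_cast
    rfl
  rw [h1]
  exact ZMod.val_natCast_of_lt (by have := ZMod.val_lt i; omega)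

lemma aa_zero : (a : ZMod (2 * a)) + (a : ZMod (2 * a)) = 0 := by
  have : ((2 * a : ℕ) : ZMod (2 * a)) = 0 := ZMod.natCast_self _
  rw [← this]
  push_cast
  ring

lemma val_succ {i : ZMod a} (hi : i ≠ -1) : (i + 1).val = i.val + 1 := by
  have h1 : i.val + 1 < a := by
    have h2 := ZMod.val_lt i
    by_contra h3
    apply hi
    have h4 : i.val + 1 = a := by omega
    have h5 : i + 1 = 0 := by
      calc i + 1 = ((i.val + 1 : ℕ) : ZMod a) := by push_cast; rw [ZMod.natCast_zmod_val]
        _ = ((a : ℕ) : ZMod a) := by rw [h4]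
        _ = 0 := ZMod.natCast_self a
    exact eq_neg_of_add_eq_zero_left h5
  have h6 : i + 1 = ((i.val + 1 : ℕ) : ZMod a) := by push_cast; rw [ZMod.natCast_zmod_val]
  rw [h6]
  exact ZMod.val_natCast_of_lt h1

lemma val_neg_one : (-1 : ZMod a).val = a - 1 := by
  obtain ⟨m, rfl⟩ : ∃ m, a = m + 1 := ⟨a - 1, by have := NeZero.pos a; omega⟩
  rw [ZMod.val_neg_one]
  omega

lemma io_succ {i : ZMod a} (hi : i ≠ -1) : io a (i + 1) = io a i + 1 := by
  unfold io
  rw [val_succ a hi]
  push_cast
  rfl

lemma io_last : io a (-1) + 1 = (a : ZMod (2 * a)) := by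
  unfold io
  rw [val_neg_one]
  have h := NeZero.pos a
  have : ((a - 1 : ℕ) : ZMod (2 * a)) + 1 = ((a - 1 + 1 : ℕ) : ZMod (2 * a)) := by push_cast; rfl
  rw [this]
  congr 1
  omega

lemma io_zero : io a 0 = 0 := by
  unfold io
  rw [ZMod.val_zero, Nat.cast_zero]

/-- the two sheets -/
lemma sheet (k : ZMod (2 * a)) : (k = io a (((k.val : ℕ)) : ZMod a) ∧ k.val < a) ∨
    (k = io a (((k.val : ℕ)) : ZMod a) + (a : ZMod (2 * a)) ∧ a ≤ k.val) := by
  have hk := ZMod.val_lt k
  by_cases h : k.val < a
  · left
    refine ⟨?_, h⟩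
    unfold io
    rw [ZMod.val_natCast_of_lt h, ZMod.natCast_zmod_val]
  · right
    refine ⟨?_, by omega⟩
    have h1 : (((k.val : ℕ)) : ZMod a) = ((k.val - a : ℕ) : ZMod a) := by
      have h2 : k.val = (k.val - a) + a := by omega
      conv_lhs => rw [h2]
      push_cast
      rw [ZMod.natCast_self, add_zero]
    rw [h1]
    unfold io
    rw [ZMod.val_natCast_of_lt (by omega)]
    have h3 : ((k.val - a : ℕ) : ZMod (2 * a)) + (a : ZMod (2 * a)) =
        ((k.val - a + a : ℕ) : ZMod (2 * a)) := by push_cast; rfl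
    rw [h3]
    have h4 : k.val - a + a = k.val := by omega
    rw [h4, ZMod.natCast_zmod_val]

/-- configurations of the double torus as configurations of two copies -/
def cov : (VR (2 * a) c → ℤ) ≃ (VR a c → ℤ × ℤ) where
  toFun h v := (h (io a v.1, v.2), h (io a v.1 + (a : ZMod (2 * a)), v.2))
  invFun x u := if u.1.val < a then (x (((u.1.val : ℕ) : ZMod a), u.2)).1
    else (x (((u.1.val : ℕ) : ZMod a), u.2)).2
  left_inv h := by
    funext u
    obtain ⟨k, y⟩ := u
    simp only
    rcases sheet a k with ⟨h1, h2⟩ | ⟨h1, h2⟩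
    · rw [if_pos h2, ← h1]
    · rw [if_neg (by omega), ← h1]
  right_inv x := by
    funext v
    obtain ⟨i, y⟩ := v
    have h1 := ZMod.val_lt i
    simp only
    rw [io_val, io_add_val, if_pos h1, if_neg (by omega)]
    have h2 : ((i.val + a : ℕ) : ZMod a) = i := by
      push_cast
      rw [ZMod.natCast_self, add_zero, ZMod.natCast_zmod_val]
    rw [h2, ZMod.natCast_zmod_val]

lemma prod_double {M : Type*} [CommMonoid M] (f : ZMod (2 * a) → M) :
    ∏ k, f k = ∏ i : ZMod a, f (io a i) * f (io a i + (a : ZMod (2 * a))) := by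
  have hb : Function.Bijective fun p : ZMod a × Bool =>
      (if p.2 then io a p.1 + (a : ZMod (2 * a)) else io a p.1) := by
    constructor
    · rintro ⟨i, p⟩ ⟨j, q⟩ h
      have hi := ZMod.val_lt i
      have hj := ZMod.val_lt j
      cases p <;> cases q <;> simp only [if_true, Bool.false_eq_true, if_false] at h
      · have h1 := congrArg ZMod.val h
        rw [io_val, io_val] at h1
        rw [ZMod.val_injective a h1]
      · have h1 := congrArg ZMod.val h
        rw [io_val, io_add_val] at h1
        omega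
      · have h1 := congrArg ZMod.val h
        rw [io_val, io_add_val] at h1
        omega
      · have h1 := congrArg ZMod.val h
        rw [io_add_val, io_add_val] at h1
        rw [ZMod.val_injective a (by omega : i.val = j.val)]
    · intro k
      rcases sheet a k with ⟨h1, _⟩ | ⟨h1, _⟩
      · exact ⟨(((k.val : ℕ) : ZMod a), false), by simpa using h1.symm⟩
      · exact ⟨(((k.val : ℕ) : ZMod a), true), by simpa using h1.symm⟩
  rw [← (Equiv.ofBijective _ hb).prod_comp, Fintype.prod_prod_type]
  refine Finset.prod_congr rfl fun i _ => ?_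
  rw [Fintype.prod_bool, mul_comm]
  simp

/-- **the double torus is the twisted pair of copies** (pointwise) -/
theorem wR_cov (h : VR (2 * a) c → ℤ) :
    wR D (2 * a) c h = totT (σR D a c) (KH a c) (cov a c h) := by
  have e0 : totT (σR D a c) (KH a c) (cov a c h) =
      (∏ e : ER a c, flT (σR D a c) (KH a c) e (cov a c h (rS e)) (cov a c h (rT e))) *
        ∏ v : VR a c, D.g (cov a c h v).1 * D.g (cov a c h v).2 := rfl
  rw [e0, prod_edges, ← Finset.prod_mul_distrib]
  unfold wR
  rw [Fintype.prod_prod_type, prod_double, Fintype.prod_prod_type]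
  refine Finset.prod_congr rfl fun i _ => ?_
  rw [← Finset.prod_mul_distrib]
  refine Finset.prod_congr rfl fun y _ => ?_
  have hv : flT (σR D a c) (KH a c) ((i, y), false) (cov a c h (rS ((i, y), false)))
      (cov a c h (rT ((i, y), false))) =
      D.w (h (io a i, y + 1) - h (io a i, y)) *
        D.w (h (io a i + (a : ZMod (2 * a)), y + 1) - h (io a i + (a : ZMod (2 * a)), y)) := by
    have hK : ((i, y), false) ∉ KH a c := by
      unfold KH
      simp
    unfold flT
    rw [if_neg hK]
    show D.w _ * D.w _ = _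
    simp [cov, rS, rT]
  have hh : flT (σR D a c) (KH a c) ((i, y), true) (cov a c h (rS ((i, y), true)))
      (cov a c h (rT ((i, y), true))) =
      D.w (h (io a i + 1, y) - h (io a i, y)) *
        D.w (h (io a i + (a : ZMod (2 * a)) + 1, y) - h (io a i + (a : ZMod (2 * a)), y)) := by
    by_cases hi : i = -1
    · have hK : ((i, y), true) ∈ KH a c := by
        unfold KH
        simp [hi]
      unfold flT
      rw [if_pos hK]
      subst hi
      have e1 : io a (-1) + (a : ZMod (2 * a)) + 1 = 0 := by
        rw [add_right_comm, io_last, aa_zero]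
      rw [io_last, e1]
      show D.w _ * D.w _ = _
      simp [cov, rS, rT, io_zero, Sys.sw, σR, two]
      ring
    · have hK : ((i, y), true) ∉ KH a c := by
        unfold KH
        simp [hi]
      unfold flT
      rw [if_neg hK]
      have e1 : io a i + (a : ZMod (2 * a)) + 1 = io a (i + 1) + (a : ZMod (2 * a)) := by
        rw [io_succ a hi]
        ring
      rw [e1, ← io_succ a hi]
      show D.w _ * D.w _ = _
      simp [cov, rS, rT]
  rw [hv, hh]
  simp only [Prod.mk_add_mk, add_zero]
  simp only [cov, Equiv.coe_fn_mk]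
  ring

/-- **Theorem D1**: the partition function of the double torus -/
theorem IT_one : IT (σR D a c) (KH a c) (fun _ => 1) = ZR D (2 * a) c := by
  unfold IT ZR
  rw [← (cov a c).tsum_eq]
  refine tsum_congr fun h => ?_
  rw [mul_one, wR_cov]

end cover

end Vale.Agent.P159.H145.Dz
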