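import Vale.Agent.P159.H145.Dz2

/-!
P159, module DZ (helper145), part 3: geometry of the cuts. If an open set cannot be untwisted
outside `{r ≤ κ}`, then some open edge of `K` is connected to a site with `r ≤ κ ≤ p - r`.
-/

set_option linter.unusedSectionVars false
set_option linter.unusedDecidableInType false

namespace Vale.Agent.P159.H145.Dz

open scoped ENNReal
open Finset Vale.Agent.P159.TM.H60 Vale.Agent.P159.TM.H576

section gen

variable {V E S : Type*} [Fintype V] [DecidableEq V] [Fintype E] [DecidableEq E]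
variable (σ : Sys V E S) (K : Finset E)

/-- `K` is the cut of the coordinate `κ` between `-1` and `0` -/
structure Coord {p : ℕ} (κ : V → ZMod p) : Prop where
  edge : ∀ e, (κ (σ.t e) = κ (σ.s e) ∧ e ∉ K) ∨
    (κ (σ.t e) = κ (σ.s e) + 1 ∧ (e ∈ K ↔ κ (σ.s e) = -1))

open Classical in
theorem cuts_exists {p : ℕ} [NeZero p] {κ : V → ZMod p} (H : Coord σ K κ) {r : ℕ} (hr : 1 ≤ r)
    (h2r : 2 * r ≤ p) {om : Finset E}
    (h : ∀ e ∈ om, e ∈ K → ∀ z ∈ clus σ.s σ.t om (σ.t e), (κ z).val < r ∨ p < (κ z).val + r) :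
    ∃ A : Finset V, (∀ v ∈ A, (κ v).val < r) ∧ Cuts σ K om A := by
  refine ⟨univ.filter fun v => (κ v).val < r ∧ ∃ e ∈ om, e ∈ K ∧ v ∈ clus σ.s σ.t om (σ.t e),
    fun v hv => (Finset.mem_filter.1 hv).2.1, ?_⟩
  intro e' he'
  rw [mem_bdE]
  simp only [Finset.mem_filter, Finset.mem_univ, true_and]
  by_cases hK : e' ∈ K
  · simp only [hK, true_iff]
    have hs : κ (σ.s e') = -1 ∧ κ (σ.t e') = 0 := by
      rcases H.edge e' with ⟨_, h2⟩ | ⟨h1, h2⟩
      · exact absurd hK h2
      · have h3 := h2.1 hK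
        exact ⟨h3, by rw [h1, h3]; ring⟩
    intro hiff
    have ht : (κ (σ.t e')).val < r ∧ ∃ e ∈ om, e ∈ K ∧ σ.t e' ∈ clus σ.s σ.t om (σ.t e) := by
      refine ⟨?_, e', he', hK, self_mem_clus _⟩
      rw [hs.2, ZMod.val_zero]
      omega
    have h1 := (hiff.2 ht).1
    rw [hs.1, val_neg_one] at h1
    omega
  · simp only [hK, false_iff, not_not]
    have hconn : ∀ u, (σ.s e' ∈ clus σ.s σ.t om u ↔ σ.t e' ∈ clus σ.s σ.t om u) := fun u =>
      clus_edge he'
    constructor
    · rintro ⟨h1, e, he, heK, hc⟩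
      have hc' := (hconn _).1 hc
      refine ⟨?_, e, he, heK, hc'⟩
      rcases H.edge e' with ⟨h3, _⟩ | ⟨h3, h4⟩
      · rw [h3]; exact h1
      · have h5 : κ (σ.s e') ≠ -1 := fun h6 => hK (h4.2 h6)
        have h6 := val_succ p h5
        rw [← h3] at h6
        rcases h e he heK _ hc' with h7 | h7
        · exact h7
        · omega
    · rintro ⟨h1, e, he, heK, hc⟩
      have hc' := (hconn _).2 hc
      refine ⟨?_, e, he, heK, hc'⟩
      rcases H.edge e' with ⟨h3, _⟩ | ⟨h3, h4⟩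
      · rw [← h3]; exact h1
      · have h5 : κ (σ.s e') ≠ -1 := fun h6 => hK (h4.2 h6)
        have h6 := val_succ p h5
        rw [← h3] at h6
        omega

/-- a bad open set has a long arm from the cut -/
theorem bad_arm {p : ℕ} [NeZero p] {κ : V → ZMod p} (H : Coord σ K κ) {r : ℕ} (hr : 1 ≤ r)
    (h2r : 2 * r ≤ p) {om : Finset E} {W : Finset V} (hW : ∀ v ∈ W, r ≤ (κ v).val)
    (hb : Bad σ K W om) :
    ∃ e ∈ om, e ∈ K ∧ ∃ z ∈ clus σ.s σ.t om (σ.t e), r ≤ (κ z).val ∧ (κ z).val + r ≤ p := by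
  by_contra hcon
  push Not at hcon
  apply hb
  obtain ⟨A, hA, hc⟩ := cuts_exists σ K H hr h2r (om := om) (fun e he heK z hz => by
    by_contra h1
    push Not at h1
    have := hcon e he heK z hz h1.1
    omega)
  refine ⟨A, ?_, hc⟩
  rw [Finset.disjoint_left]
  intro v hv hv'
  have h1 := hA v hv
  have h2 := hW v hv'
  omega

/-- the arm event: a cluster of a site of `B` with `d ≠ 0` leaves `Λ` -/
def Arm (B Λ : Finset V) (x : V → S) (om : Finset E) : Prop :=
  ∃ u ∈ B, σ.d (x u) ≠ 0 ∧ ∃ z ∈ clus σ.s σ.t om u, z ∉ Λ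

/-- the bad open sets are covered by arm events -/
theorem Ex_bad_le {p : ℕ} [NeZero p] {κ : V → ZMod p} (H : Coord σ K κ) {r : ℕ} (hr : 1 ≤ r)
    (h2r : 2 * r ≤ p) {W : Finset V} (hW : ∀ v ∈ W, r ≤ (κ v).val) {ι : Type*} (I : Finset ι)
    (B Λ : ι → Finset V)
    (hcov : ∀ v, κ v = 0 → ∃ i ∈ I, v ∈ B i ∧ ∀ z, r ≤ (κ z).val → (κ z).val + r ≤ p → z ∉ Λ i) :
    Ex σ (fun _ om => ind (Bad σ K W om)) ≤ ∑ i ∈ I, Ex σ fun x om => ind (Arm σ (B i) (Λ i) x om) := by
  rw [← Ex_sum]
  refine Ex_mono fun x om hw => ?_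
  by_cases hb : Bad σ K W om
  · obtain ⟨e, he, heK, z, hz, h1, h2⟩ := bad_arm σ K H hr h2r hW hb
    have hk : κ (σ.t e) = 0 := by
      rcases H.edge e with ⟨_, h3⟩ | ⟨h3, h4⟩
      · exact absurd heK h3
      · rw [h3, h4.1 heK]; ring
    obtain ⟨i, hi, hB, hΛ⟩ := hcov _ hk
    have hd : σ.d (x (σ.t e)) ≠ 0 := by
      have := σ.sign_edge hw he
      intro h0
      rw [h0, mul_zero] at this
      exact lt_irrefl _ this
    have hA : Arm σ (B i) (Λ i) x om := ⟨_, hB, hd, z, hz, hΛ z h1 h2⟩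
    rw [ind_true hb, ← ind_true hA]
    exact Finset.single_le_sum (f := fun i => ind (Arm σ (B i) (Λ i) x om)) (fun _ _ => bot_le) hi
  · rw [ind_false hb]
    exact bot_le

end gen

/-! ### rectangular tori -/

section rect

variable (D : Dat) (a c : ℕ) [NeZero a] [NeZero c]

lemma coord_H : Coord (σR D a c) (KH a c) (fun v : VR a c => v.1) where
  edge := by
    rintro ⟨⟨i, y⟩, b⟩
    cases b
    · left
      refine ⟨?_, ?_⟩
      · show i + 0 = i
        rw [add_zero]
      · unfold KH; simp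
    · right
      refine ⟨rfl, ?_⟩
      unfold KH
      simp only [Finset.mem_filter, Finset.mem_univ, true_and]
      rfl

lemma coord_V : Coord (σR D a c) (KV a c) (fun v : VR a c => v.2) where
  edge := by
    rintro ⟨⟨i, y⟩, b⟩
    cases b
    · right
      refine ⟨rfl, ?_⟩
      unfold KV
      simp only [Finset.mem_filter, Finset.mem_univ, true_and]
      rfl
    · left
      refine ⟨?_, ?_⟩
      · show y + 0 = y
        rw [add_zero]
      · unfold KV; simp

/-- the vertical double torus -/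
theorem IT_one_V [NeZero (2 * c)] : IT (σR D a c) (KV a c) (fun _ => 1) = ZR D a (2 * c) := by
  rw [ZR_swap, ← IT_one D c a]
  unfold IT
  rw [← (Equiv.arrowCongr (Equiv.prodComm (ZMod c) (ZMod a)) (Equiv.refl (ℤ × ℤ))).tsum_eq]
  refine tsum_congr fun x => ?_
  rw [mul_one, mul_one]
  congr 1
  have e1 : totT (σR D a c) (KV a c) ((Equiv.arrowCongr (Equiv.prodComm (ZMod c) (ZMod a))
      (Equiv.refl (ℤ × ℤ))) x) =
      (∏ e : ER a c, flT (σR D a c) (KV a c) e (x (rS e).swap) (x (rT e).swap)) *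
        ∏ v : VR a c, D.g (x v.swap).1 * D.g (x v.swap).2 := rfl
  have e2 : totT (σR D c a) (KH c a) x =
      (∏ e : ER c a, flT (σR D c a) (KH c a) e (x (rS e)) (x (rT e))) *
        ∏ v : VR c a, D.g (x v).1 * D.g (x v).2 := rfl
  rw [e1, e2, prod_edges, prod_edges, ← Finset.prod_mul_distrib, ← Finset.prod_mul_distrib,
    ← (Equiv.prodComm (ZMod c) (ZMod a)).prod_comp]
  refine Finset.prod_congr rfl fun v _ => ?_
  obtain ⟨y, i⟩ := v
  have k1 : (((i, y), true) : ER a c) ∉ KV a c := by unfold KV; simp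
  have k2 : (((y, i), false) : ER c a) ∉ KH c a := by unfold KH; simp
  have k3 : (((i, y), false) : ER a c) ∈ KV a c ↔ y = -1 := by unfold KV; simp
  have k4 : (((y, i), true) : ER c a) ∈ KH c a ↔ y = -1 := by unfold KH; simp
  have f1 : flT (σR D a c) (KV a c) ((i, y), true) (x (rS ((i, y), true) : VR a c).swap)
      (x (rT ((i, y), true) : VR a c).swap) =
      flT (σR D c a) (KH c a) ((y, i), false) (x (rS ((y, i), false)))
        (x (rT ((y, i), false))) := by
    unfold flT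
    rw [if_neg k1, if_neg k2]
    simp [σR, two, rS, rT]
  have f2 : flT (σR D a c) (KV a c) ((i, y), false) (x (rS ((i, y), false) : VR a c).swap)
      (x (rT ((i, y), false) : VR a c).swap) =
      flT (σR D c a) (KH c a) ((y, i), true) (x (rS ((y, i), true)))
        (x (rT ((y, i), true))) := by
    unfold flT
    by_cases hy : y = -1
    · rw [if_pos (k3.2 hy), if_pos (k4.2 hy)]
      simp [σR, two, rS, rT]
    · rw [if_neg (fun h => hy (k3.1 h)), if_neg (fun h => hy (k4.1 h))]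
      simp [σR, two, rS, rT]
  simp only [Equiv.prodComm_apply, Prod.swap_prod_mk] at f1 f2 ⊢
  rw [f1, f2]
  ring

end rect

end Vale.Agent.P159.H145.Dz
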