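import Vale.Agent.P159.H145.Dz3
import Vale.Agent.P159.TM.H634.B1Fin
import Vale.Agent.P159.TM.H857.GlueB

/-!
P159, module DZ (helper145), part 4: arms from a whole block, two copies at background `0`.
-/

set_option linter.unusedSectionVars false
set_option linter.unusedDecidableInType false

namespace Vale.Agent.P159.H145.Dz

open scoped ENNReal
open Finset Vale.Agent.P159.TM.H60 Vale.Agent.P159.TM.H576
open Vale.Agent.P159.TM.H459 (ball mem_ball ball_mono sd)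
open Vale.Agent.P159.TM
open Vale.Agent.P159.TM.Spec (WF)

section gen

variable {V E S : Type*} [Fintype V] [DecidableEq V] [Fintype E] [DecidableEq E]
variable {σ : Sys V E S} {le : S → S → Prop}

/-- the positive arm event in the positive open edges -/
def ArmP (σ : Sys V E S) (B Λ : Finset V) (x : V → S) (om : Finset E) : Prop :=
  ∃ u ∈ B, 0 < σ.d (x u) ∧ ∃ z ∈ clus σ.s σ.t (plus σ x om) u, z ∉ Λ

lemma wt_swap (om : Finset E) (x : V → S) : σ.wt om (fun v => σ.sw (x v)) = σ.wt om x := by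
  have h2 := σ.wt_flip (om := om) (A := Finset.univ) (by
    rw [Finset.disjoint_left]
    intro e _ he
    rw [mem_bdE] at he
    exact he (by simp)) x
  have h3 : σ.flip Finset.univ x = fun v => σ.sw (x v) := by
    funext v
    exact σ.flip_mem (Finset.mem_univ v)
  rwa [h3] at h2

lemma Ex_arm_le (B Λ : Finset V) : Ex σ (fun x om => ind (Arm σ B Λ x om)) ≤
    2 * Ex σ fun x om => ind (ArmP σ B Λ x om) := by
  calc Ex σ (fun x om => ind (Arm σ B Λ x om))
      ≤ Ex σ (fun x om => ind (ArmP σ B Λ x om) + ind (ArmP σ B Λ (fun v => σ.sw (x v)) om)) := by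
        refine Ex_mono fun x om hw => ?_
        by_cases h : Arm σ B Λ x om
        · obtain ⟨u, hu, hd, z, hz, hzΛ⟩ := h
          rcases lt_or_gt_of_ne hd with h1 | h1
          · have h2 : 0 < σ.d (σ.sw (x u)) := by rw [σ.d_sw]; omega
            have hw' : σ.wt om (fun v => σ.sw (x v)) ≠ 0 := by rw [wt_swap]; exact hw
            have h3 : ArmP σ B Λ (fun v => σ.sw (x v)) om := by
              refine ⟨u, hu, h2, z, ?_, hzΛ⟩
              rw [clus_plus hw' h2]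
              exact hz
            rw [ind_true h3]
            exact (ind_le_one _).trans le_add_self
          · have h3 : ArmP σ B Λ x om := by
              refine ⟨u, hu, h1, z, ?_, hzΛ⟩
              rw [clus_plus hw h1]
              exact hz
            rw [ind_true h3]
            exact (ind_le_one _).trans le_self_add
        · rw [ind_false h]
          exact bot_le
    _ = _ := by
        rw [Ex_add, Ex_swap (fun x om => ind (ArmP σ B Λ x om)), two_mul]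

lemma armP_plus (B Λ : Finset V) (x : V → S) (om : Finset E) :
    ArmP σ B Λ x (plus σ x om) ↔ ArmP σ B Λ x om := by
  unfold ArmP
  rw [plus_plus]

lemma armP_mono (M : Fk σ le) (B Λ : Finset V) : MonoE le (ArmP σ B Λ) := by
  intro x x' om om' hx ho h
  obtain ⟨u, hu, hd, z, hz, hzΛ⟩ := h
  refine ⟨u, hu, lt_of_lt_of_le hd (M.hd _ _ (hx u)), z, ?_, hzΛ⟩
  rw [mem_clus] at hz ⊢
  exact hz.mono (plus_mono M hx ho)

/-- the functional of `Spec.WF` on a general graph -/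
noncomputable def WG (σ : Sys V E S) (B Λ : Finset V) (x : V → S) (om : Finset E) : ℝ≥0∞ :=
  ∑ u ∈ B, ∑ v ∈ B, ((mf σ x om u u * mf σ x om u v : ℕ) : ℝ≥0∞) *
    ind (∃ z, z ∉ Λ ∧ mf σ x om u z ≠ 0)

/-- a fat cluster which leaves `Λ` -/
lemma WG_ge {B Λ : Finset V} {x : V → S} {om : Finset E} {u : V}
    {μ : ℝ≥0∞} (hμ : μ ≤ ∑ z ∈ B, (mf σ x om u z : ℝ≥0∞)) (hΛ : ∃ z, z ∉ Λ ∧ mf σ x om u z ≠ 0) :
    μ ^ 2 ≤ WG σ B Λ x om := by
  classical
  have h1 : ∀ u' ∈ B, (mf σ x om u u' : ℝ≥0∞) * ∑ v ∈ B, (mf σ x om u v : ℝ≥0∞) ≤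
      ∑ v ∈ B, ((mf σ x om u' u' * mf σ x om u' v : ℕ) : ℝ≥0∞) *
        ind (∃ z, z ∉ Λ ∧ mf σ x om u' z ≠ 0) := by
    intro u' _
    by_cases hc : u' ∈ clus σ.s σ.t om u
    · have e1 : mf σ x om u' = mf σ x om u := by
        funext z
        unfold mf
        have : clus σ.s σ.t om u' = clus σ.s σ.t om u := by
          rw [mem_clus] at hc
          ext z
          rw [mem_clus, mem_clus]
          exact ⟨fun h1 => hc.trans h1, fun h1 => hc.symm.trans h1⟩
        rw [this]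
      rw [e1, ind_true hΛ, Finset.mul_sum]
      refine Finset.sum_le_sum fun v _ => ?_
      rw [mul_one]
      push_cast
      exact le_rfl
    · have : mf σ x om u u' = 0 := by unfold mf; rw [if_neg hc]
      rw [this]
      simp
  calc μ ^ 2 = μ * μ := pow_two μ
    _ ≤ (∑ u' ∈ B, (mf σ x om u u' : ℝ≥0∞)) * ∑ v ∈ B, (mf σ x om u v : ℝ≥0∞) :=
        mul_le_mul' hμ hμ
    _ = ∑ u' ∈ B, (mf σ x om u u' : ℝ≥0∞) * ∑ v ∈ B, (mf σ x om u v : ℝ≥0∞) := by
        rw [Finset.sum_mul]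
    _ ≤ _ := Finset.sum_le_sum h1

/-- **arms from a block** -/
theorem arm_le (M : Fk σ le) {B B4 Fr Λ : Finset V} {O : (V → S) → Finset E → Prop}
    {p μ : ℝ≥0∞} (hO : MonoE le O)
    (hp : p * Ex σ (fun _ _ => 1) ≤ Ex σ (fun x om => ind (O x (plus σ x om))))
    (hforce : ∀ x T, (∀ e ∈ T, 0 < σ.d (x (σ.s e)) ∧ 0 < σ.d (x (σ.t e))) → O x T →
      ∀ u, 0 < σ.d (x u) → (∃ v ∈ B, v ∈ clus σ.s σ.t T u) →
      (∃ v ∈ Fr, v ∈ clus σ.s σ.t T u) → μ ≤ ∑ z ∈ B4, (mf σ x T u z : ℝ≥0∞))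
    (hFr : ∀ z, z ∉ Λ → z ∈ Fr) :
    p * μ ^ 2 * Ex σ (fun x om => ind (Arm σ B Λ x om)) ≤ 2 * Ex σ (WG σ B4 Λ) := by
  set F : (V → S) → Finset E → ℝ≥0∞ := fun x T => ind (ArmP σ B Λ x T) with hF
  set G : (V → S) → Finset E → ℝ≥0∞ := fun x T => ind (O x T) with hG
  have hFm : MonoF le F := fun x x' T T' h hT => ind_mono (armP_mono M B Λ x x' T T' h hT)
  have hGm : MonoF le G := fun x x' T T' h hT => ind_mono (hO x x' T T' h hT)
  have key := M.fkg F G hFm hGm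
  set Z := Ex σ (fun _ _ => 1) with hZ
  have eF : Ex σ (fun x om => F x (plus σ x om)) = Ex σ fun x om => ind (ArmP σ B Λ x om) :=
    Ex_congr fun x om _ => ind_congr (armP_plus B Λ x om)
  have h1 : Z * (p * Ex σ (fun x om => F x (plus σ x om))) ≤
      Z * Ex σ (fun x om => F x (plus σ x om) * G x (plus σ x om)) := by
    calc Z * (p * Ex σ (fun x om => F x (plus σ x om)))
        = Ex σ (fun x om => F x (plus σ x om)) * (p * Z) := by ring
      _ ≤ Ex σ (fun x om => F x (plus σ x om)) * Ex σ (fun x om => G x (plus σ x om)) :=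
          mul_le_mul_right hp _
      _ ≤ _ := key
  have h2 : p * Ex σ (fun x om => F x (plus σ x om)) ≤
      Ex σ (fun x om => F x (plus σ x om) * G x (plus σ x om)) :=
    (ENNReal.mul_le_mul_iff_right M.Z0 M.Zt).1 h1
  calc p * μ ^ 2 * Ex σ (fun x om => ind (Arm σ B Λ x om))
      ≤ p * μ ^ 2 * (2 * Ex σ fun x om => ind (ArmP σ B Λ x om)) :=
        mul_le_mul_right (Ex_arm_le B Λ) _
    _ = 2 * (μ ^ 2 * (p * Ex σ (fun x om => F x (plus σ x om)))) := by rw [eF]; ring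
    _ ≤ 2 * (μ ^ 2 * Ex σ (fun x om => F x (plus σ x om) * G x (plus σ x om))) :=
        mul_le_mul_right (mul_le_mul_right h2 _) _
    _ = 2 * Ex σ (fun x om => μ ^ 2 * (F x (plus σ x om) * G x (plus σ x om))) := by
        rw [Ex_mul]
    _ ≤ _ := by
        refine mul_le_mul_right (Ex_mono fun x om hw => ?_) _
        simp only [hF, hG]
        by_cases hA : ArmP σ B Λ x (plus σ x om)
        swap
        · rw [ind_false hA]; simp
        by_cases hO' : O x (plus σ x om)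
        swap
        · rw [ind_false hO']; simp
        rw [ind_true hA, ind_true hO', mul_one, mul_one]
        rw [armP_plus] at hA
        obtain ⟨u, hu, hd, z, hz, hzΛ⟩ := hA
        have h3 := hforce x (plus σ x om) (fun e he => plus_pos he) hO' u hd
          ⟨u, hu, self_mem_clus u⟩ ⟨z, hFr z hzΛ, hz⟩
        rw [mf_plus hw hd] at h3
        refine WG_ge h3 ⟨z, hzΛ, ?_⟩
        rw [clus_plus hw hd] at hz
        have h4 := (conn_plus hw hd (mem_clus.1 hz)).2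
        unfold mf
        rw [if_pos hz]
        omega

end gen

/-! ### the torus -/

section torus

variable {N : ℕ} [NeZero N]

lemma WG_eq (σ : Sys (Spec.V N) (Spec.E N) (ℤ × ℤ)) (B Λ : Finset (Spec.V N)) :
    WG σ B Λ = WF σ B Λ := rfl

lemma WF_mono {σ : Sys (Spec.V N) (Spec.E N) (ℤ × ℤ)} {B B' Λ : Finset (Spec.V N)} (h : B ⊆ B')
    (x : Spec.V N → ℤ × ℤ) (om : Finset (Spec.E N)) : WF σ B Λ x om ≤ WF σ B' Λ x om := by
  unfold WF
  refine (Finset.sum_le_sum fun u _ => ?_).trans (Finset.sum_le_sum_of_subset h)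
  exact Finset.sum_le_sum_of_subset h

/-- **(ARM)** two copies at background `0` : arms from a block of radius `ξ / A` -/
theorem arm_T {b1 b2 a : ℝ} (hb1 : 0 < b1) (hA6 : Spec.ThmA6 b1 b2 a) : ∃ W₀ : ℝ, ∀ W : ℝ, W₀ ≤ W →
    ∃ c C η ys : ℝ, ∃ A X : ℕ, 0 < c ∧ 0 < C ∧ 0 < η ∧ 0 < ys ∧ 8 ≤ A ∧ A ≤ X ∧
    ∀ (N : ℕ) [NeZero N] (b : ℝ) (hb : 0 ≤ b) (ξ : ℕ) (y : ℝ),
      Spec.Rng b1 b2 a W ys X N b ξ y → (N : ℝ) ^ 2 * y ≤ η * (ξ : ℝ) ^ 2 →
      ∀ (x0 : Spec.V N) (m : ℕ),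
        Ex (Spec.σ2 N b ξ hb 0) (fun x om =>
          ind (Arm (Spec.σ2 N b ξ hb 0) (ball x0 (ξ / A)) (ball x0 m) x om)) ≤
        ENNReal.ofReal (C * Real.exp (-(c * m / ξ))) * Ex (Spec.σ2 N b ξ hb 0) fun _ _ => 1 := by
  obtain ⟨W1, h1⟩ := hA6
  -- the constants of A6 depend on `W`
  have key : ∀ W : ℝ, W1 ≤ W → ∃ W2 : ℝ, ∀ W' : ℝ, W2 ≤ W' → ∃ c C η ys : ℝ, ∃ A X : ℕ,
      0 < c ∧ 0 < C ∧ 0 < η ∧ 0 < ys ∧ 8 ≤ A ∧ A ≤ X ∧
    ∀ (N : ℕ) [NeZero N] (b : ℝ) (hb : 0 ≤ b) (ξ : ℕ) (y : ℝ),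
      Spec.Rng b1 b2 a W ys X N b ξ y → Spec.Rng b1 b2 a W' ys X N b ξ y →
      (N : ℝ) ^ 2 * y ≤ η * (ξ : ℝ) ^ 2 →
      ∀ (x0 : Spec.V N) (m : ℕ),
        Ex (Spec.σ2 N b ξ hb 0) (fun x om =>
          ind (Arm (Spec.σ2 N b ξ hb 0) (ball x0 (ξ / A)) (ball x0 m) x om)) ≤
        ENNReal.ofReal (C * Real.exp (-(c * m / ξ))) * Ex (Spec.σ2 N b ξ hb 0) fun _ _ => 1 := by
    intro W hW
    obtain ⟨c₀, δ, ys1, A, X1, hc₀, hδ, hys1, hA, hAX, h2⟩ := h1 W hW
    obtain ⟨W2, h3⟩ := H634.thmB1 hb1 b2 a (c₀ := c₀) (δ := δ) (A := A) hc₀ hδ hA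
    refine ⟨W2, fun W' hW' => ?_⟩
    obtain ⟨c, C, η, ys2, X2, hc, hC, hη, hys2, hX2, h4⟩ := h3 W' hW'
    -- the constant
    set C' : ℝ := Real.exp c + 8 * C / (c₀ * δ ^ 2) with hC'
    have hC'0 : 0 < C' := by positivity
    refine ⟨c, C', η, min ys1 ys2, A, max (max X1 X2) (⌈2 / δ⌉₊ + 1), hc, hC'0, hη,
      lt_min hys1 hys2, hA, hAX.trans ((le_max_left _ _).trans (le_max_left _ _)), ?_⟩
    intro N _ b hb ξ y hR hR' hηy x0 m
    have hR1 : Spec.Rng b1 b2 a W ys1 X1 N b ξ y := H857.rng_mono hR le_rfl (min_le_left _ _)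
      ((le_max_left _ _).trans (le_max_left _ _))
    have hR2 : Spec.Rng b1 b2 a W' ys2 X2 N b ξ y := H857.rng_mono hR' le_rfl (min_le_right _ _)
      ((le_max_right _ _).trans (le_max_left _ _))
    have hPO := h2 N b hb ξ y hR1
    have hWF := h4 N b hb ξ y hR2 hηy 0 hPO x0 m
    have hb0 : 0 < b := lt_of_lt_of_le hb1 hR.hb1
    have hXξ := hR.hX
    have hδξ : ⌈2 / δ⌉₊ + 1 ≤ ξ := (le_max_right _ _).trans hXξ
    have hξ : 0 < ξ := by omega
    have hξ' : (0 : ℝ) < ξ := by exact_mod_cast hξ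
    have hξ1 : (1 : ℝ) ≤ ξ := by exact_mod_cast hξ
    have hAξ : A ≤ ξ := (hAX.trans ((le_max_left _ _).trans (le_max_left _ _))).trans hXξ
    rcases lt_or_ge m ξ with hm | hm
    · calc Ex (Spec.σ2 N b ξ hb 0) (fun x om =>
            ind (Arm (Spec.σ2 N b ξ hb 0) (ball x0 (ξ / A)) (ball x0 m) x om))
          ≤ Ex (Spec.σ2 N b ξ hb 0) fun _ _ => 1 := Ex_mono fun x om _ => ind_le_one _
        _ = 1 * Ex (Spec.σ2 N b ξ hb 0) fun _ _ => 1 := (one_mul _).symm
        _ ≤ _ := by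
          refine mul_le_mul' ?_ le_rfl
          rw [← ENNReal.ofReal_one]
          refine ENNReal.ofReal_le_ofReal ?_
          have h5 : (1 : ℝ) ≤ Real.exp c * Real.exp (-(c * m / ξ)) := by
            rw [← Real.exp_add]
            refine Real.one_le_exp ?_
            have h6 : (m : ℝ) ≤ ξ := by exact_mod_cast hm.le
            have h7 : c * m / ξ ≤ c := by
              rw [div_le_iff₀ hξ']
              nlinarith
            linarith
          have h8 : 0 ≤ 8 * C / (c₀ * δ ^ 2) * Real.exp (-(c * m / ξ)) := by positivity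
          rw [hC', add_mul]
          linarith
    · have M := H857.fk_T (N := N) hb0 hξ (0 : Spec.V N → ℝ)
      have H := H857.evs_T (N := N) hb0 hξ hPO
      set μ := ⌊δ * (ξ : ℝ) ^ 2⌋₊ with hμ
      have h5 := arm_le (B := ball x0 (ξ / A)) (B4 := ball x0 (4 * (ξ / A)))
        (Fr := (ball x0 (2 * (ξ / A)))ᶜ) (Λ := ball x0 m) M (H.mono x0 (Finset.mem_univ _))
        (H.prob x0 (Finset.mem_univ _)) (H.force x0 (Finset.mem_univ _)) (fun z hz => by
          rw [Finset.mem_compl]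
          intro h6
          apply hz
          refine ball_mono ?_ h6
          have h7 : 8 * (ξ / A) ≤ ξ :=
            (Nat.mul_le_mul_right _ hA).trans (by rw [mul_comm]; exact Nat.div_mul_le_self ξ A)
          omega)
      have h6 : Ex (Spec.σ2 N b ξ hb 0) (WG (Spec.σ2 N b ξ hb 0) (ball x0 (4 * (ξ / A)))
          (ball x0 m)) ≤ ENNReal.ofReal (C * (ξ : ℝ) ^ 4 * Real.exp (-(c * m / ξ))) *
            Ex (Spec.σ2 N b ξ hb 0) fun _ _ => 1 := by
        refine le_trans (Ex_mono fun x om _ => ?_) hWF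
        rw [WG_eq]
        refine WF_mono (ball_mono ?_) x om
        have h7 : 8 * (ξ / A) ≤ ξ :=
          (Nat.mul_le_mul_right _ hA).trans (by rw [mul_comm]; exact Nat.div_mul_le_self ξ A)
        omega
      -- constants
      have hμ2 : δ * (ξ : ℝ) ^ 2 / 2 ≤ μ := by
        have h8 : δ * (ξ : ℝ) ^ 2 < μ + 1 := Nat.lt_floor_add_one _
        have h9 : 2 / δ ≤ (ξ : ℝ) := by
          refine (Nat.le_ceil _).trans ?_
          have : ⌈2 / δ⌉₊ ≤ ξ := by omega
          exact_mod_cast this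
        rw [div_le_iff₀ hδ] at h9
        have h10 : (2 : ℝ) ≤ δ * (ξ : ℝ) ^ 2 := by
          calc (2 : ℝ) ≤ ξ * δ := h9
            _ = δ * (ξ * 1) := by ring
            _ ≤ δ * (ξ * ξ) := by gcongr
            _ = _ := by ring
        linarith
      have hμ0 : (0 : ℝ) < μ := lt_of_lt_of_le (by positivity) hμ2
      set Z := Ex (Spec.σ2 N b ξ hb 0) fun _ _ => 1 with hZ
      set P := Ex (Spec.σ2 N b ξ hb 0) (fun x om =>
          ind (Arm (Spec.σ2 N b ξ hb 0) (ball x0 (ξ / A)) (ball x0 m) x om)) with hP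
      have h7 : ENNReal.ofReal (c₀ * (μ : ℝ) ^ 2) * P ≤
          ENNReal.ofReal (2 * (C * (ξ : ℝ) ^ 4 * Real.exp (-(c * m / ξ)))) * Z := by
        have e1 : ENNReal.ofReal (c₀ * (μ : ℝ) ^ 2) = ENNReal.ofReal c₀ * (μ : ℝ≥0∞) ^ 2 := by
          rw [ENNReal.ofReal_mul hc₀.le, ENNReal.ofReal_pow (Nat.cast_nonneg _),
            ENNReal.ofReal_natCast]
        rw [e1, ENNReal.ofReal_mul (by norm_num), ENNReal.ofReal_ofNat, mul_assoc 2]
        exact h5.trans (mul_le_mul_right h6 _)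
      have hcμ : 0 < c₀ * (μ : ℝ) ^ 2 := by positivity
      have h8 : P ≤ ENNReal.ofReal (2 * (C * (ξ : ℝ) ^ 4 * Real.exp (-(c * m / ξ))) /
          (c₀ * (μ : ℝ) ^ 2)) * Z := by
        rw [ENNReal.ofReal_div_of_pos hcμ, div_eq_mul_inv, mul_right_comm,
          ← div_eq_mul_inv (_ * Z), ENNReal.le_div_iff_mul_le (Or.inl (by
            rw [Ne, ENNReal.ofReal_eq_zero, not_le]; exact hcμ)) (Or.inl ENNReal.ofReal_ne_top),
          mul_comm]
        exact h7
      refine h8.trans (mul_le_mul' (ENNReal.ofReal_le_ofReal ?_) le_rfl)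
      rw [div_le_iff₀ hcμ]
      have h9 : (δ * (ξ : ℝ) ^ 2 / 2) ^ 2 ≤ (μ : ℝ) ^ 2 := by
        have : 0 ≤ δ * (ξ : ℝ) ^ 2 / 2 := by positivity
        exact pow_le_pow_left₀ this hμ2 2
      have hE : 0 < Real.exp (-(c * m / ξ)) := Real.exp_pos _
      calc 2 * (C * (ξ : ℝ) ^ 4 * Real.exp (-(c * m / ξ)))
          = (8 * C / (c₀ * δ ^ 2)) * Real.exp (-(c * m / ξ)) *
              (c₀ * (δ * (ξ : ℝ) ^ 2 / 2) ^ 2) := by
            field_simp
            ring
        _ ≤ C' * Real.exp (-(c * m / ξ)) * (c₀ * (μ : ℝ) ^ 2) := by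
            have h10 : 8 * C / (c₀ * δ ^ 2) ≤ C' := by
              rw [hC']
              have := Real.exp_pos c
              linarith
            gcongr
  obtain ⟨W2, h2⟩ := key W1 le_rfl
  refine ⟨max W1 W2, fun W hW => ?_⟩
  obtain ⟨c, C, η, ys, A, X, hc, hC, hη, hys, hA, hAX, h⟩ := h2 W ((le_max_right _ _).trans hW)
  refine ⟨c, C, η, ys, A, X, hc, hC, hη, hys, hA, hAX, ?_⟩
  intro N _ b hb ξ y hR hηy x0 m
  exact h N b hb ξ y (H857.rng_mono hR ((le_max_left _ _).trans hW) le_rfl le_rfl) hR hηy x0 m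

end torus

end Vale.Agent.P159.H145.Dz
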