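import Vale.Agent.P159.H145.Dz4

/-!
P159, module DZ (helper145), part 5: transfer of an arm event from the torus `ZMod (2 a) × ZMod c`
to the torus `ZMod a × ZMod c`.
-/

set_option linter.unusedSectionVars false
set_option linter.unusedDecidableInType false

namespace Vale.Agent.P159.H145.Dz

open scoped ENNReal
open Finset Vale.Agent.P159.TM.H60 Vale.Agent.P159.TM.H576

/-! ### the law of the open edges given the configuration -/

section gen

variable {V E S : Type*} [Fintype V] [DecidableEq V] [Fintype E] [DecidableEq E]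
variable (σ : Sys V E S)

/-- open, given the two ends -/
noncomputable def pe (e : E) (x y : S) : ℝ≥0∞ := ENNReal.ofReal (σ.op e x y / σ.fl e x y)

/-- closed, given the two ends -/
noncomputable def qe (e : E) (x y : S) : ℝ≥0∞ := ENNReal.ofReal (σ.cl e x y / σ.fl e x y)

lemma pe_add_qe {e : E} {x y : S} (h : 0 < σ.fl e x y) : pe σ e x y + qe σ e x y = 1 := by
  unfold pe qe
  rw [← ENNReal.ofReal_add (div_nonneg (σ.op_nonneg _ _ _) h.le)
    (div_nonneg (σ.cl_nonneg _ _ _) h.le), ← add_div, σ.op_add_cl, div_self h.ne',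
    ENNReal.ofReal_one]

/-- conditional expectation of a function of the open edges of `T0` -/
noncomputable def cp (T0 : Finset E) (G : Finset E → ℝ≥0∞) (x : V → S) : ℝ≥0∞ :=
  ∑ T ∈ T0.powerset, (∏ e ∈ T, pe σ e (x (σ.s e)) (x (σ.t e))) *
    (∏ e ∈ T0 \ T, qe σ e (x (σ.s e)) (x (σ.t e))) * G T

lemma sum_split (T0 : Finset E) (f : Finset E → ℝ≥0∞) :
    ∑ om : Finset E, f om = ∑ T ∈ T0.powerset, ∑ U ∈ T0ᶜ.powerset, f (T ∪ U) := by
  rw [← Finset.sum_product']
  refine Finset.sum_bij' (fun om _ => (om ∩ T0, om ∩ T0ᶜ)) (fun p _ => p.1 ∪ p.2) ?_ ?_ ?_ ?_ ?_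
  · intro om _
    rw [Finset.mem_product, Finset.mem_powerset, Finset.mem_powerset]
    exact ⟨Finset.inter_subset_right, Finset.inter_subset_right⟩
  · intro p _
    exact Finset.mem_univ _
  · intro om _
    ext e
    simp only [Finset.mem_union, Finset.mem_inter, Finset.mem_compl]
    tauto
  · rintro ⟨T, U⟩ hp
    rw [Finset.mem_product, Finset.mem_powerset, Finset.mem_powerset] at hp
    ext e
    · simp only [Finset.mem_union, Finset.mem_inter]
      constructor
      · rintro ⟨h | h, h2⟩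
        · exact h
        · exact absurd h2 (Finset.mem_compl.1 (hp.2 h))
      · intro h
        exact ⟨Or.inl h, hp.1 h⟩
    · simp only [Finset.mem_union, Finset.mem_inter, Finset.mem_compl]
      constructor
      · rintro ⟨h | h, h2⟩
        · exact absurd (hp.1 h) h2
        · exact h
      · intro h
        exact ⟨Or.inr h, Finset.mem_compl.1 (hp.2 h)⟩
  · intro om _
    congr 1
    ext e
    simp only [Finset.mem_union, Finset.mem_inter, Finset.mem_compl]
    tauto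

lemma ofReal_wt {x : V → S} (hx : ∀ e, 0 < σ.fl e (x (σ.s e)) (x (σ.t e))) (om : Finset E) :
    ENNReal.ofReal (σ.wt om x) = ENNReal.ofReal (σ.tot x) *
      ((∏ e ∈ om, pe σ e (x (σ.s e)) (x (σ.t e))) * ∏ e ∈ omᶜ, qe σ e (x (σ.s e)) (x (σ.t e))) := by
  have h1 : ∀ e, 0 ≤ σ.op e (x (σ.s e)) (x (σ.t e)) / σ.fl e (x (σ.s e)) (x (σ.t e)) := fun e =>
    div_nonneg (σ.op_nonneg _ _ _) (hx e).le
  have h2 : ∀ e, 0 ≤ σ.cl e (x (σ.s e)) (x (σ.t e)) / σ.fl e (x (σ.s e)) (x (σ.t e)) := fun e =>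
    div_nonneg (σ.cl_nonneg _ _ _) (hx e).le
  unfold pe qe
  rw [← ENNReal.ofReal_prod_of_nonneg fun e _ => h1 e,
    ← ENNReal.ofReal_prod_of_nonneg fun e _ => h2 e,
    ← ENNReal.ofReal_mul (Finset.prod_nonneg fun e _ => h1 e),
    ← ENNReal.ofReal_mul (σ.tot_nonneg x)]
  congr 1
  unfold Sys.wt Sys.tot
  have e1 : ∏ e, σ.fl e (x (σ.s e)) (x (σ.t e)) =
      (∏ e ∈ om, σ.fl e (x (σ.s e)) (x (σ.t e))) * ∏ e ∈ omᶜ, σ.fl e (x (σ.s e)) (x (σ.t e)) :=
    (Finset.prod_mul_prod_compl om _).symm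
  rw [e1, Finset.prod_div_distrib, Finset.prod_div_distrib]
  have h3 : ∏ e ∈ om, σ.fl e (x (σ.s e)) (x (σ.t e)) ≠ 0 :=
    (Finset.prod_pos fun e _ => hx e).ne'
  have h4 : ∏ e ∈ omᶜ, σ.fl e (x (σ.s e)) (x (σ.t e)) ≠ 0 :=
    (Finset.prod_pos fun e _ => hx e).ne'
  field_simp

lemma sum_wt_cp {x : V → S} (hx : ∀ e, 0 < σ.fl e (x (σ.s e)) (x (σ.t e))) (T0 : Finset E)
    (G : Finset E → ℝ≥0∞) :
    ∑ om : Finset E, ENNReal.ofReal (σ.wt om x) * G (om ∩ T0) =
      ENNReal.ofReal (σ.tot x) * cp σ T0 G x := by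
  simp only [ofReal_wt σ hx, mul_assoc]
  rw [← Finset.mul_sum]
  congr 1
  rw [sum_split T0]
  unfold cp
  refine Finset.sum_congr rfl fun T hT => ?_
  rw [Finset.mem_powerset] at hT
  have e1 : ∀ U ∈ T0ᶜ.powerset, (∏ e ∈ T ∪ U, pe σ e (x (σ.s e)) (x (σ.t e))) *
      ((∏ e ∈ (T ∪ U)ᶜ, qe σ e (x (σ.s e)) (x (σ.t e))) * G ((T ∪ U) ∩ T0)) =
      ((∏ e ∈ T, pe σ e (x (σ.s e)) (x (σ.t e))) *
        (∏ e ∈ T0 \ T, qe σ e (x (σ.s e)) (x (σ.t e))) * G T) *
      ((∏ e ∈ U, pe σ e (x (σ.s e)) (x (σ.t e))) *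
        ∏ e ∈ T0ᶜ \ U, qe σ e (x (σ.s e)) (x (σ.t e))) := by
    intro U hU
    rw [Finset.mem_powerset] at hU
    have hd : Disjoint T U := by
      rw [Finset.disjoint_left]
      intro e h1 h2
      exact (Finset.mem_compl.1 (hU h2)) (hT h1)
    have hc : (T ∪ U)ᶜ = (T0 \ T) ∪ (T0ᶜ \ U) := by
      ext e
      have h1 : e ∈ T → e ∈ T0 := fun h => hT h
      have h2 : e ∈ U → e ∉ T0 := fun h => Finset.mem_compl.1 (hU h)
      simp only [Finset.mem_compl, Finset.mem_union, Finset.mem_sdiff]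
      tauto
    have hd2 : Disjoint (T0 \ T) (T0ᶜ \ U) := by
      rw [Finset.disjoint_left]
      intro e h1 h2
      rw [Finset.mem_sdiff] at h1 h2
      exact (Finset.mem_compl.1 h2.1) h1.1
    have hi : (T ∪ U) ∩ T0 = T := by
      ext e
      have h1 : e ∈ T → e ∈ T0 := fun h => hT h
      have h2 : e ∈ U → e ∉ T0 := fun h => Finset.mem_compl.1 (hU h)
      simp only [Finset.mem_union, Finset.mem_inter]
      tauto
    rw [hc, hi, Finset.prod_union hd, Finset.prod_union hd2]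
    ring
  rw [Finset.sum_congr rfl e1, ← Finset.mul_sum, ← Finset.prod_add]
  rw [Finset.prod_congr rfl fun e _ => pe_add_qe σ (hx e), Finset.prod_const_one, mul_one]

lemma Ex_cp (hfl : ∀ e x y, 0 < σ.fl e x y) (T0 : Finset E) (G : (V → S) → Finset E → ℝ≥0∞) :
    Ex σ (fun x om => G x (om ∩ T0)) = I0 σ fun x => cp σ T0 (G x) x := by
  unfold Ex I0
  exact tsum_congr fun x => sum_wt_cp σ (fun e => hfl _ _ _) T0 (G x)

lemma cp_mono {T0 : Finset E} {G G' : Finset E → ℝ≥0∞} (h : ∀ T ⊆ T0, G T ≤ G' T) (x : V → S) :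
    cp σ T0 G x ≤ cp σ T0 G' x :=
  Finset.sum_le_sum fun T hT => mul_le_mul' le_rfl (h T (Finset.mem_powerset.1 hT))

lemma cp_one (hfl : ∀ e x y, 0 < σ.fl e x y) (T0 : Finset E) (x : V → S) :
    cp σ T0 (fun _ => 1) x = 1 := by
  unfold cp
  simp only [mul_one]
  rw [← Finset.prod_add]
  rw [Finset.prod_congr rfl fun e _ => pe_add_qe σ (hfl _ _ _), Finset.prod_const_one]

lemma cp_le_one (hfl : ∀ e x y, 0 < σ.fl e x y) {T0 : Finset E} {G : Finset E → ℝ≥0∞}
    (h : ∀ T, G T ≤ 1) (x : V → S) : cp σ T0 G x ≤ 1 := by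
  rw [← cp_one σ hfl T0 x]
  exact cp_mono σ (fun T _ => h T) x

/-- edges with an end point in `Λ` -/
def touch (Λ : Finset V) : Finset E := univ.filter fun e => σ.s e ∈ Λ ∨ σ.t e ∈ Λ

lemma mem_touch {Λ : Finset V} {e : E} : e ∈ touch σ Λ ↔ σ.s e ∈ Λ ∨ σ.t e ∈ Λ := by
  simp [touch]

/-- first exit -/
lemma first_exit {Λ : Finset V} {om : Finset E} {u z : V} (h : Conn σ.s σ.t om u z) :
    Conn σ.s σ.t (om ∩ touch σ Λ) u z ∨ ∃ z', z' ∉ Λ ∧ Conn σ.s σ.t (om ∩ touch σ Λ) u z' := by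
  induction h with
  | refl => exact Or.inl (Conn.refl u)
  | @tail y z h1 h2 ih =>
    rcases ih with ih | ih
    · by_cases hy : y ∈ Λ
      · left
        refine Relation.ReflTransGen.tail ih ?_
        obtain ⟨e, he, h3⟩ := h2
        refine ⟨e, ?_, h3⟩
        rw [Finset.mem_inter, mem_touch]
        refine ⟨he, ?_⟩
        rcases h3 with ⟨h4, h5⟩ | ⟨h4, h5⟩
        · left; rw [h4]; exact hy
        · right; rw [h5]; exact hy
      · exact Or.inr ⟨y, hy, ih⟩
    · exact Or.inr ih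

lemma exit {Λ : Finset V} {om : Finset E} {u z : V} (h : Conn σ.s σ.t om u z) (hz : z ∉ Λ) :
    ∃ z', z' ∉ Λ ∧ Conn σ.s σ.t (om ∩ touch σ Λ) u z' := by
  rcases first_exit (Λ := Λ) σ h with h1 | h1
  · exact ⟨z, hz, h1⟩
  · exact h1

lemma Ex_arm_touch (B Λ : Finset V) : Ex σ (fun x om => ind (Arm σ B Λ x om)) =
    Ex σ fun x om => ind (Arm σ B Λ x (om ∩ touch σ Λ)) := by
  refine Ex_congr fun x om _ => ind_congr ?_
  constructor
  · rintro ⟨u, hu, hd, z, hz, hzΛ⟩
    obtain ⟨z', h1, h2⟩ := exit σ (mem_clus.1 hz) hzΛ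
    exact ⟨u, hu, hd, z', mem_clus.2 h2, h1⟩
  · rintro ⟨u, hu, hd, z, hz, hzΛ⟩
    exact ⟨u, hu, hd, z, mem_clus.2 ((mem_clus.1 hz).mono Finset.inter_subset_left), hzΛ⟩

end gen

/-! ### the double torus -/

section dbl

variable (D : Dat) (a c : ℕ) [NeZero a] [NeZero c] [NeZero (2 * a)]

/-- the section on vertices -/
def ph (v : VR a c) : VR (2 * a) c := (io a v.1, v.2)

/-- the section on edges -/
def phE (e : ER a c) : ER (2 * a) c := (ph a c e.1, e.2)

lemma io_inj : Function.Injective (io a) := fun i j h => by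
  have h1 := congrArg ZMod.val h
  rw [io_val, io_val] at h1
  exact ZMod.val_injective a h1

lemma ph_inj : Function.Injective (ph a c) := by
  rintro ⟨i, y⟩ ⟨j, z⟩ h
  have h1 : io a i = io a j := congrArg Prod.fst h
  have h2 : y = z := congrArg Prod.snd h
  rw [io_inj a h1, h2]

lemma phE_inj : Function.Injective (phE a c) := by
  rintro ⟨v, b⟩ ⟨v', b'⟩ h
  have h1 : ph a c v = ph a c v' := congrArg Prod.fst h
  have h2 : b = b' := congrArg Prod.snd h
  rw [ph_inj a c h1, h2]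

lemma rS_phE (e : ER a c) : rS (phE a c e) = ph a c (rS e) := rfl

lemma rT_phE {e : ER a c} (h : e ∉ KH a c) : rT (phE a c e) = ph a c (rT e) := by
  obtain ⟨⟨i, y⟩, b⟩ := e
  cases b
  · show ((io a i, y) + (0, 1) : VR (2 * a) c) = (io a (i + 0), y + 1)
    rw [add_zero, Prod.mk_add_mk, add_zero]
  · have hi : i ≠ -1 := by
      rintro rfl
      apply h
      unfold KH
      simp
    show ((io a i, y) + (1, 0) : VR (2 * a) c) = (io a (i + 1), y + 0)
    rw [add_zero, Prod.mk_add_mk, add_zero, io_succ a hi]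

variable {Λ : Finset (VR a c)}

lemma touch_KH (hΛ : ∀ v ∈ Λ, v.1 ≠ 0 ∧ v.1 ≠ -1) {e : ER a c} (he : e ∈ touch (σR D a c) Λ) :
    e ∉ KH a c := by
  rw [mem_touch] at he
  intro hK
  unfold KH at hK
  simp only [Finset.mem_filter, Finset.mem_univ, true_and] at hK
  rcases he with h | h
  · exact (hΛ _ h).2 hK.2
  · have h1 := (hΛ _ h).1
    apply h1
    show (e.1 + (if e.2 then (1, 0) else (0, 1))).1 = 0
    rw [hK.1, if_pos rfl, Prod.fst_add, hK.2]
    simp

lemma touch_image (hΛ : ∀ v ∈ Λ, v.1 ≠ 0 ∧ v.1 ≠ -1) :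
    touch (σR D (2 * a) c) (Λ.image (ph a c)) = (touch (σR D a c) Λ).image (phE a c) := by
  ext e'
  constructor
  · intro h0
    rw [mem_touch] at h0
    rw [Finset.mem_image]
    rcases h0 with h | h
    · obtain ⟨v, hv, he⟩ := Finset.mem_image.1 h
      refine ⟨(v, e'.2), ?_, ?_⟩
      · rw [mem_touch]; exact Or.inl hv
      · exact Prod.ext he rfl
    · obtain ⟨v, hv, he⟩ := Finset.mem_image.1 h
      have he' : ph a c v = e'.1 + (if e'.2 then (1, 0) else (0, 1)) := he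
      obtain ⟨w, b⟩ := e'
      cases b
      · refine ⟨((v.1, v.2 - 1), false), ?_, ?_⟩
        · rw [mem_touch]
          right
          have : (σR D a c).t ((v.1, v.2 - 1), false) = v := by
            show ((v.1, v.2 - 1) + (0, 1) : VR a c) = v
            rw [Prod.mk_add_mk, add_zero, sub_add_cancel]
          rw [this]; exact hv
        · refine Prod.ext ?_ rfl
          show (io a v.1, v.2 - 1) = w
          have h1 : ((io a v.1, v.2) : VR (2 * a) c) = w + (0, 1) := he'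
          have h2 : io a v.1 = w.1 + 0 := congrArg Prod.fst h1
          have h3 : v.2 = w.2 + 1 := congrArg Prod.snd h1
          rw [h2, h3]
          ext <;> simp
      · have hv0 : v.1 - 1 ≠ -1 := by
          intro h1
          apply (hΛ v hv).1
          calc v.1 = v.1 - 1 + 1 := by ring
            _ = 0 := by rw [h1]; ring
        refine ⟨((v.1 - 1, v.2), true), ?_, ?_⟩
        · rw [mem_touch]
          right
          have : (σR D a c).t ((v.1 - 1, v.2), true) = v := by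
            show ((v.1 - 1, v.2) + (1, 0) : VR a c) = v
            rw [Prod.mk_add_mk, add_zero, sub_add_cancel]
          rw [this]; exact hv
        · refine Prod.ext ?_ rfl
          show (io a (v.1 - 1), v.2) = w
          have h0 := io_succ a hv0
          rw [sub_add_cancel] at h0
          have h1 : ((io a v.1, v.2) : VR (2 * a) c) = w + (1, 0) := he'
          have h2 : io a v.1 = w.1 + 1 := congrArg Prod.fst h1
          have h3 : v.2 = w.2 + 0 := congrArg Prod.snd h1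
          rw [h0] at h2
          have h4 : io a (v.1 - 1) = w.1 := add_right_cancel h2
          rw [h4, h3, add_zero]
  · intro h0
    rw [Finset.mem_image] at h0
    obtain ⟨e, he, rfl⟩ := h0
    have hK := touch_KH D a c hΛ he
    rw [mem_touch] at he
    rw [mem_touch]
    rcases he with h | h
    · left
      exact Finset.mem_image_of_mem _ h
    · right
      have : (σR D (2 * a) c).t (phE a c e) = ph a c (rT e) := rT_phE a c hK
      rw [this]
      exact Finset.mem_image_of_mem _ h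

lemma fl_pos_R (D : Dat) (a c : ℕ) (e : ER a c) (x y : ℤ × ℤ) : 0 < (σR D a c).fl e x y :=
  mul_pos (D.w_pos _) (D.w_pos _)

/-- connections in the image of a set of edges -/
lemma conn_image (hΛ : ∀ v ∈ Λ, v.1 ≠ 0 ∧ v.1 ≠ -1) {T : Finset (ER a c)}
    (hT : T ⊆ touch (σR D a c) Λ) {u : VR a c} {z' : VR (2 * a) c}
    (h : Conn (σR D (2 * a) c).s (σR D (2 * a) c).t (T.image (phE a c)) (ph a c u) z') :
    ∃ z, z' = ph a c z ∧ Conn (σR D a c).s (σR D a c).t T u z := by
  induction h with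
  | refl => exact ⟨u, rfl, Conn.refl u⟩
  | @tail y z _ h2 ih =>
    obtain ⟨y0, rfl, h3⟩ := ih
    obtain ⟨e', he', h4⟩ := h2
    obtain ⟨e, he, rfl⟩ := Finset.mem_image.1 he'
    have hK := touch_KH D a c hΛ (hT he)
    have es : (σR D (2 * a) c).s (phE a c e) = ph a c (rS e) := rfl
    have et : (σR D (2 * a) c).t (phE a c e) = ph a c (rT e) := rT_phE a c hK
    rw [es, et] at h4
    rcases h4 with ⟨h5, h6⟩ | ⟨h5, h6⟩
    · refine ⟨rT e, h6.symm, Relation.ReflTransGen.tail h3 ⟨e, he, Or.inl ⟨?_, rfl⟩⟩⟩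
      exact ph_inj a c h5
    · refine ⟨rS e, h5.symm, Relation.ReflTransGen.tail h3 ⟨e, he, Or.inr ⟨rfl, ?_⟩⟩⟩
      exact ph_inj a c h6

/-- the conditional probability of the arm event in the open edges which touch `Λ` -/
noncomputable def Q (B Λ : Finset (VR a c)) (x : VR a c → ℤ × ℤ) : ℝ≥0∞ :=
  cp (σR D a c) (touch (σR D a c) Λ) (fun T => ind (Arm (σR D a c) B Λ x T)) x

lemma cp_image (hΛ : ∀ v ∈ Λ, v.1 ≠ 0 ∧ v.1 ≠ -1) (G : Finset (ER (2 * a) c) → ℝ≥0∞)
    (X : VR (2 * a) c → ℤ × ℤ) :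
    cp (σR D (2 * a) c) ((touch (σR D a c) Λ).image (phE a c)) G X =
      cp (σR D a c) (touch (σR D a c) Λ) (fun T => G (T.image (phE a c)))
        (fun v => X (ph a c v)) := by
  unfold cp
  rw [Finset.powerset_image, Finset.sum_image]
  · refine Finset.sum_congr rfl fun T hT => ?_
    rw [Finset.mem_powerset] at hT
    have e1 : ∏ e ∈ T.image (phE a c), pe (σR D (2 * a) c) e (X ((σR D (2 * a) c).s e))
        (X ((σR D (2 * a) c).t e)) = ∏ e ∈ T, pe (σR D a c) e (X (ph a c ((σR D a c).s e)))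
          (X (ph a c ((σR D a c).t e))) := by
      rw [Finset.prod_image fun e _ e' _ h => phE_inj a c h]
      refine Finset.prod_congr rfl fun e he => ?_
      have et : (σR D (2 * a) c).t (phE a c e) = ph a c (rT e) :=
        rT_phE a c (touch_KH D a c hΛ (hT he))
      rw [et]
      rfl
    have e2 : ∏ e ∈ (touch (σR D a c) Λ).image (phE a c) \ T.image (phE a c),
        qe (σR D (2 * a) c) e (X ((σR D (2 * a) c).s e)) (X ((σR D (2 * a) c).t e)) =
        ∏ e ∈ touch (σR D a c) Λ \ T, qe (σR D a c) e (X (ph a c ((σR D a c).s e)))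
          (X (ph a c ((σR D a c).t e))) := by
      rw [← Finset.image_sdiff _ _ (phE_inj a c), Finset.prod_image fun e _ e' _ h => phE_inj a c h]
      refine Finset.prod_congr rfl fun e he => ?_
      have et : (σR D (2 * a) c).t (phE a c e) = ph a c (rT e) :=
        rT_phE a c (touch_KH D a c hΛ (Finset.mem_sdiff.1 he).1)
      rw [et]
      rfl
    rw [e1, e2]
  · intro T _ T' _ h
    exact Finset.image_injective (phE_inj a c) h

/-- **transfer of the arm event** -/
theorem arm_transfer (hΛ : ∀ v ∈ Λ, v.1 ≠ 0 ∧ v.1 ≠ -1) (B : Finset (VR a c)) :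
    Ex (σR D (2 * a) c) (fun X om =>
      ind (Arm (σR D (2 * a) c) (B.image (ph a c)) (Λ.image (ph a c)) X om)) ≤
    I0 (σR D (2 * a) c) fun X => Q D a c B Λ fun v => X (ph a c v) := by
  rw [Ex_arm_touch, Ex_cp (σR D (2 * a) c) (fl_pos_R D (2 * a) c) _
    (fun X T => ind (Arm (σR D (2 * a) c) (B.image (ph a c)) (Λ.image (ph a c)) X T))]
  unfold I0
  refine ENNReal.tsum_le_tsum fun X => mul_le_mul' le_rfl ?_
  beta_reduce
  rw [touch_image D a c hΛ, cp_image D a c hΛ]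
  unfold Q
  refine cp_mono _ (fun T hT => ind_mono ?_) _
  rintro ⟨u', hu', hd, z', hz', hzΛ⟩
  obtain ⟨u, hu, rfl⟩ := Finset.mem_image.1 hu'
  obtain ⟨z, rfl, h1⟩ := conn_image D a c hΛ hT (mem_clus.1 hz')
  refine ⟨u, hu, hd, z, mem_clus.2 h1, fun h2 => hzΛ (Finset.mem_image_of_mem _ h2)⟩

lemma Q_le_one (B Λ : Finset (VR a c)) (x : VR a c → ℤ × ℤ) : Q D a c B Λ x ≤ 1 :=
  cp_le_one _ (fl_pos_R D a c) (fun _ => ind_le_one _) x

lemma I0_Q (B Λ : Finset (VR a c)) : I0 (σR D a c) (Q D a c B Λ) =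
    Ex (σR D a c) fun x om => ind (Arm (σR D a c) B Λ x om) := by
  rw [Ex_arm_touch, Ex_cp (σR D a c) (fl_pos_R D a c) _
    (fun x T => ind (Arm (σR D a c) B Λ x T))]
  rfl

/-- `Q` depends only on the window -/
lemma Q_local {B W : Finset (VR a c)} (hB : B ⊆ W)
    (hW : ∀ e ∈ touch (σR D a c) Λ, (σR D a c).s e ∈ W ∧ (σR D a c).t e ∈ W)
    {x x' : VR a c → ℤ × ℤ} (h : ∀ v ∈ W, x v = x' v) : Q D a c B Λ x = Q D a c B Λ x' := by
  unfold Q cp
  refine Finset.sum_congr rfl fun T hT => ?_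
  rw [Finset.mem_powerset] at hT
  congr 1
  · congr 1
    · refine Finset.prod_congr rfl fun e he => ?_
      rw [h _ (hW e (hT he)).1, h _ (hW e (hT he)).2]
    · refine Finset.prod_congr rfl fun e he => ?_
      have := hW e (Finset.mem_sdiff.1 he).1
      rw [h _ this.1, h _ this.2]
  · refine ind_congr ?_
    unfold Arm
    constructor
    · rintro ⟨u, hu, hd, hz⟩
      exact ⟨u, hu, by rw [← h u (hB hu)]; exact hd, hz⟩
    · rintro ⟨u, hu, hd, hz⟩
      exact ⟨u, hu, by rw [h u (hB hu)]; exact hd, hz⟩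

/-! ### four copies -/

lemma I0_fst (G : (VR a c → ℤ) → ℝ≥0∞) : I0 (σR D a c) (fun x => G fun v => (x v).1) =
    ZR D a c * ∑' h : VR a c → ℤ, ENNReal.ofReal (wR D a c h) * G h := by
  rw [I0_pair D a c fun h _ => G h]
  unfold ZR
  rw [← ENNReal.tsum_mul_left]
  refine tsum_congr fun h => ?_
  rw [ENNReal.tsum_mul_left, ENNReal.tsum_mul_right]
  ring

lemma I0_cov (F : (VR a c → ℤ × ℤ) → ℝ≥0∞) :
    I0 (σR D (2 * a) c) (fun X => F fun v => X (ph a c v)) =
      IT (σR D a c) (KH a c) fun x1 => IT (σR D a c) (KH a c) fun x2 =>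
        F fun v => ((x1 v).1, (x2 v).1) := by
  rw [I0_pair D (2 * a) c fun h h' => F fun v => (h (ph a c v), h' (ph a c v))]
  unfold IT
  rw [← (cov a c).tsum_eq]
  refine tsum_congr fun h => ?_
  rw [ENNReal.tsum_mul_left, wR_cov]
  congr 1
  beta_reduce
  rw [← (cov a c).tsum_eq]
  refine tsum_congr fun h' => ?_
  rw [wR_cov]
  rfl

lemma IT_add_const (F : (VR a c → ℤ × ℤ) → ℝ≥0∞) (ε : ℝ≥0∞) :
    IT (σR D a c) (KH a c) (fun x => F x + ε) =
      IT (σR D a c) (KH a c) F + ε * IT (σR D a c) (KH a c) fun _ => 1 := by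
  unfold IT
  rw [← ENNReal.tsum_mul_left, ← ENNReal.tsum_add]
  refine tsum_congr fun x => ?_
  ring

lemma IT_mono {F G : (VR a c → ℤ × ℤ) → ℝ≥0∞} (h : ∀ x, F x ≤ G x) :
    IT (σR D a c) (KH a c) F ≤ IT (σR D a c) (KH a c) G :=
  ENNReal.tsum_le_tsum fun x => mul_le_mul' le_rfl (h x)

/-- **a local function of the two copies on the double torus** -/
theorem I0_cov_le {W : Finset (VR a c)} {F : (VR a c → ℤ × ℤ) → ℝ≥0∞}
    (hF : ∀ x x' : VR a c → ℤ × ℤ, (∀ v ∈ W, x v = x' v) → F x = F x') (h1 : ∀ x, F x ≤ 1) :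
    I0 (σR D (2 * a) c) (fun X => F fun v => X (ph a c v)) ≤
      ZR D a c ^ 2 * I0 (σR D a c) F +
        2 * (ZR D a c ^ 2 * Ex (σR D a c) fun _ om => ind (Bad (σR D a c) (KH a c) W om)) := by
  set ε := Ex (σR D a c) fun _ om => ind (Bad (σR D a c) (KH a c) W om) with hε
  rw [I0_cov]
  have hI : ∀ x1 : VR a c → ℤ × ℤ, IT (σR D a c) (KH a c)
      (fun x2 => F fun v => ((x1 v).1, (x2 v).1)) ≤
      I0 (σR D a c) (fun x2 => F fun v => ((x1 v).1, (x2 v).1)) + ε := by
    intro x1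
    have := IT_le (σR D a c) (KH a c) (W := W) (C := 1)
      (F := fun x2 => F fun v => ((x1 v).1, (x2 v).1))
      (fun x x' hx => hF _ _ fun v hv => by rw [hx v hv]) (fun x => h1 _)
    rwa [one_mul] at this
  have hone : IT (σR D a c) (KH a c) (fun _ => 1) ≤ ZR D a c ^ 2 := by
    rw [← I0_one]; exact IT_one_le _ _
  have hbd : ∀ x1 : VR a c → ℤ × ℤ, I0 (σR D a c) (fun x2 => F fun v => ((x1 v).1, (x2 v).1)) ≤
      ZR D a c ^ 2 := by
    intro x1
    rw [← I0_one]
    exact ENNReal.tsum_le_tsum fun x => mul_le_mul' le_rfl (h1 _)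
  have hO := IT_le (σR D a c) (KH a c) (W := W) (C := ZR D a c ^ 2)
      (F := fun x1 => I0 (σR D a c) (fun x2 => F fun v => ((x1 v).1, (x2 v).1)))
      (fun x x' hx => by
        unfold I0
        refine tsum_congr fun y => ?_
        beta_reduce
        rw [hF (fun v => ((x v).1, (y v).1)) (fun v => ((x' v).1, (y v).1))
          fun v hv => by rw [hx v hv]]) hbd
  have hfin : I0 (σR D a c) (fun x1 => I0 (σR D a c)
      (fun x2 => F fun v => ((x1 v).1, (x2 v).1))) = ZR D a c ^ 2 * I0 (σR D a c) F := by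
    have e1 : ∀ x1 : VR a c → ℤ × ℤ, I0 (σR D a c) (fun x2 => F fun v => ((x1 v).1, (x2 v).1)) =
        ZR D a c * ∑' h' : VR a c → ℤ, ENNReal.ofReal (wR D a c h') *
          F fun v => ((x1 v).1, h' v) := fun x1 =>
      I0_fst D a c fun h' => F fun v => ((x1 v).1, h' v)
    simp only [e1]
    rw [I0_fst D a c fun h => ZR D a c * ∑' h' : VR a c → ℤ, ENNReal.ofReal (wR D a c h') *
      F fun v => (h v, h' v)]
    have e2 : I0 (σR D a c) F = ∑' h : VR a c → ℤ, ∑' h' : VR a c → ℤ,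
        ENNReal.ofReal (wR D a c h) * (ENNReal.ofReal (wR D a c h') * F fun v => (h v, h' v)) :=
      I0_pair D a c fun h h' => F fun v => (h v, h' v)
    rw [e2, pow_two, mul_assoc]
    congr 1
    rw [← ENNReal.tsum_mul_left]
    refine tsum_congr fun h => ?_
    rw [ENNReal.tsum_mul_left]
    ring
  calc IT (σR D a c) (KH a c) (fun x1 => IT (σR D a c) (KH a c)
        fun x2 => F fun v => ((x1 v).1, (x2 v).1))
      ≤ IT (σR D a c) (KH a c) (fun x1 => I0 (σR D a c)
          (fun x2 => F fun v => ((x1 v).1, (x2 v).1)) + ε) := IT_mono D a c hI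
    _ = IT (σR D a c) (KH a c) (fun x1 => I0 (σR D a c)
          (fun x2 => F fun v => ((x1 v).1, (x2 v).1))) +
          ε * IT (σR D a c) (KH a c) fun _ => 1 := IT_add_const D a c _ ε
    _ ≤ (I0 (σR D a c) (fun x1 => I0 (σR D a c)
          (fun x2 => F fun v => ((x1 v).1, (x2 v).1))) + ZR D a c ^ 2 * ε) +
          ε * ZR D a c ^ 2 := add_le_add hO (mul_le_mul' le_rfl hone)
    _ = _ := by rw [hfin]; ring

/-- **arms on the double torus** -/
theorem arm_dbl {B W : Finset (VR a c)} (hΛ : ∀ v ∈ Λ, v.1 ≠ 0 ∧ v.1 ≠ -1) (hB : B ⊆ W)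
    (hW : ∀ e ∈ touch (σR D a c) Λ, (σR D a c).s e ∈ W ∧ (σR D a c).t e ∈ W) :
    Ex (σR D (2 * a) c) (fun X om =>
      ind (Arm (σR D (2 * a) c) (B.image (ph a c)) (Λ.image (ph a c)) X om)) ≤
    ZR D a c ^ 2 * (Ex (σR D a c) (fun x om => ind (Arm (σR D a c) B Λ x om)) +
        2 * Ex (σR D a c) fun _ om => ind (Bad (σR D a c) (KH a c) W om)) := by
  refine (arm_transfer D a c hΛ B).trans ?_
  refine (I0_cov_le D a c (W := W) (fun x x' hx => Q_local D a c hB hW hx)
    (fun x => Q_le_one D a c B Λ x)).trans (le_of_eq ?_)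
  rw [I0_Q]
  ring

end dbl

end Vale.Agent.P159.H145.Dz
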