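import Vale.Agent.P159.H145.Dz5

/-!
P159, module DZ (helper145), part 6: translations, coverings of the cuts by blocks, the quadruple of
tori `N × N`, `2 N × N`, `2 N × 2 N`.
-/

set_option linter.unusedSectionVars false
set_option linter.unusedDecidableInType false

namespace Vale.Agent.P159.H145.Dz

open scoped ENNReal
open Finset Vale.Agent.P159.TM.H60 Vale.Agent.P159.TM.H576
open Vale.Agent.P159.TM.H459 (ball mem_ball ball_mono sd sn vma_le_of_eq)

/-! ### automorphisms -/

section gen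

variable {V E S : Type*} [Fintype V] [DecidableEq V] [Fintype E] [DecidableEq E]
variable (σ : Sys V E S)

/-- an automorphism of the system -/
structure Aut (eV : V ≃ V) (eE : E ≃ E) : Prop where
  s : ∀ e, σ.s (eE e) = eV (σ.s e)
  t : ∀ e, σ.t (eE e) = eV (σ.t e)
  fl : ∀ e, σ.fl (eE e) = σ.fl e
  g : ∀ v, σ.g (eV v) = σ.g v

variable {σ} {eV : V ≃ V} {eE : E ≃ E}

/-- the action on open sets -/
def pull (eE : E ≃ E) (om : Finset E) : Finset E := om.map eE.symm.toEmbedding

lemma mem_pull {om : Finset E} {e : E} : e ∈ pull eE om ↔ eE e ∈ om := by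
  unfold pull
  rw [Finset.mem_map]
  constructor
  · rintro ⟨e', h1, rfl⟩
    simpa using h1
  · intro h
    exact ⟨eE e, h, by simp⟩

lemma wt_pull (H : Aut σ eV eE) (om : Finset E) (x : V → S) :
    σ.wt (pull eE om) (fun v => x (eV v)) = σ.wt om x := by
  have hop : ∀ e, σ.op (eE e) = σ.op e := fun e => by
    funext x y
    unfold Sys.op
    rw [H.fl]
  have hcl : ∀ e, σ.cl (eE e) = σ.cl e := fun e => by
    funext x y
    unfold Sys.cl
    rw [H.fl]
  unfold Sys.wt
  have e1 : ∏ e ∈ pull eE om, σ.op e (x (eV (σ.s e))) (x (eV (σ.t e))) =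
      ∏ e ∈ om, σ.op e (x (σ.s e)) (x (σ.t e)) := by
    unfold pull
    rw [Finset.prod_map]
    refine Finset.prod_congr rfl fun e _ => ?_
    have h1 := H.s (eE.symm e)
    have h2 := H.t (eE.symm e)
    have h3 := hop (eE.symm e)
    simp only [Equiv.apply_symm_apply] at h1 h2 h3
    simp only [Equiv.coe_toEmbedding]
    rw [← h1, ← h2, h3]
  have e2 : ∏ e ∈ (pull eE om)ᶜ, σ.cl e (x (eV (σ.s e))) (x (eV (σ.t e))) =
      ∏ e ∈ omᶜ, σ.cl e (x (σ.s e)) (x (σ.t e)) := by
    have h0 : (pull eE om)ᶜ = pull eE omᶜ := by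
      ext e
      rw [Finset.mem_compl, mem_pull, mem_pull, Finset.mem_compl]
    rw [h0]
    unfold pull
    rw [Finset.prod_map]
    refine Finset.prod_congr rfl fun e _ => ?_
    have h1 := H.s (eE.symm e)
    have h2 := H.t (eE.symm e)
    have h3 := hcl (eE.symm e)
    simp only [Equiv.apply_symm_apply] at h1 h2 h3
    simp only [Equiv.coe_toEmbedding]
    rw [← h1, ← h2, h3]
  have e3 : ∏ v, σ.g v (x (eV v)) = ∏ v, σ.g v (x v) := by
    rw [← eV.prod_comp fun v => σ.g v (x v)]
    exact Finset.prod_congr rfl fun v _ => by rw [H.g]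
  rw [e1, e2, e3]

lemma Ex_aut (H : Aut σ eV eE) (F : (V → S) → Finset E → ℝ≥0∞) :
    Ex σ (fun x om => F (fun v => x (eV v)) (pull eE om)) = Ex σ F := by
  unfold Ex
  rw [← (Equiv.arrowCongr eV.symm (Equiv.refl S)).tsum_eq fun x => ∑ om : Finset E,
    ENNReal.ofReal (σ.wt om x) * F x om]
  refine tsum_congr fun x => ?_
  have e1 : (Equiv.arrowCongr eV.symm (Equiv.refl S)) x = fun v => x (eV v) := by
    funext v
    simp
  rw [e1, ← (Equiv.finsetCongr eE.symm).sum_comp fun om =>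
    ENNReal.ofReal (σ.wt om fun v => x (eV v)) * F (fun v => x (eV v)) om]
  refine Finset.sum_congr rfl fun om _ => ?_
  have e2 : (Equiv.finsetCongr eE.symm) om = pull eE om := rfl
  rw [e2, wt_pull H]

/-- translates of an arm event have the same weight -/
lemma Ex_arm_aut (H : Aut σ eV eE) (B Λ : Finset V) :
    Ex σ (fun x om => ind (Arm σ (B.image eV) (Λ.image eV) x om)) ≤
      Ex σ fun x om => ind (Arm σ B Λ x om) := by
  rw [← Ex_aut H fun x om => ind (Arm σ B Λ x om)]
  refine Ex_mono fun x om _ => ind_mono ?_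
  rintro ⟨u', hu', hd, z', hz', hzΛ⟩
  obtain ⟨u, hu, rfl⟩ := Finset.mem_image.1 hu'
  refine ⟨u, hu, hd, eV.symm z', ?_, fun h => hzΛ ?_⟩
  · rw [mem_clus] at hz' ⊢
    clear hzΛ
    have key : ∀ z, Conn σ.s σ.t om (eV u) z → Conn σ.s σ.t (pull eE om) u (eV.symm z) := by
      intro z h
      induction h with
      | refl => rw [Equiv.symm_apply_apply]; exact Conn.refl u
      | @tail y z _ h2 ih =>
        refine Relation.ReflTransGen.tail ih ?_
        obtain ⟨e, he, h3⟩ := h2
        have h4 : σ.s e = eV (σ.s (eE.symm e)) := by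
          have := H.s (eE.symm e)
          rwa [Equiv.apply_symm_apply] at this
        have h5 : σ.t e = eV (σ.t (eE.symm e)) := by
          have := H.t (eE.symm e)
          rwa [Equiv.apply_symm_apply] at this
        refine ⟨eE.symm e, ?_, ?_⟩
        · rw [mem_pull, Equiv.apply_symm_apply]; exact he
        · rw [h4, h5] at h3
          rcases h3 with ⟨h6, h7⟩ | ⟨h6, h7⟩
          · left
            exact ⟨by rw [← h6, Equiv.symm_apply_apply], by rw [← h7, Equiv.symm_apply_apply]⟩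
          · right
            exact ⟨by rw [← h6, Equiv.symm_apply_apply], by rw [← h7, Equiv.symm_apply_apply]⟩
    exact key z' hz'
  · exact Finset.mem_image.2 ⟨_, h, Equiv.apply_symm_apply _ _⟩

end gen

section rect

variable (D : Dat) (a c : ℕ) [NeZero a] [NeZero c]

/-- translations of the edges -/
def trE (τ : VR a c) : ER a c ≃ ER a c := (Equiv.addRight τ).prodCongr (Equiv.refl Bool)

lemma aut_tr (τ : VR a c) : Aut (σR D a c) (Equiv.addRight τ) (trE a c τ) where
  s := fun e => rfl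
  t := fun e => by
    show e.1 + τ + (if e.2 then (1, 0) else (0, 1)) = e.1 + (if e.2 then (1, 0) else (0, 1)) + τ
    exact add_right_comm _ _ _
  fl := fun e => rfl
  g := fun v => rfl

lemma Ex_one_R : Ex (σR D a c) (fun _ _ => 1) = ZR D a c ^ 2 := by
  rw [← I0_one, I0_Ex]

/-- **first direction** -/
theorem step_H [NeZero (2 * a)] : ZR D a c ^ 2 ≤ ZR D (2 * a) c +
    Ex (σR D a c) fun _ om => ind (Bad (σR D a c) (KH a c) ∅ om) := by
  have h := I0_le (σR D a c) (KH a c) (W := ∅) (F := fun _ => 1) (C := 1)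
    (fun _ _ _ => rfl) (fun _ => le_rfl)
  rwa [I0_one, IT_one, one_mul] at h

/-- **second direction** -/
theorem step_V [NeZero (2 * c)] : ZR D a c ^ 2 ≤ ZR D a (2 * c) +
    Ex (σR D a c) fun _ om => ind (Bad (σR D a c) (KV a c) ∅ om) := by
  have h := I0_le (σR D a c) (KV a c) (W := ∅) (F := fun _ => 1) (C := 1)
    (fun _ _ _ => rfl) (fun _ => le_rfl)
  rwa [I0_one, IT_one_V, one_mul] at h

end rect

/-! ### coverings -/

lemma vma_ge {p : ℕ} [NeZero p] {z : ZMod p} {r : ℕ} (h1 : r ≤ z.val) (h2 : z.val + r ≤ p) :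
    r ≤ z.valMinAbs.natAbs := by
  have h3 := ZMod.valMinAbs_def_pos z
  rw [h3]
  split_ifs with h4
  · rw [Int.natAbs_natCast]
    exact h1
  · have h5 := ZMod.val_lt z
    omega

lemma vma_nat_le {p : ℕ} [NeZero p] (k : ℕ) : ((k : ℕ) : ZMod p).valMinAbs.natAbs ≤ k := by
  have := vma_le_of_eq ((k : ℕ) : ZMod p) (k : ℤ) (by push_cast; rfl)
  simpa using this

section square

variable (D : Dat) (N : ℕ) [NeZero N]

/-- covering of the cut of the square torus -/
theorem bad_H_le {r ρ m : ℕ} (hr : 1 ≤ r) (h2r : 2 * r ≤ N) (hρ : 1 ≤ ρ) (hm : m < r)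
    {W : Finset (VR N N)} (hW : ∀ v ∈ W, r ≤ v.1.val) {P : ℝ≥0∞}
    (hP : ∀ x0 : VR N N, Ex (σR D N N) (fun x om =>
      ind (Arm (σR D N N) (ball x0 ρ) (ball x0 m) x om)) ≤ P) :
    Ex (σR D N N) (fun _ om => ind (Bad (σR D N N) (KH N N) W om)) ≤ (N / ρ + 1 : ℕ) * P := by
  refine (Ex_bad_le (σR D N N) (KH N N) (coord_H D N N) hr h2r hW (range (N / ρ + 1))
    (fun j => ball ((0, ((j * ρ : ℕ) : ZMod N)) : VR N N) ρ)
    (fun j => ball ((0, ((j * ρ : ℕ) : ZMod N)) : VR N N) m) ?_).trans ?_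
  · intro v hv
    refine ⟨v.2.val / ρ, ?_, ?_, ?_⟩
    · rw [Finset.mem_range]
      have := ZMod.val_lt v.2
      have h1 : v.2.val / ρ ≤ N / ρ := Nat.div_le_div_right this.le
      omega
    · rw [mem_ball]
      unfold sd sn
      have h1 : (v - ((0, ((v.2.val / ρ * ρ : ℕ) : ZMod N)) : VR N N)).1 = 0 := by
        rw [Prod.fst_sub, hv, sub_zero]
      have h2 : (v - ((0, ((v.2.val / ρ * ρ : ℕ) : ZMod N)) : VR N N)).2 =
          ((v.2.val % ρ : ℕ) : ZMod N) := by
        rw [Prod.snd_sub, sub_eq_iff_eq_add, ← Nat.cast_add, Nat.mod_add_div']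
        exact (ZMod.natCast_zmod_val v.2).symm
      rw [h1, h2]
      have h3 := vma_nat_le (p := N) (v.2.val % ρ)
      have h4 := Nat.mod_lt v.2.val (show 0 < ρ by omega)
      rw [ZMod.valMinAbs_zero]
      simp only [Int.natAbs_zero]
      omega
    · intro z h1 h2 hz
      rw [mem_ball] at hz
      unfold sd sn at hz
      have h3 : (z - ((0, ((v.2.val / ρ * ρ : ℕ) : ZMod N)) : VR N N)).1 = z.1 := by
        rw [Prod.fst_sub, sub_zero]
      rw [h3] at hz
      have h4 := vma_ge h1 h2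
      omega
  · refine (Finset.sum_le_sum fun j _ => hP _).trans (le_of_eq ?_)
    rw [Finset.sum_const, Finset.card_range, nsmul_eq_mul]

/-- arms on the double torus in terms of arms on the torus -/
theorem arm_dbl_sq [NeZero (2 * N)] {q r ρ m : ℕ} (hq1 : 2 * q ≤ N) (hq2 : N ≤ 2 * q + 1) (hr : 1 ≤ r) (h2r : 8 * r ≤ N) (hρ : 1 ≤ ρ)
    (hρm : ρ ≤ m) (hm : m < r) {P : ℝ≥0∞}
    (hP : ∀ x0 : VR N N, Ex (σR D N N) (fun x om =>
      ind (Arm (σR D N N) (ball x0 ρ) (ball x0 m) x om)) ≤ P) :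
    Ex (σR D (2 * N) N) (fun X om => ind (Arm (σR D (2 * N) N)
      ((ball ((((q : ℕ) : ZMod N), 0) : VR N N) ρ).image (ph N N))
      ((ball ((((q : ℕ) : ZMod N), 0) : VR N N) m).image (ph N N)) X om)) ≤
    ZR D N N ^ 2 * (P + 2 * ((N / ρ + 1 : ℕ) * P)) := by
  set x0 : VR N N := (((q : ℕ) : ZMod N), 0) with hx0
  have hval : (((q : ℕ) : ZMod N)).val = q := ZMod.val_natCast_of_lt (by omega)
  -- values of the first coordinate in the ball
  have hball : ∀ v ∈ ball x0 m, q ≤ v.1.val + m ∧ v.1.val ≤ q + m := by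
    intro v hv
    rw [mem_ball] at hv
    unfold sd sn at hv
    have h1 : (v - x0).1 = v.1 - ((q : ℕ) : ZMod N) := rfl
    rw [h1] at hv
    set δ : ℤ := (v.1 - ((q : ℕ) : ZMod N)).valMinAbs with hδ
    have h2 : δ.natAbs ≤ m := (le_max_left _ _).trans hv
    have h3 : v.1 = (((q : ℕ) : ℤ) + δ : ℤ) := by
      push_cast
      rw [hδ, ZMod.coe_valMinAbs]
      ring
    have h4 : (0 : ℤ) ≤ ((q : ℕ) : ℤ) + δ := by omega
    obtain ⟨k, hk⟩ := Int.eq_ofNat_of_zero_le h4
    have h5 : v.1 = ((k : ℕ) : ZMod N) := by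
      rw [h3, hk]
      push_cast
      rfl
    have h6 : v.1.val = k := by
      rw [h5]
      exact ZMod.val_natCast_of_lt (by omega)
    omega
  have hΛ : ∀ v ∈ ball x0 m, v.1 ≠ 0 ∧ v.1 ≠ -1 := by
    intro v hv
    have h1 := hball v hv
    constructor
    · intro h2
      rw [h2, ZMod.val_zero] at h1
      omega
    · intro h2
      rw [h2, val_neg_one] at h1
      omega
  set W : Finset (VR N N) := univ.filter fun v => r ≤ v.1.val with hWdef
  have hB : ball x0 ρ ⊆ W := by
    intro v hv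
    have h1 := hball v (ball_mono hρm hv)
    rw [hWdef, Finset.mem_filter]
    exact ⟨Finset.mem_univ _, by omega⟩
  have hW : ∀ e ∈ touch (σR D N N) (ball x0 m), (σR D N N).s e ∈ W ∧ (σR D N N).t e ∈ W := by
    intro e he
    have hK := touch_KH D N N hΛ he
    rw [mem_touch] at he
    have hc := (coord_H D N N).edge e
    have key : ∀ v : VR N N, v ∈ W ↔ r ≤ v.1.val := fun v => by
      rw [hWdef, Finset.mem_filter]; simp
    rw [key, key]
    rcases hc with ⟨h1, _⟩ | ⟨h1, h2⟩
    · have h1' : ((σR D N N).t e).1 = ((σR D N N).s e).1 := h1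
      rw [h1']
      rcases he with h3 | h3
      · have := hball _ h3; omega
      · have := hball _ h3; rw [h1'] at this; omega
    · have h4 : ((σR D N N).s e).1 ≠ -1 := fun h5 => hK (h2.2 h5)
      have h6 := val_succ N h4
      have h1' : ((σR D N N).t e).1 = ((σR D N N).s e).1 + 1 := h1
      rw [← h1'] at h6
      rcases he with h3 | h3
      · have := hball _ h3; omega
      · have := hball _ h3; omega
  refine (arm_dbl D N N (B := ball x0 ρ) (W := W) hΛ hB hW).trans ?_
  refine mul_le_mul' le_rfl (add_le_add (hP x0) (mul_le_mul' le_rfl ?_))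
  exact bad_H_le D N hr (by omega) hρ hm (fun v hv => by
    rw [hWdef, Finset.mem_filter] at hv
    exact hv.2) hP

/-- covering of the second cut -/
theorem bad_V_le [NeZero (2 * N)] {r ρ m : ℕ} (hr : 1 ≤ r) (h2r : 8 * r ≤ N) (hρ : 1 ≤ ρ)
    (hρm : ρ ≤ m) (hm : m < r) {P : ℝ≥0∞}
    (hP : ∀ x0 : VR N N, Ex (σR D N N) (fun x om =>
      ind (Arm (σR D N N) (ball x0 ρ) (ball x0 m) x om)) ≤ P) :
    Ex (σR D (2 * N) N) (fun _ om => ind (Bad (σR D (2 * N) N) (KV (2 * N) N) ∅ om)) ≤
      (2 * N / ρ + 1 : ℕ) * (ZR D N N ^ 2 * (P + 2 * ((N / ρ + 1 : ℕ) * P))) := by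
  obtain ⟨q, hq⟩ : ∃ q, q = N / 2 := ⟨_, rfl⟩
  have hq1 : 2 * q ≤ N := by omega
  have hq2 : N ≤ 2 * q + 1 := by omega
  clear hq
  have hA := arm_dbl_sq D N hq1 hq2 hr h2r hρ hρm hm hP
  set x0 : VR N N := (((q : ℕ) : ZMod N), 0) with hx0
  have hval : (((q : ℕ) : ZMod N)).val = q := ZMod.val_natCast_of_lt (by omega)
  set τ : ℕ → VR (2 * N) N := fun j => ((((j * ρ : ℕ) : ℤ) - ((q : ℕ) : ℤ) : ℤ), 0) with hτ
  refine (Ex_bad_le (σR D (2 * N) N) (KV (2 * N) N) (coord_V D (2 * N) N) hr (by omega)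
    (W := ∅) (fun v hv => absurd hv (Finset.notMem_empty v)) (range (2 * N / ρ + 1))
    (fun j => ((ball x0 ρ).image (ph N N)).image (Equiv.addRight (τ j)))
    (fun j => ((ball x0 m).image (ph N N)).image (Equiv.addRight (τ j))) ?_).trans ?_
  · intro v hv
    refine ⟨v.1.val / ρ, ?_, ?_, ?_⟩
    · rw [Finset.mem_range]
      have := ZMod.val_lt v.1
      have h1 : v.1.val / ρ ≤ 2 * N / ρ := Nat.div_le_div_right this.le
      omega
    · refine Finset.mem_image.2 ⟨ph N N (((q + v.1.val % ρ : ℕ) : ZMod N), 0),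
        Finset.mem_image_of_mem _ ?_, ?_⟩
      · rw [mem_ball]
        unfold sd sn
        have h1 : ((((q + v.1.val % ρ : ℕ) : ZMod N), 0) - x0 : VR N N).1 =
            ((v.1.val % ρ : ℕ) : ZMod N) := by
          rw [Prod.fst_sub]
          show ((q + v.1.val % ρ : ℕ) : ZMod N) - ((q : ℕ) : ZMod N) = _
          push_cast
          ring
        have h2 : ((((q + v.1.val % ρ : ℕ) : ZMod N), 0) - x0 : VR N N).2 = 0 := by
          rw [Prod.snd_sub]
          show (0 : ZMod N) - 0 = 0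
          ring
        rw [h1, h2]
        have h3 := vma_nat_le (p := N) (v.1.val % ρ)
        have h4 := Nat.mod_lt v.1.val (show 0 < ρ by omega)
        rw [ZMod.valMinAbs_zero]
        simp only [Int.natAbs_zero]
        omega
      · have h4 := Nat.mod_lt v.1.val (show 0 < ρ by omega)
        have h5 : io N (((q + v.1.val % ρ : ℕ) : ZMod N)) =
            ((q + v.1.val % ρ : ℕ) : ZMod (2 * N)) := by
          unfold io
          rw [ZMod.val_natCast_of_lt (by omega)]
        refine Prod.ext ?_ ?_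
        · show io N (((q + v.1.val % ρ : ℕ) : ZMod N)) +
            (((((v.1.val / ρ) * ρ : ℕ) : ℤ) - ((q : ℕ) : ℤ) : ℤ) : ZMod (2 * N)) = v.1
          rw [h5]
          have h6 : ((v.1.val % ρ + v.1.val / ρ * ρ : ℕ) : ZMod (2 * N)) = v.1 := by
            rw [Nat.mod_add_div']
            exact ZMod.natCast_zmod_val v.1
          refine Eq.trans ?_ h6
          generalize v.1.val % ρ = k2
          generalize v.1.val / ρ = k1
          push_cast
          ring
        · show (0 : ZMod N) + 0 = v.2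
          rw [add_zero]; exact hv.symm
    · intro z h1 h2 hz
      obtain ⟨z1, hz1, hz2⟩ := Finset.mem_image.1 hz
      obtain ⟨w, hw, rfl⟩ := Finset.mem_image.1 hz1
      rw [mem_ball] at hw
      unfold sd sn at hw
      have h3 : z.2 = w.2 := by
        rw [← hz2]
        show w.2 + 0 = w.2
        rw [add_zero]
      have h4 : (w - x0).2 = w.2 := by
        rw [Prod.snd_sub]
        show w.2 - 0 = w.2
        rw [sub_zero]
      rw [h4, ← h3] at hw
      have h5 := vma_ge h1 h2
      omega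
  · refine (Finset.sum_le_sum fun j _ =>
      (Ex_arm_aut (aut_tr D (2 * N) N (τ j)) _ _).trans hA).trans (le_of_eq ?_)
    rw [Finset.sum_const, Finset.card_range, nsmul_eq_mul]

end square

end Vale.Agent.P159.H145.Dz
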