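import Vale.Agent.P159.H145.Dz6
import Vale.Agent.P159.H963.Chess3

/-!
P159, module DZ (helper145), part 7: **torus independence of the free energy at zero source**,
`4 log Z_N(0) - log Z_{2 N}(0) <= C e^{-c N / xi}` and the telescoped form used by the chessboard.
-/

set_option linter.unusedSectionVars false
set_option linter.unusedDecidableInType false

namespace Vale.Agent.P159.H145.Dz

open scoped ENNReal
open Finset Vale.Agent.P159.TM.H60 Vale.Agent.P159.TM.H576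
open Vale.Agent.P159.TM
open Vale.Agent.P159.TM.H459 (ball mem_ball ball_mono sd sn)
open Vale.Agent.P159.TM.H104 (Lg)
open Vale.Agent.P159.H37 (wt Zs)

/-- the torus model with mass `1 / ξ ^ 2` -/
noncomputable def DT (b : ℝ) (hb : 0 < b) (ξ : ℕ) : Dat where
  w := H353.wI b
  g := fun n => Real.exp (-(1 / (ξ : ℝ) ^ 2 / 2 * ((n : ℝ) - 0) ^ 2))
  w_pos := H857.wI_pos hb
  w_neg := H353.wI_neg b
  w_log := T1.H897.logC_wI hb.le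
  g_nonneg := fun _ => (Real.exp_pos _).le

section letters

variable {b : ℝ} (hb : 0 < b) (ξ N : ℕ) [NeZero N]

lemma σR_DT : σR (DT b hb ξ) N N = Spec.σ2 N b ξ hb.le 0 := rfl

lemma ZR_DT (hξ : 0 < ξ) : ZR (DT b hb ξ) N N = ENNReal.ofReal (Zs (wt N b (1 / (ξ : ℝ) ^ 2)) 0) := by
  rw [H963.Chess.ofReal_Zs hb.le (by positivity), ZR_eq_Zt]
  congr 1
  funext x n
  show ENNReal.ofReal (Real.exp (-(1 / (ξ : ℝ) ^ 2 / 2 * ((n : ℝ) - 0) ^ 2))) = _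
  congr 2
  simp only [Pi.zero_apply]
  ring

end letters

lemma neg_log_le {x : ℝ} (h0 : 0 ≤ x) (h1 : x ≤ 1 / 2) : -(2 * x) ≤ Real.log (1 - x) := by
  have h2 : 0 < 1 - x := by linarith
  have h3 := Real.one_sub_inv_le_log_of_pos h2
  refine le_trans ?_ h3
  have h4 : (1 - x)⁻¹ ≤ 1 + 2 * x := by
    rw [inv_le_comm₀ h2 (by linarith), inv_eq_one_div, div_le_iff₀ (by linarith)]
    nlinarith
  linarith

/-- the real form of the two steps -/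
lemma two_steps {Z Z2 e J J' : ℝ} {z1 : ℝ≥0∞} (hZ : 0 < Z) (hZ2 : 0 < Z2) (he : 0 ≤ e) (hJ : 0 ≤ J)
    (hJ' : 0 ≤ J') (hz1 : z1 ≤ ENNReal.ofReal Z ^ 2)
    (hH : ENNReal.ofReal Z ^ 2 ≤ z1 + ENNReal.ofReal J * (ENNReal.ofReal e * ENNReal.ofReal Z ^ 2))
    (hV : z1 ^ 2 ≤ ENNReal.ofReal Z2 + ENNReal.ofReal J' * (ENNReal.ofReal Z ^ 2 *
      (ENNReal.ofReal e * ENNReal.ofReal Z ^ 2 +
        2 * (ENNReal.ofReal J * (ENNReal.ofReal e * ENNReal.ofReal Z ^ 2)))))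
    (hs : (2 * J + J' * (1 + 2 * J)) * e ≤ 1 / 2) :
    4 * Real.log Z - Real.log Z2 ≤ 2 * ((2 * J + J' * (1 + 2 * J)) * e) := by
  have hfin : z1 ≠ ∞ := ne_top_of_le_ne_top (ENNReal.pow_ne_top ENNReal.ofReal_ne_top) hz1
  obtain ⟨Z1, hZ1, rfl⟩ : ∃ Z1 : ℝ, 0 ≤ Z1 ∧ z1 = ENNReal.ofReal Z1 :=
    ⟨z1.toReal, ENNReal.toReal_nonneg, (ENNReal.ofReal_toReal hfin).symm⟩
  have h1 : Z ^ 2 ≤ Z1 + J * (e * Z ^ 2) := by
    rw [← ENNReal.ofReal_pow hZ.le, ← ENNReal.ofReal_mul he, ← ENNReal.ofReal_mul hJ,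
      ← ENNReal.ofReal_add hZ1 (by positivity)] at hH
    exact (ENNReal.ofReal_le_ofReal_iff (by positivity)).1 hH
  have h2 : Z1 ^ 2 ≤ Z2 + J' * (Z ^ 2 * (e * Z ^ 2 + 2 * (J * (e * Z ^ 2)))) := by
    rw [← ENNReal.ofReal_pow hZ.le, ← ENNReal.ofReal_pow hZ1, ← ENNReal.ofReal_mul he,
      ← ENNReal.ofReal_mul hJ, show (2 : ℝ≥0∞) = ENNReal.ofReal 2 by norm_num,
      ← ENNReal.ofReal_mul (by norm_num), ← ENNReal.ofReal_add (by positivity) (by positivity),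
      ← ENNReal.ofReal_mul (by positivity), ← ENNReal.ofReal_mul hJ',
      ← ENNReal.ofReal_add hZ2.le (by positivity)] at hV
    exact (ENNReal.ofReal_le_ofReal_iff (by positivity)).1 hV
  set η := (2 * J + J' * (1 + 2 * J)) * e with hη
  have hη0 : 0 ≤ η := by positivity
  have hJe : J * e ≤ 1 / 2 := by
    have : J * e ≤ η := by
      rw [hη]
      refine mul_le_mul_of_nonneg_right ?_ he
      nlinarith [mul_nonneg hJ' hJ]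
    linarith
  have h3 : Z ^ 2 * (1 - J * e) ≤ Z1 := by linarith
  have h4 : (Z ^ 2 * (1 - J * e)) ^ 2 ≤ Z1 ^ 2 :=
    pow_le_pow_left₀ (mul_nonneg (by positivity) (by linarith)) h3 2
  have h5 : Z ^ 4 * (1 - η) ≤ Z2 := by
    have h6 : Z ^ 4 * ((1 - J * e) ^ 2 - J' * (1 + 2 * J) * e) ≤ Z2 := by
      nlinarith
    refine le_trans ?_ h6
    refine mul_le_mul_of_nonneg_left ?_ (by positivity)
    rw [hη]
    nlinarith [sq_nonneg (J * e)]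
  have h7 : 0 < 1 - η := by linarith
  have h8 := Real.log_le_log (by positivity) h5
  rw [Real.log_mul (by positivity) h7.ne', Real.log_pow] at h8
  have h9 := neg_log_le hη0 hs
  push_cast at h8
  linarith

/-- the constant of (DZ1) -/
noncomputable def CA (A : ℕ) : ℝ := 2 * (2 * A + 1) + (4 * A + 1) * (4 * A + 3)

lemma CA_pos (A : ℕ) : 0 < CA A := by
  unfold CA
  positivity

lemma cst1 {A : ℕ} {κ J J' : ℝ} (hκ : 1 ≤ κ) (hJ0 : 0 ≤ J) (hJ : J ≤ (2 * A + 1) * κ)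
    (hJ' : J' ≤ (4 * A + 1) * κ) : 2 * J + J' * (1 + 2 * J) ≤ CA A * κ ^ 2 := by
  have hA0 : (0 : ℝ) ≤ A := Nat.cast_nonneg _
  have h1 : J' * (1 + 2 * J) ≤ (4 * A + 1) * κ * (1 + 2 * ((2 * A + 1) * κ)) := by
    have h2 : 0 ≤ 1 + 2 * J := by linarith
    have h3 : 1 + 2 * J ≤ 1 + 2 * ((2 * A + 1) * κ) := by linarith
    have h4 : 0 ≤ (4 * (A : ℝ) + 1) * κ := by positivity
    exact (mul_le_mul_of_nonneg_right hJ' h2).trans (mul_le_mul_of_nonneg_left h3 h4)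
  have h5 : κ ≤ κ ^ 2 := by nlinarith
  have h6 : 0 ≤ (2 * (2 * (A : ℝ) + 1) + (4 * A + 1)) * (κ ^ 2 - κ) :=
    mul_nonneg (by positivity) (by linarith)
  unfold CA
  nlinarith

lemma cst2 {c κ : ℝ} (hc : 0 < c) (hκ : 0 ≤ κ) :
    κ ^ 2 ≤ 2 * (16 / c) ^ 2 * Real.exp (c * κ / 16) := by
  have h3 : 0 ≤ c * κ / 16 := by positivity
  have h1 : (c * κ / 16) ^ 2 / 2 ≤ Real.exp (c * κ / 16) := by
    have h2 := Real.quadratic_le_exp_of_nonneg h3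
    linarith
  have h4 : κ ^ 2 = 2 * (16 / c) ^ 2 * ((c * κ / 16) ^ 2 / 2) := by
    field_simp
  rw [h4]
  exact mul_le_mul_of_nonneg_left h1 (by positivity)

/-- the second constant of (DZ1) -/
noncomputable def C3 (A : ℕ) (c C : ℝ) : ℝ := CA A * (C * Real.exp (2 * c)) * (2 * (16 / c) ^ 2)

lemma C3_pos (A : ℕ) {c C : ℝ} (hc : 0 < c) (hC : 0 < C) : 0 < C3 A c C := by
  unfold C3
  have := CA_pos A
  positivity

lemma cst3 {A : ℕ} {c C κ J J' e : ℝ} (hc : 0 < c) (hC : 0 < C) (hκ : 1 ≤ κ) (hJ0 : 0 ≤ J)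
    (hJ : J ≤ (2 * A + 1) * κ) (hJ' : J' ≤ (4 * A + 1) * κ) (he0 : 0 ≤ e)
    (he : e ≤ C * Real.exp (2 * c) * Real.exp (-(c * κ / 8))) :
    (2 * J + J' * (1 + 2 * J)) * e ≤ C3 A c C * Real.exp (-(c / 16 * κ)) := by
  have h1 := cst1 hκ hJ0 hJ hJ'
  have h2 := cst2 hc (zero_le_one.trans hκ)
  have hCA := CA_pos A
  calc (2 * J + J' * (1 + 2 * J)) * e
      ≤ (CA A * κ ^ 2) * (C * Real.exp (2 * c) * Real.exp (-(c * κ / 8))) :=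
        mul_le_mul h1 he he0 (by positivity)
    _ ≤ (CA A * (2 * (16 / c) ^ 2 * Real.exp (c * κ / 16))) *
          (C * Real.exp (2 * c) * Real.exp (-(c * κ / 8))) :=
        mul_le_mul_of_nonneg_right (mul_le_mul_of_nonneg_left h2 hCA.le) (by positivity)
    _ = C3 A c C * (Real.exp (c * κ / 16) * Real.exp (-(c * κ / 8))) := by
        unfold C3
        ring
    _ = _ := by
        rw [← Real.exp_add]
        congr 2
        ring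

lemma cst4 {c C3 κ X' : ℝ} (hc : 0 < c) (hC3 : 0 < C3)
    (h1 : Real.log (2 * C3) * (16 / c) < X') (h2 : X' ≤ κ) :
    C3 * Real.exp (-(c / 16 * κ)) ≤ 1 / 2 := by
  have h3 : Real.log (2 * C3) ≤ c / 16 * κ := by
    have h4 : Real.log (2 * C3) = c / 16 * (Real.log (2 * C3) * (16 / c)) := by field_simp
    rw [h4]
    exact mul_le_mul_of_nonneg_left (by linarith) (by positivity)
  have h4 : Real.exp (-(c / 16 * κ)) ≤ Real.exp (-Real.log (2 * C3)) :=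
    Real.exp_le_exp.2 (by linarith)
  rw [Real.exp_neg (Real.log (2 * C3)), Real.exp_log (by positivity)] at h4
  calc C3 * Real.exp (-(c / 16 * κ)) ≤ C3 * (2 * C3)⁻¹ := mul_le_mul_of_nonneg_left h4 hC3.le
    _ = 1 / 2 := by field_simp

lemma cst5 {ξ N A : ℕ} (hA : 8 ≤ A) (hAξ : A ≤ ξ) (h16 : 16 * ξ ≤ N) :
    (((N / (ξ / A) + 1 : ℕ)) : ℝ) ≤ (2 * A + 1) * ((N : ℝ) / ξ) ∧
    (((2 * N / (ξ / A) + 1 : ℕ)) : ℝ) ≤ (4 * A + 1) * ((N : ℝ) / ξ) := by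
  have hξ : 0 < ξ := by omega
  have hξr : (0 : ℝ) < ξ := by exact_mod_cast hξ
  obtain ⟨ρ, hρ⟩ : ∃ ρ, ρ = ξ / A := ⟨_, rfl⟩
  have hρ1 : 1 ≤ ρ := by rw [hρ]; exact (Nat.one_le_div_iff (by omega)).2 hAξ
  have hρr : (0 : ℝ) < ρ := by exact_mod_cast hρ1
  have hξρ : ξ ≤ 2 * A * ρ := by
    have h1 := Nat.div_add_mod ξ A
    have h2 := Nat.mod_lt ξ (show 0 < A by omega)
    rw [← hρ] at h1
    have h3 : A * 1 ≤ A * ρ := Nat.mul_le_mul_left A hρ1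
    have h4 : 2 * A * ρ = A * ρ + A * ρ := by ring
    omega
  rw [← hρ]
  clear hρ
  have hκ1 : 1 ≤ (N : ℝ) / ξ := by
    rw [le_div_iff₀ hξr, one_mul]
    have : ξ ≤ N := by omega
    exact_mod_cast this
  have hNρ : (N : ℝ) / ρ ≤ 2 * A * ((N : ℝ) / ξ) := by
    have h2 : (ξ : ℝ) ≤ 2 * A * ρ := by exact_mod_cast hξρ
    rw [div_le_iff₀ hρr]
    calc (N : ℝ) = (N : ℝ) / ξ * ξ := by field_simp
      _ ≤ (N : ℝ) / ξ * (2 * A * ρ) := mul_le_mul_of_nonneg_left h2 (by positivity)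
      _ = _ := by ring
  constructor
  · push_cast
    have h1 : (((N / ρ : ℕ)) : ℝ) ≤ (N : ℝ) / ρ := Nat.cast_div_le
    linarith
  · push_cast
    have h1 : (((2 * N / ρ : ℕ)) : ℝ) ≤ ((2 * N : ℕ) : ℝ) / ρ := Nat.cast_div_le
    have h2 : ((2 * N : ℕ) : ℝ) / ρ = 2 * ((N : ℝ) / ρ) := by push_cast; ring
    rw [h2] at h1
    linarith

lemma cst6 {ξ N m : ℕ} {c C : ℝ} (hc : 0 < c) (hC : 0 < C) (hξ : 0 < ξ) (hm : N < 8 * (m + 2)) :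
    C * Real.exp (-(c * m / ξ)) ≤ C * Real.exp (2 * c) * Real.exp (-(c * ((N : ℝ) / ξ) / 8)) := by
  have hξr : (0 : ℝ) < ξ := by exact_mod_cast hξ
  rw [mul_assoc, ← Real.exp_add]
  refine mul_le_mul_of_nonneg_left (Real.exp_le_exp.2 ?_) hC.le
  have h2 : (N : ℝ) ≤ 8 * (m + 2) := by exact_mod_cast hm.le
  have h3 : (N : ℝ) / ξ ≤ 8 * (m / ξ + 2) := by
    rw [div_le_iff₀ hξr]
    have h4 : (8 * ((m : ℝ) / ξ + 2)) * ξ = 8 * (m + 2 * ξ) := by field_simp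
    rw [h4]
    have h5 : (1 : ℝ) ≤ ξ := by exact_mod_cast hξ
    linarith
  have h6 : c * m / ξ = c * (m / ξ) := by ring
  rw [h6]
  have h7 := mul_le_mul_of_nonneg_left h3 hc.le
  linarith

/-- the geometric part of (DZ1) -/
theorem dz_geo {b : ℝ} (hb0 : 0 < b) {N ξ A r m : ℕ} [NeZero N] [NeZero (2 * N)] (hξ : 0 < ξ)
    (hA : 8 ≤ A) (hAξ : A ≤ ξ) (h16 : 16 * ξ ≤ N) (hr : r = N / 8) (hm : m + 1 = r) {e : ℝ}
    (he0 : 0 ≤ e)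
    (hP : ∀ x0 : Spec.V N, Ex (Spec.σ2 N b ξ hb0.le 0) (fun x om =>
          ind (Arm (Spec.σ2 N b ξ hb0.le 0) (ball x0 (ξ / A)) (ball x0 m) x om)) ≤
        ENNReal.ofReal e * Ex (Spec.σ2 N b ξ hb0.le 0) fun _ _ => 1)
    (hs : (2 * ((N / (ξ / A) + 1 : ℕ) : ℝ) + ((2 * N / (ξ / A) + 1 : ℕ) : ℝ) *
      (1 + 2 * ((N / (ξ / A) + 1 : ℕ) : ℝ))) * e ≤ 1 / 2) :
    4 * Lg (wt N b (1 / (ξ : ℝ) ^ 2)) 0 - Lg (wt (2 * N) b (1 / (ξ : ℝ) ^ 2)) 0 ≤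
      2 * ((2 * ((N / (ξ / A) + 1 : ℕ) : ℝ) + ((2 * N / (ξ / A) + 1 : ℕ) : ℝ) *
      (1 + 2 * ((N / (ξ / A) + 1 : ℕ) : ℝ))) * e) := by
  obtain ⟨ρ, hρ⟩ : ∃ ρ, ρ = ξ / A := ⟨_, rfl⟩
  have hρ1 : 1 ≤ ρ := by rw [hρ]; exact (Nat.one_le_div_iff (by omega)).2 hAξ
  have h8ρ : 8 * ρ ≤ ξ := by
    rw [hρ]
    exact (Nat.mul_le_mul_right _ hA).trans (by rw [mul_comm]; exact Nat.div_mul_le_self ξ A)
  rw [← hρ] at hP hs ⊢
  clear hρ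
  have hZ0 : 0 < Zs (wt N b (1 / (ξ : ℝ) ^ 2)) 0 := H37.Zs_pos (H864.em_wt hb0.le (by positivity)) 0
  have hZ20 : 0 < Zs (wt (2 * N) b (1 / (ξ : ℝ) ^ 2)) 0 :=
    H37.Zs_pos (H864.em_wt hb0.le (by positivity)) 0
  have eZ := ZR_DT hb0 ξ N hξ
  have eZ2 := ZR_DT hb0 ξ (2 * N) hξ
  have hP' : ∀ x0 : VR N N, Ex (σR (DT b hb0 ξ) N N) (fun x om =>
      ind (Arm (σR (DT b hb0 ξ) N N) (ball x0 ρ) (ball x0 m) x om)) ≤
      ENNReal.ofReal e * ENNReal.ofReal (Zs (wt N b (1 / (ξ : ℝ) ^ 2)) 0) ^ 2 := by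
    intro x0
    have h2 := Ex_one_R (DT b hb0 ξ) N N
    rw [eZ] at h2
    rw [← h2]
    exact hP x0
  have hH := step_H (DT b hb0 ξ) N N
  have hBH := bad_H_le (DT b hb0 ξ) N (r := r) (ρ := ρ) (m := m) (W := ∅) (by omega) (by omega) hρ1
    (by omega) (fun v hv => absurd hv (Finset.notMem_empty v)) hP'
  have hV := step_V (DT b hb0 ξ) (2 * N) N
  have hBV := bad_V_le (DT b hb0 ξ) N (r := r) (ρ := ρ) (m := m) (by omega) (by omega) hρ1 (by omega)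
    (by omega) hP'
  have hz1 : ZR (DT b hb0 ξ) (2 * N) N ≤ ZR (DT b hb0 ξ) N N ^ 2 := by
    rw [← I0_one, ← IT_one]
    exact IT_one_le _ _
  rw [eZ] at hH hz1 hBV
  rw [← ENNReal.ofReal_natCast (N / ρ + 1)] at hBH hBV
  rw [← ENNReal.ofReal_natCast (2 * N / ρ + 1)] at hBV
  rw [eZ2] at hV
  exact two_steps hZ0 hZ20 he0 (Nat.cast_nonneg (N / ρ + 1))
    (Nat.cast_nonneg (2 * N / ρ + 1)) hz1 (hH.trans (add_le_add le_rfl hBH))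
    (hV.trans (add_le_add le_rfl hBV)) hs

/-- **(DZ1)** doubling of the torus at zero source -/
theorem dz_step {b1 b2 a : ℝ} (hb1 : 0 < b1) (hA6 : Spec.ThmA6 b1 b2 a) :
    ∃ W₀ : ℝ, ∀ W : ℝ, W₀ ≤ W → ∃ c C η ys : ℝ, ∃ X : ℕ, 0 < c ∧ 0 < C ∧ 0 < η ∧ 0 < ys ∧ 1 ≤ X ∧
    ∀ (N : ℕ) [NeZero N] [NeZero (2 * N)] (b : ℝ) (ξ : ℕ) (y : ℝ),
      Spec.Rng b1 b2 a W ys X N b ξ y → (N : ℝ) ^ 2 * y ≤ η * (ξ : ℝ) ^ 2 →
      4 * Lg (wt N b (1 / (ξ : ℝ) ^ 2)) 0 - Lg (wt (2 * N) b (1 / (ξ : ℝ) ^ 2)) 0 ≤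
        C * Real.exp (-(c * N / ξ)) := by
  obtain ⟨W₀, h0⟩ := arm_T hb1 hA6
  refine ⟨W₀, fun W hW => ?_⟩
  obtain ⟨c, C, η, ys, A, X, hc, hC, hη, hys, hA, hAX, h⟩ := h0 W hW
  obtain ⟨X', hX'⟩ := exists_nat_gt (Real.log (2 * C3 A c C) * (16 / c))
  have hC3 := C3_pos A hc hC
  refine ⟨c / 16, 2 * C3 A c C, η, ys, max X (max 16 X'), by positivity, by positivity, hη, hys,
    le_max_of_le_right (le_max_of_le_left (by norm_num)), ?_⟩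
  intro N _ _ b ξ y hR hηy
  have hb0 : 0 < b := lt_of_lt_of_le hb1 hR.hb1
  have hXξ : X ≤ ξ := (le_max_left _ _).trans hR.hX
  have h16ξ : 16 ≤ ξ := ((le_max_left _ _).trans (le_max_right _ _)).trans hR.hX
  have h16 : 16 * ξ ≤ N := (Nat.mul_le_mul_right ξ
    ((le_max_left _ _).trans (le_max_right _ _))).trans hR.hK
  have hX'N : X' * ξ ≤ N := (Nat.mul_le_mul_right ξ
    ((le_max_right _ _).trans (le_max_right _ _))).trans hR.hK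
  have hR1 : Spec.Rng b1 b2 a W ys X N b ξ y := H857.rng_mono hR le_rfl le_rfl (le_max_left _ _)
  have hξ : 0 < ξ := by omega
  have hξr : (0 : ℝ) < ξ := by exact_mod_cast hξ
  obtain ⟨m, hm⟩ : ∃ m, m + 1 = N / 8 := ⟨N / 8 - 1, by omega⟩
  have hκ1 : 1 ≤ (N : ℝ) / ξ := by
    rw [le_div_iff₀ hξr, one_mul]
    have : ξ ≤ N := by omega
    exact_mod_cast this
  obtain ⟨hJ, hJ'⟩ := cst5 (N := N) hA (hAX.trans hXξ) h16
  have hc3 := cst3 (A := A) hc hC hκ1 (Nat.cast_nonneg _) hJ hJ' (by positivity)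
    (cst6 (N := N) (m := m) hc hC hξ (by omega))
  have hsm := cst4 hc hC3 hX' (show (X' : ℝ) ≤ (N : ℝ) / ξ by
    rw [le_div_iff₀ hξr]
    exact_mod_cast hX'N)
  refine (dz_geo hb0 hξ hA (hAX.trans hXξ) h16 rfl hm (by positivity)
    (fun x0 => h N b hb0.le ξ y hR1 hηy x0 m) (hc3.trans hsm)).trans ?_
  have e1 : c / 16 * (N : ℝ) / ξ = c / 16 * ((N : ℝ) / ξ) := by ring
  rw [e1]
  linarith

lemma Lg_congr {N N' : ℕ} [NeZero N] [NeZero N'] (h : N = N') (b t : ℝ) :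
    Lg (wt N b t) 0 = Lg (wt N' b t) 0 := by
  subst h
  rfl

/-- **(DZ2)** the telescoped form -/
theorem dz_tel {b1 b2 a : ℝ} (hb1 : 0 < b1) (hA6 : Spec.ThmA6 b1 b2 a) :
    ∃ W₀ : ℝ, ∀ W : ℝ, W₀ ≤ W → ∃ c C η ys : ℝ, ∃ X : ℕ, 0 < c ∧ 0 < C ∧ 0 < η ∧ 0 < ys ∧ 1 ≤ X ∧
    ∀ (L : ℕ) [NeZero L] (b : ℝ) (ξ J : ℕ),
      (∀ k < J, ∃ y : ℝ, Spec.Rng b1 b2 a W ys X (2 ^ k * L) b ξ y ∧
        ((2 ^ k * L : ℕ) : ℝ) ^ 2 * y ≤ η * (ξ : ℝ) ^ 2) →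
      4 ^ J * Lg (wt L b (1 / (ξ : ℝ) ^ 2)) 0 - Lg (wt (2 ^ J * L) b (1 / (ξ : ℝ) ^ 2)) 0 ≤
        4 ^ J * (C * Real.exp (-(c * L / ξ))) := by
  obtain ⟨W₀, h0⟩ := dz_step hb1 hA6
  refine ⟨W₀, fun W hW => ?_⟩
  obtain ⟨c, C, η, ys, X, hc, hC, hη, hys, hX, h⟩ := h0 W hW
  refine ⟨c, C, η, ys, X, hc, hC, hη, hys, hX, ?_⟩
  intro L _ b ξ J hR
  set E := C * Real.exp (-(c * L / ξ)) with hE
  have hE0 : 0 ≤ E := by positivity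
  have key : ∀ J, (∀ k < J, ∃ y : ℝ, Spec.Rng b1 b2 a W ys X (2 ^ k * L) b ξ y ∧
        ((2 ^ k * L : ℕ) : ℝ) ^ 2 * y ≤ η * (ξ : ℝ) ^ 2) →
      4 ^ J * Lg (wt L b (1 / (ξ : ℝ) ^ 2)) 0 - Lg (wt (2 ^ J * L) b (1 / (ξ : ℝ) ^ 2)) 0 ≤
        (4 ^ J - 1) / 3 * E := by
    intro J
    induction J with
    | zero =>
      intro _
      have : Lg (wt (2 ^ 0 * L) b (1 / (ξ : ℝ) ^ 2)) 0 = Lg (wt L b (1 / (ξ : ℝ) ^ 2)) 0 :=
        Lg_congr (by rw [pow_zero, one_mul]) b _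
      rw [this]
      simp
    | succ J ih =>
      intro hR
      have h1 := ih fun k hk => hR k (by omega)
      obtain ⟨y, hRy, hy⟩ := hR J (by omega)
      have : NeZero (2 * (2 ^ J * L)) := inferInstance
      have h2 := h (2 ^ J * L) b ξ y hRy hy
      have h3 : Lg (wt (2 ^ (J + 1) * L) b (1 / (ξ : ℝ) ^ 2)) 0 =
          Lg (wt (2 * (2 ^ J * L)) b (1 / (ξ : ℝ) ^ 2)) 0 := Lg_congr (by ring) b _
      rw [h3]
      have h4 : C * Real.exp (-(c * ((2 ^ J * L : ℕ) : ℝ) / ξ)) ≤ E := by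
        rw [hE]
        refine mul_le_mul_of_nonneg_left (Real.exp_le_exp.2 ?_) hC.le
        rw [neg_le_neg_iff]
        have h5 : (L : ℝ) ≤ ((2 ^ J * L : ℕ) : ℝ) := by
          have : L ≤ 2 ^ J * L := Nat.le_mul_of_pos_left L (by positivity)
          exact_mod_cast this
        gcongr
      have h6 : (4 : ℝ) ^ (J + 1) = 4 * 4 ^ J := by ring
      rw [h6]
      linarith
  refine (key J hR).trans (mul_le_mul_of_nonneg_right ?_ hE0)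
  have : (1 : ℝ) ≤ 4 ^ J := one_le_pow₀ (by norm_num)
  linarith

/-- **(DZ3)** the volume term of `H963.Chess.Rs_chess` : side `2 m` versus side `m n`,
`n = 2 ^ (J + 1)` -/
theorem dz_chess {b1 b2 a : ℝ} (hb1 : 0 < b1) (hA6 : Spec.ThmA6 b1 b2 a) :
    ∃ W₀ : ℝ, ∀ W : ℝ, W₀ ≤ W → ∃ c C η ys : ℝ, ∃ X : ℕ, 0 < c ∧ 0 < C ∧ 0 < η ∧ 0 < ys ∧ 1 ≤ X ∧
    ∀ (N m n J : ℕ) [NeZero N] [NeZero (2 * m)] (b : ℝ) (ξ : ℕ), N = m * n → n = 2 ^ (J + 1) →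
      (∀ k < J, ∃ y : ℝ, Spec.Rng b1 b2 a W ys X (2 ^ k * (2 * m)) b ξ y ∧
        ((2 ^ k * (2 * m) : ℕ) : ℝ) ^ 2 * y ≤ η * (ξ : ℝ) ^ 2) →
      (n : ℝ) ^ 2 / 4 * Lg (wt (2 * m) b (1 / (ξ : ℝ) ^ 2)) 0 - Lg (wt N b (1 / (ξ : ℝ) ^ 2)) 0 ≤
        (n : ℝ) ^ 2 / 4 * (C * Real.exp (-(c * (2 * m) / ξ))) := by
  obtain ⟨W₀, h0⟩ := dz_tel hb1 hA6
  refine ⟨W₀, fun W hW => ?_⟩
  obtain ⟨c, C, η, ys, X, hc, hC, hη, hys, hX, h⟩ := h0 W hW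
  refine ⟨c, C, η, ys, X, hc, hC, hη, hys, hX, ?_⟩
  intro N m n J _ _ b ξ hN hn hR
  have h1 := h (2 * m) b ξ J hR
  have h2 : Lg (wt N b (1 / (ξ : ℝ) ^ 2)) 0 = Lg (wt (2 ^ J * (2 * m)) b (1 / (ξ : ℝ) ^ 2)) 0 :=
    Lg_congr (by rw [hN, hn]; ring) b _
  have h3 : (n : ℝ) ^ 2 / 4 = 4 ^ J := by
    rw [hn]
    push_cast
    have h5 : ((2 : ℝ) ^ (J + 1)) ^ 2 = 4 * 4 ^ J := by
      rw [← pow_mul, mul_comm (J + 1) 2, pow_mul, pow_succ]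
      norm_num
      ring
    rw [h5]
    ring
  rw [h2, h3]
  have h4 : ((2 * m : ℕ) : ℝ) = 2 * (m : ℝ) := by push_cast; ring
  rw [h4] at h1
  exact h1

end Vale.Agent.P159.H145.Dz
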