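import Vale.Agent.P159.H612.Pu4
import Vale.Agent.P159.H30.D1

/-!
P159, module INT (helper145), part 1: `R` of the integer model against `R` of the neutral model.

* `Rs_int_neu` : exact comparison up to `4 ω` (`ω` = relative oscillation of `Z` under constants):
  `R_int(J + m c) = R_neu(J) + (m |V| c² - <mc, G mc>)/2 + <J,(G_neu - G_int) J>/2 + O(4 ω)`;
* `Rs_le_sq`   : crude bound `R(u) ≤ 2304 <u, A u>²` if `log Z(u) - log Z(0) ≤ <u, A u>/2` for
  `<u, A u> ≤ 1`, and `<u, A u> ≤ 1/4`;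
* `Gneu_le`    : `<J, G_neu J> ≤ <J, G_int J> + C √ω <J, A J>`;
* `int_le_neu`, `neu_le_int` : both directions.
-/

namespace Vale.Agent.P159.H145

open Finset Matrix
open Vale.Agent.P159.TM.H104 (EM Ex Lg li Gr)
open Vale.Agent.P159.H37
open Vale.Agent.P159.H963 (GW MF nM ntr Neu ntr_of_neu qf_ntr_neu)

/-! ### crude bound of `R` -/

lemma cosh_sub_le (x : ℝ) {s : ℝ} (hs : 2 ≤ s) :
    Real.cosh x ≤ 1 + x ^ 2 / 2 + 768 / s ^ 4 * Real.cosh (s * x) := by
  have hs0 : 0 < s := by linarith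
  have key : ∀ y : ℝ, Real.exp y ≤ 1 + y + y ^ 2 / 2 + y ^ 3 / 6 + |y| ^ 4 * Real.exp |y| := by
    intro y
    have h := Complex.norm_exp_sub_sum_le_norm_mul_exp (y : ℂ) 4
    have e1 : (Complex.exp (y : ℂ) - ∑ m ∈ range 4, (y : ℂ) ^ m / (m.factorial : ℂ)) =
        ((Real.exp y - (1 + y + y ^ 2 / 2 + y ^ 3 / 6) : ℝ) : ℂ) := by
      rw [← Complex.ofReal_exp]
      simp only [Finset.sum_range_succ, Finset.sum_range_zero, Nat.factorial]
      push_cast
      ring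
    rw [e1, Complex.norm_real, Complex.norm_real, Real.norm_eq_abs, Real.norm_eq_abs] at h
    have := (abs_le.1 h).2
    linarith
  have h1 := key x
  have h2 := key (-x)
  rw [abs_neg] at h2
  have h3 : Real.cosh x ≤ 1 + x ^ 2 / 2 + |x| ^ 4 * Real.exp |x| := by
    rw [Real.cosh_eq]
    nlinarith
  refine h3.trans (add_le_add le_rfl ?_)
  -- `|x|^4 e^{|x|} ≤ 384 s⁻⁴ e^{s|x|}`
  have h4 := Real.pow_div_factorial_le_exp (s * |x| / 2) (by positivity) 4
  have h5 : |x| ^ 4 ≤ 384 / s ^ 4 * Real.exp (s * |x| / 2) := by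
    have e : (s * |x| / 2) ^ 4 / ((Nat.factorial 4 : ℕ) : ℝ) = s ^ 4 / 384 * |x| ^ 4 := by
      norm_num [Nat.factorial]
      ring
    rw [e] at h4
    have h6 : |x| ^ 4 = 384 / s ^ 4 * (s ^ 4 / 384 * |x| ^ 4) := by field_simp
    rw [h6]
    exact mul_le_mul_of_nonneg_left h4 (by positivity)
  have h6 : Real.exp |x| ≤ Real.exp (s * |x| / 2) :=
    Real.exp_le_exp.2 (by nlinarith [abs_nonneg x])
  have h7 : Real.exp (s * |x|) ≤ 2 * Real.cosh (s * x) := by
    have h8 : Real.cosh (s * x) = Real.cosh (s * |x|) := by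
      rcases abs_choice x with h | h
      · rw [h]
      · rw [h, mul_neg, Real.cosh_neg]
    rw [h8, Real.cosh_eq]
    linarith [Real.exp_pos (-(s * |x|))]
  calc |x| ^ 4 * Real.exp |x| ≤ 384 / s ^ 4 * Real.exp (s * |x| / 2) * Real.exp (s * |x| / 2) :=
        mul_le_mul h5 h6 (Real.exp_pos _).le (by positivity)
    _ = 384 / s ^ 4 * Real.exp (s * |x|) := by
        rw [mul_assoc, ← Real.exp_add]
        congr 2
        ring
    _ ≤ 384 / s ^ 4 * (2 * Real.cosh (s * x)) := mul_le_mul_of_nonneg_left h7 (by positivity)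
    _ = _ := by ring

section crude

variable {V : Type*} [Fintype V] {μ : (V → ℤ) → ℝ}

lemma Gr_cosh (u : V → ℝ) : Gr fun h : V → ℤ => Real.cosh (li u h) := by
  have e : (fun h : V → ℤ => Real.cosh (li u h)) =
      fun h => (1 / 2) * Real.exp (li u h) + (1 / 2) * Real.exp (li (-u) h) := by
    funext h
    rw [Real.cosh_eq]
    have : li (-u) h = -li u h := by
      unfold li
      simp
    rw [this]
    ring
  rw [e]
  exact ((Gr.exp_li u).cmul _).add ((Gr.exp_li (-u)).cmul _)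

/-- the mean of `cosh <u,h>` is `Z(u)/Z(0)` -/
lemma Ex_cosh (hμ : EM μ) (he : Ev μ) (u : V → ℝ) :
    Ex μ 0 (fun h => Real.cosh (li u h)) = Real.exp (Lg μ u - Lg μ 0) := by
  have h1 : ∀ v : V → ℝ, Ex μ 0 (fun h => Real.exp (li v h)) = Real.exp (Lg μ v - Lg μ 0) := by
    intro v
    unfold Lg Ex
    rw [Real.exp_sub, Real.exp_log (TM.H104.T_one_pos hμ v),
      Real.exp_log (TM.H104.T_one_pos hμ 0)]
    congr 1
    unfold TM.H104.T
    refine tsum_congr fun h => ?_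
    rw [TM.H104.li_zero, Real.exp_zero]
    ring
  have h2 : Lg μ (-u) = Lg μ u := congrArg Real.log (H37.Zs_neg he u)
  have e : (fun h : V → ℤ => Real.cosh (li u h)) =
      fun h => (1 / 2) * Real.exp (li u h) + (1 / 2) * Real.exp (li (-u) h) := by
    funext h
    rw [Real.cosh_eq]
    have : li (-u) h = -li u h := by
      unfold li
      simp
    rw [this]
    ring
  rw [e, TM.H104.Ex_add hμ ((Gr.exp_li u).cmul _) ((Gr.exp_li (-u)).cmul _), TM.H104.Ex_cmul,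
    TM.H104.Ex_cmul, h1, h1, h2]
  ring

/-- **crude bound of `R`** -/
theorem Rs_le_sq (hμ : EM μ) (he : Ev μ) {A : Matrix V V ℝ}
    (hA : ∀ u : V → ℝ, u ≠ 0 → 0 < qf A u)
    (hS : ∀ u : V → ℝ, qf A u ≤ 1 → Lg μ u - Lg μ 0 ≤ qf A u / 2) {u : V → ℝ}
    (hu : qf A u ≤ 1 / 4) : Rs μ u ≤ 2304 * qf A u ^ 2 := by
  rcases eq_or_ne u 0 with rfl | h0
  · unfold Rs
    rw [qf_zero_vec, qf_zero_vec]
    simp
  have hp := hA u h0
  set S := qf A u with hSd
  set s := √(1 / S) with hs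
  have hs2 : s ^ 2 = 1 / S := Real.sq_sqrt (by positivity)
  have hs1 : 2 ≤ s := by
    rw [hs]
    refine Real.le_sqrt_of_sq_le ?_
    rw [le_div_iff₀ hp]
    linarith
  have h1 : Lg μ (s • u) - Lg μ 0 ≤ 1 / 2 := by
    have h2 : qf A (s • u) = 1 := by
      rw [qf_smul, hs2, ← hSd]
      field_simp
    have h3 := hS (s • u) (by rw [h2])
    rwa [h2] at h3
  have hGe : qf (Gm μ) u = Ex μ 0 (fun h => li u h ^ 2) := by
    rw [H789.qf_Gm hμ]
    unfold TM.H104.Cv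
    rw [H789.Ex_zero_li he, mul_zero, sub_zero]
    congr 1
    funext h
    exact (pow_two (li u h)).symm
  have g2 : Gr fun h : V → ℤ => Real.cosh (li (s • u) h) := Gr_cosh _
  have g3 : Gr fun h : V → ℤ => li u h ^ 2 := by
    refine (congrArg Gr (funext fun h => ?_)).mp ((Gr.li u).mul (Gr.li u))
    exact (pow_two (li u h)).symm
  have h4 : Real.exp (Lg μ u - Lg μ 0) ≤ 1 + 1 / 2 * qf (Gm μ) u + 768 / s ^ 4 *
      Real.exp (1 / 2) := by
    rw [← Ex_cosh hμ he, hGe]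
    refine (TM.H104.Ex_mono hμ (Gr_cosh u) (((Gr.const 1).add (g3.cmul (1 / 2))).add
      (g2.cmul (768 / s ^ 4))) (fun h => ?_) 0).trans ?_
    · have h5 := cosh_sub_le (li u h) hs1
      rw [TM.H104.li_smul]
      linarith
    · rw [TM.H104.Ex_add hμ ((Gr.const 1).add (g3.cmul (1 / 2))) (g2.cmul _),
        TM.H104.Ex_add hμ (Gr.const 1) (g3.cmul _), TM.H104.Ex_cmul, TM.H104.Ex_cmul,
        TM.H104.Ex_const hμ, Ex_cosh hμ he]
      refine add_le_add le_rfl (mul_le_mul_of_nonneg_left (Real.exp_le_exp.2 h1) (by positivity))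
  have h5 : Lg μ u - Lg μ 0 ≤ 1 / 2 * qf (Gm μ) u + 768 / s ^ 4 * Real.exp (1 / 2) := by
    have h6 := Real.add_one_le_exp (1 / 2 * qf (Gm μ) u + 768 / s ^ 4 * Real.exp (1 / 2))
    exact Real.exp_le_exp.1 (h4.trans (by linarith))
  have h6 : Real.exp (1 / 2) ≤ 3 := by
    have h7 := Real.exp_one_lt_d9
    have h8 : Real.exp (1 / 2) ≤ Real.exp 1 := Real.exp_le_exp.2 (by norm_num)
    linarith
  have h7 : s ^ 4 = 1 / S ^ 2 := by
    have : s ^ 4 = (s ^ 2) ^ 2 := by ring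
    rw [this, hs2]
    ring
  have h8 : 768 / s ^ 4 = 768 * S ^ 2 := by
    rw [h7]
    field_simp
  rw [h8] at h5
  unfold Rs
  nlinarith [sq_nonneg S]

end crude

/-! ### integer against neutral -/

section cmp

variable {V : Type} [Fintype V] [DecidableEq V] [Nonempty V] {w : (V → ℤ) → ℝ}
  {M : Matrix V V ℝ} {m : ℝ}

lemma mulVec_cs (hM : MF M m) (F : V → ℝ) (c : ℝ) :
    M *ᵥ cs F c = M *ᵥ F + fun _ => m * c := by
  funext x
  simp only [Matrix.mulVec, dotProduct, cs, Pi.add_apply, mul_add, Finset.sum_add_distrib]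
  rw [← Finset.sum_mul, hM.row x]

lemma qf_cs (hM : MF M m) {F : V → ℝ} (hF : Neu F) (c : ℝ) :
    qf M (cs F c) = qf M F + m * Fintype.card V * c ^ 2 := by
  rw [H37.qf_eq, mulVec_cs hM, H37.qf_eq]
  have e1 : cs F c = F + fun _ => c := by
    funext x
    rfl
  have h1 : (fun _ : V => c) ⬝ᵥ (M *ᵥ F) = 0 := by
    have h2 := hM.sum_mulVec F
    rw [hF, mul_zero] at h2
    simp only [dotProduct]
    rw [← Finset.mul_sum, h2, mul_zero]
  have h3 : F ⬝ᵥ (fun _ : V => m * c) = 0 := by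
    simp only [dotProduct]
    rw [← Finset.sum_mul, hF, zero_mul]
  have h4 : (fun _ : V => c) ⬝ᵥ (fun _ : V => m * c) = m * Fintype.card V * c ^ 2 := by
    simp only [dotProduct]
    rw [Finset.sum_const, Finset.card_univ, nsmul_eq_mul]
    ring
  rw [e1, add_dotProduct, dotProduct_add, dotProduct_add, h1, h3, h4]
  ring

/-- **exact comparison**: integer model in the background `F + c`, neutral model in the
background `F` -/
theorem Rs_int_neu (hw : GW w) (hp : Per w) (hM : MF M m) (x₀ : V) {ω : ℝ} (hO : OscZ w M ω)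
    (hω : ω ≤ 1 / 2) {J : V → ℝ} (hJ : Neu J)
    (hG : bf (Gm (wM w M)) J (fun _ => 1) = 0) (c : ℝ) :
    |Rs (wM w M) (J + fun _ => m * c) - Rs (nM w M m x₀) J -
      (m * Fintype.card V * c ^ 2 - qf (Gm (wM w M)) (fun _ => m * c)) / 2 -
      (qf (Gm (nM w M m x₀)) J - qf (Gm (wM w M)) J) / 2| ≤ 4 * ω := by
  have hE : EM (wM w M) := hw.em_wM hM
  set F := M⁻¹ *ᵥ J with hFd
  have hF : Neu F := hM.neu_inv hJ
  have hMF : M *ᵥ F = J := hM.mulVec_inv J
  have a1 := LM_sub_L0 hp hM.symm hE hO hω F c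
  have a2 := LM_sub_L0 hp hM.symm hE hO hω (0 : V → ℝ) 0
  have b1 := LM_eq hM.symm hE (cs F c)
  have b2 := LM_eq hM.symm hE (cs (0 : V → ℝ) 0)
  have c1 := H612.L0_eq hw hM x₀ F
  have c2 := H612.L0_eq hw hM x₀ (0 : V → ℝ)
  have e0 : cs (0 : V → ℝ) 0 = 0 := by
    funext x
    simp [cs]
  rw [e0] at a2 b2
  have d1 : M.mulVec (cs F c) = J + fun _ => m * c := by rw [mulVec_cs hM, hMF]
  rw [d1, qf_cs hM hF] at b1
  rw [Matrix.mulVec_zero, qf_zero_vec] at b2
  rw [ntr_of_neu M m hF, qf_ntr_neu M m hF, hMF] at c1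
  rw [Matrix.mulVec_zero, qf_zero_vec] at c2
  have e2 : qf (Gm (wM w M)) (J + fun _ => m * c) =
      qf (Gm (wM w M)) J + qf (Gm (wM w M)) fun _ => m * c := by
    have e1 : (fun _ : V => m * c) = (m * c) • fun _ : V => (1 : ℝ) := by
      funext x; simp
    rw [qf_add_vec (H114.Gm_transpose (wM w M)), e1, bf_smul_right, hG]
    ring
  unfold Rs
  rw [e2]
  have a1' := abs_le.1 a1
  have a2' := abs_le.1 a2
  rw [b1, c1] at a1'
  rw [b2, c2] at a2'
  rw [abs_le]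
  constructor
  · linarith [a1'.1, a1'.2, a2'.1, a2'.2]
  · linarith [a1'.1, a1'.2, a2'.1, a2'.2]

/-- the constant part is nonnegative -/
lemma const_nonneg (hw : GW w) (hM : MF M m) (c : ℝ) :
    0 ≤ m * Fintype.card V * c ^ 2 - qf (Gm (wM w M)) (fun _ => m * c) := by
  have h1 := hw.qf_wM_le_inv hM fun _ => m * c
  have h2 : (M⁻¹ *ᵥ fun _ : V => m * c) = fun _ => c := by
    have h3 : M *ᵥ (fun _ : V => c) = fun _ => m * c := by
      funext x
      simp only [Matrix.mulVec, dotProduct]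
      rw [← Finset.sum_mul, hM.row x]
    rw [← h3, Matrix.mulVec_mulVec, Matrix.nonsing_inv_mul _ hM.det, Matrix.one_mulVec]
  have h4 : qf M⁻¹ (fun _ : V => m * c) = m * Fintype.card V * c ^ 2 := by
    rw [H37.qf_eq, h2]
    simp only [dotProduct]
    rw [Finset.sum_const, Finset.card_univ, nsmul_eq_mul]
    ring
  linarith

/-- **neutral by integer**, one constant -/
theorem neu_le_int (hw : GW w) (hp : Per w) (hM : MF M m) (x₀ : V) {ω : ℝ} (hO : OscZ w M ω)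
    (hω : ω ≤ 1 / 2) {J : V → ℝ} (hJ : Neu J)
    (hG : bf (Gm (wM w M)) J (fun _ => 1) = 0) (c : ℝ) :
    Rs (nM w M m x₀) J ≤ Rs (wM w M) (J + fun _ => m * c) + 4 * ω := by
  have h1 := (abs_le.1 (Rs_int_neu hw hp hM x₀ hO hω hJ hG c)).1
  have h2 := const_nonneg hw hM c
  have h3 := hw.Gm_int_le_neu hM x₀ hJ
  linarith

variable {A : Matrix V V ℝ}

/-- **the neutral covariance against the integer covariance** -/
theorem Gneu_le (hw : GW w) (hp : Per w) (hM : MF M m) (x₀ : V) {ω : ℝ} (hO : OscZ w M ω)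
    (hω0 : 0 < ω) (hω : ω ≤ 1 / 16) (hA : ∀ u : V → ℝ, u ≠ 0 → 0 < qf A u)
    (hS : ∀ u : V → ℝ, qf A u ≤ 1 → Lg (wM w M) u - Lg (wM w M) 0 ≤ qf A u / 2) {J : V → ℝ}
    (hJ : Neu J) (hG : bf (Gm (wM w M)) J (fun _ => 1) = 0) :
    qf (Gm (nM w M m x₀)) J ≤ qf (Gm (wM w M)) J + 4616 * √ω * qf A J := by
  rcases eq_or_ne J 0 with rfl | h0
  · rw [qf_zero_vec, qf_zero_vec, qf_zero_vec]
    simp
  have hE : EM (wM w M) := hw.em_wM hM
  have hev : Ev (wM w M) := ev_wM hw.ev _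
  have hS0 := hA J h0
  set S := qf A J with hSd
  set r := √ω with hr
  have hr0 : 0 < r := Real.sqrt_pos.2 hω0
  have hr2 : r ^ 2 = ω := Real.sq_sqrt hω0.le
  have hr4 : r ≤ 1 / 4 := by
    rw [hr, Real.sqrt_le_left (by norm_num)]
    norm_num
    linarith
  set s := √(r / S) with hs
  have hs2 : s ^ 2 = r / S := Real.sq_sqrt (by positivity)
  have h1 : qf A (s • J) = r := by
    rw [qf_smul, hs2, ← hSd]
    field_simp
  have h2 := Rs_le_sq hE hev hA hS (u := s • J) (by rw [h1]; exact hr4)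
  rw [h1, hr2] at h2
  have hG' : bf (Gm (wM w M)) (s • J) (fun _ => 1) = 0 := by
    rw [H37.bf_smul_left, hG, mul_zero]
  have h3 := (abs_le.1 (Rs_int_neu hw hp hM x₀ hO (by linarith) (hJ.smul s) hG' 0)).1
  have e1 : (fun _ : V => m * 0) = (0 : V → ℝ) := by
    funext x
    simp
  rw [e1, add_zero, qf_zero_vec, qf_smul, qf_smul, hs2] at h3
  have h4 : 0 ≤ Rs (nM w M m x₀) (s • J) :=
    H789.Rs_nonneg (hw.em_nM hM x₀) (hw.ev_nM M m x₀) (hw.pk_nM hM x₀) _
  have h5 : r / S * (qf (Gm (nM w M m x₀)) J - qf (Gm (wM w M)) J) ≤ 4616 * ω := by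
    nlinarith
  have h6 := mul_le_mul_of_nonneg_left h5 (by positivity : 0 ≤ S / r)
  have h7 : S / r * (r / S * (qf (Gm (nM w M m x₀)) J - qf (Gm (wM w M)) J)) =
      qf (Gm (nM w M m x₀)) J - qf (Gm (wM w M)) J := by
    field_simp
  have h8 : S / r * (4616 * ω) = 4616 * r * S := by
    rw [← hr2]
    field_simp
  rw [h7, h8] at h6
  linarith

/-- **integer by neutral** -/
theorem int_le_neu (hw : GW w) (hp : Per w) (hM : MF M m) (x₀ : V) {ω : ℝ} (hO : OscZ w M ω)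
    (hω0 : 0 < ω) (hω : ω ≤ 1 / 16) (hA : ∀ u : V → ℝ, u ≠ 0 → 0 < qf A u)
    (hS : ∀ u : V → ℝ, qf A u ≤ 1 → Lg (wM w M) u - Lg (wM w M) 0 ≤ qf A u / 2) {J : V → ℝ}
    (hJ : Neu J) (hG : bf (Gm (wM w M)) J (fun _ => 1) = 0) (c : ℝ) :
    Rs (wM w M) (J + fun _ => m * c) ≤ Rs (nM w M m x₀) J + 4 * ω + 2308 * √ω * qf A J +
      (m * Fintype.card V * c ^ 2 - qf (Gm (wM w M)) (fun _ => m * c)) / 2 := by
  have h1 := (abs_le.1 (Rs_int_neu hw hp hM x₀ hO (by linarith) hJ hG c)).2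
  have h2 := Gneu_le hw hp hM x₀ hO hω0 hω hA hS hJ hG
  linarith

end cmp

end Vale.Agent.P159.H145
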