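import Vale.Agent.P159.H145.In1
import Vale.Agent.P159.H816.HtFine

/-!
P159, module INT (helper145), part 2: the torus.

* `subS` : `log Z(u) - log Z(0) ≤ <u, (M + κ(-Δ))⁻¹ u>/2` as soon as the right side is `≤ 1/2`,
  `κ = kb b = 1/(b + 12 max(b,1)²)`, every mass form;
* `wt_le_nwt`, `nwt_le_wt` : scalar mass, every source;
* `wC_le_nMC`, `nMC_le_wC` : cell mass, every cell source.
-/

set_option linter.unusedSectionVars false

namespace Vale.Agent.P159.H145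

open Finset Matrix
open Vale.Agent.P159.TM.H104 (EM Ex Lg li Gr)
open Vale.Agent.P159.TM.H764 (EE grd Q)
open Vale.Agent.P159.TM.Spec (V)
open Vale.Agent.P159.TM.SpecC (Tor wT)
open Vale.Agent.P159.H37
open Vale.Agent.P159.H864 (lapM TI sym cobV Gc Gck GM yt qf_lapM coer_det)
open Vale.Agent.P159.H859 (ge qf_of_mul Rk)
open Vale.Agent.P159.H963 (GW MF nM nMC nwt Neu gw_wT mf_smul Pn)

noncomputable section

/-- the stiffness of the sub-Gaussian form -/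
def kb (b : ℝ) : ℝ := 1 / (b + 12 * max b 1 ^ 2)

lemma kb_den {b : ℝ} (hb : 0 ≤ b) : 12 ≤ b + 12 * max b 1 ^ 2 := by
  have h1 : (1 : ℝ) ≤ max b 1 := le_max_right _ _
  nlinarith

lemma kb_pos {b : ℝ} (hb : 0 ≤ b) : 0 < kb b := by
  have := kb_den hb
  unfold kb
  positivity

lemma kb_le {b : ℝ} (hb : 0 ≤ b) : kb b ≤ 1 / 12 := by
  unfold kb
  exact one_div_le_one_div_of_le (by norm_num) (kb_den hb)

section gen

variable {N : ℕ} [NeZero N] {b m0 κ : ℝ} {M : Matrix (V N) (V N) ℝ}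

lemma ge_sq_le (κ : ℝ) (w : V N → ℝ) (x : V N) (s : Bool) : ge κ w x s ^ 2 ≤ κ ^ 2 * grd w := by
  unfold grd Q
  have h1 : ∀ v : V N, (w (x + v) - w x) ^ 2 ≤ ∑ x, (w (x + v) - w x) ^ 2 := fun v =>
    Finset.single_le_sum (f := fun x => (w (x + v) - w x) ^ 2) (fun _ _ => sq_nonneg _)
      (Finset.mem_univ x)
  have h2 : ∀ v : V N, 0 ≤ ∑ x, (w (x + v) - w x) ^ 2 := fun v =>
    Finset.sum_nonneg fun _ _ => sq_nonneg _
  unfold ge
  cases s
  · simp only [Bool.false_eq_true, if_false, mul_pow]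
    exact mul_le_mul_of_nonneg_left (by linarith [h1 (0, 1), h2 (1, 0)]) (sq_nonneg κ)
  · simp only [if_true, mul_pow]
    exact mul_le_mul_of_nonneg_left (by linarith [h1 (1, 0), h2 (0, 1)]) (sq_nonneg κ)

lemma res_pos (hκ : 0 ≤ κ) (hm0 : 0 < m0) (hM : ∀ u : V N → ℝ, m0 * ∑ x, u x ^ 2 ≤ qf M u)
    {u : V N → ℝ} (hu : u ≠ 0) : 0 < qf (M + κ • lapM)⁻¹ u := by
  have hco := H816.coer_add hκ hM
  have hdet := coer_det hm0 hco
  have hAu : IsUnit (M + κ • lapM) := (Matrix.isUnit_iff_isUnit_det _).2 hdet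
  rw [← qf_of_mul hAu]
  set w := (M + κ • lapM)⁻¹ *ᵥ u with hw
  have h0 : (M + κ • lapM) *ᵥ w = u := by
    rw [hw, Matrix.mulVec_mulVec, Matrix.mul_nonsing_inv _ hdet, Matrix.one_mulVec]
  have hw0 : w ≠ 0 := by
    intro h
    rw [h, Matrix.mulVec_zero] at h0
    exact hu h0.symm
  obtain ⟨x, hx⟩ := Function.ne_iff.1 hw0
  have h3 : 0 < ∑ x, w x ^ 2 :=
    Finset.sum_pos' (fun _ _ => sq_nonneg _) ⟨x, Finset.mem_univ x, by
      have : w x ≠ 0 := hx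
      positivity⟩
  exact lt_of_lt_of_le (mul_pos hm0 h3) (hco w)

/-- **the sub-Gaussian form** -/
theorem subS (hb : 0 ≤ b) (hMs : Mᵀ = M) (hm0 : 0 < m0)
    (hM : ∀ u : V N → ℝ, m0 * ∑ x, u x ^ 2 ≤ qf M u) (u : V N → ℝ)
    (hu : qf (M + kb b • lapM)⁻¹ u ≤ 1) :
    Lg (wM (wT b N) M) u - Lg (wM (wT b N) M) 0 ≤ qf (M + kb b • lapM)⁻¹ u / 2 := by
  have hκ := kb_pos hb
  have hco := H816.coer_add hκ.le hM
  have hdet := coer_det hm0 hco
  have hAu : IsUnit (M + kb b • lapM) := (Matrix.isUnit_iff_isUnit_det _).2 hdet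
  refine H816.dom_int (cs := 1) hb hMs hm0 hM hκ ?_ le_rfl u fun x s => ?_
  · have h1 := kb_den hb
    unfold kb
    rw [one_pow, mul_one, one_div_mul_cancel (by linarith)]
  · set w := (M + kb b • lapM)⁻¹ *ᵥ u with hw
    have h1 : qf (M + kb b • lapM) w ≤ 1 := by
      rw [hw, qf_of_mul hAu]
      exact hu
    rw [qf_add_mat, H864.qf_smul_mat, qf_lapM] at h1
    have h2 := hM w
    have h3 : 0 ≤ m0 * ∑ x, w x ^ 2 :=
      mul_nonneg hm0.le (Finset.sum_nonneg fun _ _ => sq_nonneg _)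
    have h4 := ge_sq_le (kb b) w x s
    have h5 := kb_le hb
    refine abs_le_of_sq_le_sq ?_ zero_le_one
    nlinarith

end gen

/-! ### scalar mass -/

section scalar

variable {N : ℕ} [NeZero N] {b t ω : ℝ}

lemma qf_Gm_const (b t : ℝ) (a : ℝ) :
    qf (Gm (wt N b t)) (fun _ => a) = a ^ 2 * ((N : ℝ) ^ 2 * Ght N b t 0) := by
  have e1 : ∀ x : Tor N, ∑ y : Tor N, a * Gm (wt N b t) x y * a = a ^ 2 * Ght N b t 0 := by
    intro x
    rw [H864.Ght_zero_eq, Finset.mul_sum]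
    rw [← Equiv.sum_comp (Equiv.subRight x) fun z => a ^ 2 * Gt N b t z]
    refine Finset.sum_congr rfl fun y _ => ?_
    rw [H864.Gm_wt t x y, Equiv.subRight_apply]
    ring
  unfold qf
  rw [Finset.sum_congr rfl fun x _ => e1 x, Finset.sum_const, Finset.card_univ, nsmul_eq_mul,
    H963.cardV N]
  ring

/-- a source is the sum of its neutral part and a constant -/
lemma split_J (ht : 0 < t) (J : V N → ℝ) :
    J = (Pn : Matrix (V N) (V N) ℝ) *ᵥ J +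
      fun _ => t * ((∑ x, J x) / (t * Fintype.card (V N))) := by
  rw [H963.Pn_mulVec]
  funext x
  have hN : (0 : ℝ) < Fintype.card (V N) := Nat.cast_pos.2 Fintype.card_pos
  simp only [Pi.add_apply]
  field_simp
  ring

/-- **integer by neutral**, scalar mass, every source -/
theorem wt_le_nwt (hb : 0 ≤ b) (ht : 0 < t) (x₀ : V N)
    (hO : OscZ (wT b N) (t • (1 : Matrix (Tor N) (Tor N) ℝ)) ω) (hω0 : 0 < ω) (hω : ω ≤ 1 / 16)
    (J : V N → ℝ) :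
    Rs (wt N b t) J ≤ Rs (nwt N b t x₀) ((Pn : Matrix (V N) (V N) ℝ) *ᵥ J) + 4 * ω +
      2308 * √ω * qf (t • (1 : Matrix (Tor N) (Tor N) ℝ) + kb b • lapM)⁻¹
        ((Pn : Matrix (V N) (V N) ℝ) *ᵥ J) +
      (∑ x, J x) ^ 2 / (2 * (t * (N : ℝ) ^ 2)) * yt N b t := by
  have hM : MF (t • (1 : Matrix (V N) (V N) ℝ)) t := mf_smul ht
  have hc : ∀ u : V N → ℝ, t * ∑ x, u x ^ 2 ≤ qf (t • (1 : Matrix (V N) (V N) ℝ)) u := fun u =>
    (H37.qf_smul_one t u).ge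
  have hJ : Neu ((Pn : Matrix (V N) (V N) ℝ) *ᵥ J) := H963.neu_Pn _
  have h1 := int_le_neu (gw_wT (N := N) hb) per_wT hM x₀ hO hω0 hω
    (fun u hu => res_pos (kb_pos hb).le ht hc hu) (subS hb hM.symm ht hc) hJ
    (H30.bf_one (H864.ti_Gm_wt t) hJ) ((∑ x, J x) / (t * Fintype.card (V N)))
  rw [← split_J ht J] at h1
  have h2 := qf_Gm_const (N := N) b t (t * ((∑ x, J x) / (t * Fintype.card (V N))))
  have h3 : Gm (wM (wT b N) (t • (1 : Matrix (V N) (V N) ℝ))) = Gm (wt N b t) := rfl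
  rw [h3, h2] at h1
  have hN : (Fintype.card (V N) : ℝ) = (N : ℝ) ^ 2 := H963.cardV N
  have hN0 : (N : ℝ) ≠ 0 := by exact_mod_cast NeZero.ne N
  rw [hN] at h1
  have e : (t * (N : ℝ) ^ 2 * ((∑ x, J x) / (t * (N : ℝ) ^ 2)) ^ 2 -
      (t * ((∑ x, J x) / (t * (N : ℝ) ^ 2))) ^ 2 * ((N : ℝ) ^ 2 * Ght N b t 0)) / 2 =
      (∑ x, J x) ^ 2 / (2 * (t * (N : ℝ) ^ 2)) * yt N b t := by
    unfold yt
    field_simp
  rw [e] at h1
  exact h1

/-- **neutral by integer**, scalar mass, every constant -/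
theorem nwt_le_wt (hb : 0 ≤ b) (ht : 0 < t) (x₀ : V N)
    (hO : OscZ (wT b N) (t • (1 : Matrix (Tor N) (Tor N) ℝ)) ω) (hω : ω ≤ 1 / 2)
    {J : V N → ℝ} (hJ : Neu J) (c : ℝ) :
    Rs (nwt N b t x₀) J ≤ Rs (wt N b t) (J + fun _ => t * c) + 4 * ω :=
  neu_le_int (gw_wT (N := N) hb) per_wT (mf_smul ht) x₀ hO hω hJ
    (H30.bf_one (H864.ti_Gm_wt t) hJ) c

theorem nwt_le_wt' (hb : 0 ≤ b) (ht : 0 < t) (x₀ : V N)
    (hO : OscZ (wT b N) (t • (1 : Matrix (Tor N) (Tor N) ℝ)) ω) (hω : ω ≤ 1 / 2)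
    (J : V N → ℝ) :
    Rs (nwt N b t x₀) ((Pn : Matrix (V N) (V N) ℝ) *ᵥ J) ≤ Rs (wt N b t) J + 4 * ω := by
  have h := nwt_le_wt hb ht x₀ hO hω (H963.neu_Pn J)
    ((∑ x, J x) / (t * Fintype.card (V N)))
  rwa [← split_J ht J] at h

/-- the neutral covariance against the integer covariance, scalar mass -/
theorem Gnwt_le (hb : 0 ≤ b) (ht : 0 < t) (x₀ : V N)
    (hO : OscZ (wT b N) (t • (1 : Matrix (Tor N) (Tor N) ℝ)) ω) (hω0 : 0 < ω) (hω : ω ≤ 1 / 16)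
    {J : V N → ℝ} (hJ : Neu J) :
    qf (Gm (nwt N b t x₀)) J ≤ qf (Gm (wt N b t)) J +
      4616 * √ω * qf (t • (1 : Matrix (Tor N) (Tor N) ℝ) + kb b • lapM)⁻¹ J := by
  have hM : MF (t • (1 : Matrix (V N) (V N) ℝ)) t := mf_smul ht
  have hc : ∀ u : V N → ℝ, t * ∑ x, u x ^ 2 ≤ qf (t • (1 : Matrix (V N) (V N) ℝ)) u := fun u =>
    (H37.qf_smul_one t u).ge
  exact Gneu_le (gw_wT (N := N) hb) per_wT hM x₀ hO hω0 hω
    (fun u hu => res_pos (kb_pos hb).le ht hc hu) (subS hb hM.symm ht hc) hJ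
    (H30.bf_one (H864.ti_Gm_wt t) hJ)

end scalar

end

end Vale.Agent.P159.H145
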