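import Vale.Agent.P159.H145.In2
import Vale.Agent.P159.H30.StG
import Vale.Agent.P159.H663.Sgq

/-!
P159, module INT (helper145), part 3: cell masses; Gaussian sources; the a priori bound `AP` of the
integer model from the one of the neutral model.
-/

set_option linter.unusedSectionVars false

namespace Vale.Agent.P159.H145

open Finset Matrix MeasureTheory
open Vale.Agent.P159.TM.H104 (EM Ex Lg li Gr)
open Vale.Agent.P159.TM.H764 (EE grd Q)
open Vale.Agent.P159.TM.Spec (V)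
open Vale.Agent.P159.TM.SpecC (Tor wT)
open Vale.Agent.P159.H37
open Vale.Agent.P159.H864 (lapM TI sym cobV Gc Gck GM yt qf_lapM coer_det MC MC_tr qf_MC_ge)
open Vale.Agent.P159.H859 (ge qf_of_mul Rk)
open Vale.Agent.P159.H963 (GW MF nM nMC nwt Neu gw_wT mf_smul mf_MC Pn)

noncomputable section

/-! ### cell masses -/

section cell

variable {N l : ℕ} [NeZero N] [NeZero (N / l)] {b t τ ω : ℝ}

lemma cobV_tr_const (hl : l ∣ N) (a : ℝ) :
    (cobV N l)ᵀ *ᵥ (fun _ => a) = fun _ => a / (l : ℝ) := by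
  funext x
  simp only [Matrix.mulVec, dotProduct, Matrix.transpose_apply, H864.cobV_apply]
  rw [Finset.sum_eq_single (H864.cl x)]
  · rw [if_pos rfl]
    ring
  · intro c _ hc
    rw [if_neg (Ne.symm hc), zero_mul]
  · intro h
    exact absurd (Finset.mem_univ _) h

lemma bf_cell_one (hl : l ∣ N) {u : V (N / l) → ℝ} (hu : Neu u) :
    bf (Gm (wM (wT b N) (MC N l t τ))) ((cobV N l)ᵀ *ᵥ u) (fun _ => 1) = 0 := by
  have hl0 : (l : ℝ) ≠ 0 := by exact_mod_cast (H864.l_pos hl).ne'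
  have e1 : (fun _ : V N => (1 : ℝ)) = (cobV N l)ᵀ *ᵥ fun _ => (l : ℝ) := by
    rw [cobV_tr_const hl]
    funext _
    field_simp
  have e2 : (fun _ : V (N / l) => (l : ℝ)) = (l : ℝ) • fun _ => (1 : ℝ) := by
    funext _
    simp
  rw [e1, ← H864.bf_Gc, e2, bf_smul_right]
  have h := H30.bf_one (H864.ti_Gc_GM hl b t τ) hu
  unfold GM at h
  rw [h, mul_zero]

lemma qf_cell_const (hl : l ∣ N) (a : ℝ) :
    qf (Gm (wM (wT b N) (MC N l t τ))) (fun _ => a) =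
      a ^ 2 * ((N : ℝ) ^ 2 * Gck N l b t τ 0) := by
  have hl0 : (l : ℝ) ≠ 0 := by exact_mod_cast (H864.l_pos hl).ne'
  have e1 : (fun _ : V N => a) = (cobV N l)ᵀ *ᵥ fun _ => a * (l : ℝ) := by
    rw [cobV_tr_const hl]
    funext _
    field_simp
  rw [e1, ← H864.qf_Gc]
  have hti := H864.ti_Gc_GM hl b t τ
  have h1 := hti.mulVec_cN 0
  have h2 : (fun x : V (N / l) => TM.H764.cN (TM.H764.dt 0 x)) = fun _ => (1 : ℝ) := by
    funext x
    rw [H864.dt_zero_left]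
    exact TM.H764.cN_zero
  rw [h2] at h1
  have e2 : (fun _ : V (N / l) => a * (l : ℝ)) = (a * l) • fun _ => (1 : ℝ) := by
    funext _
    simp
  have e3 : ((N / l : ℕ) : ℝ) = (N : ℝ) / l := Nat.cast_div hl hl0
  rw [e2, qf_smul, H37.qf_eq]
  unfold GM at h1
  rw [h1, dotProduct_smul, smul_eq_mul]
  have e4 : (fun _ : V (N / l) => (1 : ℝ)) ⬝ᵥ (fun _ => 1) = ((N / l : ℕ) : ℝ) ^ 2 := by
    simp only [dotProduct, mul_one, Finset.sum_const, Finset.card_univ, nsmul_eq_mul]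
    exact H963.cardV _
  rw [e4, e3]
  unfold Gck GM
  field_simp

/-- **integer by neutral**, cell mass, every cell source -/
theorem wC_le_nMC (hb : 0 ≤ b) (hl : l ∣ N) (hτ : 0 < τ) (h : τ ≤ t) (x₀ : V N)
    (hO : OscZ (wT b N) (MC N l t τ) ω) (hω0 : 0 < ω) (hω : ω ≤ 1 / 16)
    (u : V (N / l) → ℝ) :
    Rs (wM (wT b N) (MC N l t τ)) ((cobV N l)ᵀ *ᵥ u) ≤
      Rs (nMC N l b t τ x₀) ((cobV N l)ᵀ *ᵥ ((Pn : Matrix (V (N / l)) (V (N / l)) ℝ) *ᵥ u)) +
      4 * ω + 2308 * √ω * qf (Rk τ (kb b / (l : ℝ) ^ 2))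
        ((Pn : Matrix (V (N / l)) (V (N / l)) ℝ) *ᵥ u) +
      (∑ x, u x) ^ 2 / (2 * (τ * ((N / l : ℕ) : ℝ) ^ 2)) * (1 - τ * Gck N l b t τ 0) := by
  have hM : MF (MC N l t τ) τ := mf_MC hl hτ h
  have hc : ∀ u : V N → ℝ, τ * ∑ x, u x ^ 2 ≤ qf (MC N l t τ) u := fun u => qf_MC_ge hl h u
  have hl0 : (l : ℝ) ≠ 0 := by exact_mod_cast (H864.l_pos hl).ne'
  have hn : Neu ((Pn : Matrix (V (N / l)) (V (N / l)) ℝ) *ᵥ u) := H963.neu_Pn _
  have hJ := H963.neu_cobV_tr (N := N) (l := l) hl hn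
  set c : ℝ := (∑ x, u x) / (((N / l : ℕ) : ℝ) ^ 2 * l * τ) with hcd
  have h1 := int_le_neu (gw_wT (N := N) hb) per_wT hM x₀ hO hω0 hω
    (fun u hu => res_pos (kb_pos hb).le hτ hc hu) (subS hb hM.symm hτ hc) hJ
    (bf_cell_one hl hn) c
  have hN0 : (((N / l : ℕ) : ℝ)) ≠ 0 := by exact_mod_cast NeZero.ne (N / l)
  have e1 : ((cobV N l)ᵀ *ᵥ ((Pn : Matrix (V (N / l)) (V (N / l)) ℝ) *ᵥ u)) +
      (fun _ => τ * c) = (cobV N l)ᵀ *ᵥ u := by
    have e2 : (fun _ : V N => τ * c) = (cobV N l)ᵀ *ᵥ fun _ => (l : ℝ) * (τ * c) := by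
      rw [cobV_tr_const hl]
      funext _
      field_simp
    rw [e2, ← Matrix.mulVec_add, H963.Pn_mulVec]
    congr 1
    funext x
    simp only [Pi.add_apply, H963.cardV]
    rw [hcd]
    field_simp
    ring
  rw [e1, qf_cell_const hl] at h1
  have h2 := H816.Hb_cell (N := N) (l := l) hl hτ h (kb_pos hb)
    ((Pn : Matrix (V (N / l)) (V (N / l)) ℝ) *ᵥ u)
  have h3 := mul_le_mul_of_nonneg_left h2 (by positivity : 0 ≤ 2308 * √ω)
  have hN : (Fintype.card (V N) : ℝ) = (N : ℝ) ^ 2 := H963.cardV N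
  have e3 : ((N / l : ℕ) : ℝ) = (N : ℝ) / l := Nat.cast_div hl hl0
  have hNN : (N : ℝ) ≠ 0 := by exact_mod_cast NeZero.ne N
  have e4 : (τ * Fintype.card (V N) * c ^ 2 - (τ * c) ^ 2 * ((N : ℝ) ^ 2 * Gck N l b t τ 0)) / 2 =
      (∑ x, u x) ^ 2 / (2 * (τ * ((N / l : ℕ) : ℝ) ^ 2)) * (1 - τ * Gck N l b t τ 0) := by
    rw [hN, hcd, e3]
    field_simp
  rw [e4] at h1
  exact h1.trans (add_le_add (add_le_add le_rfl h3) le_rfl)

/-- **neutral by integer**, cell mass, every cell source -/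
theorem nMC_le_wC (hb : 0 ≤ b) (hl : l ∣ N) (hτ : 0 < τ) (h : τ ≤ t) (x₀ : V N)
    (hO : OscZ (wT b N) (MC N l t τ) ω) (hω : ω ≤ 1 / 2) {u : V (N / l) → ℝ} (hu : Neu u) (c : ℝ) :
    Rs (nMC N l b t τ x₀) ((cobV N l)ᵀ *ᵥ u) ≤
      Rs (wM (wT b N) (MC N l t τ)) (((cobV N l)ᵀ *ᵥ u) + fun _ => τ * c) + 4 * ω :=
  neu_le_int (gw_wT (N := N) hb) per_wT (mf_MC hl hτ h) x₀ hO hω (H963.neu_cobV_tr hl hu)
    (bf_cell_one hl hu) c

end cell

/-! ### Gaussian sources -/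

section gauss

variable {V' I : Type*} [Fintype V'] [Fintype I]

lemma qf_nonneg_add {A : Matrix V' V' ℝ} (hA : ∀ u : V' → ℝ, 0 ≤ qf A u) (hs : Aᵀ = A)
    (L : Matrix V' I ℝ) (x : I → ℝ) :
    qf A (L *ᵥ x) ≤ (∑ i, qf A (Lᵀ i)) * ∑ i, x i ^ 2 := by
  classical
  have h1 : ∀ s : Finset I, qf A (∑ i ∈ s, x i • Lᵀ i) ≤
      (∑ i ∈ s, qf A (Lᵀ i)) * ∑ i ∈ s, x i ^ 2 := by
    intro s
    induction s using Finset.induction_on with
    | empty => simp [qf_zero_vec]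
    | insert i s hi ih =>
      rw [Finset.sum_insert hi, Finset.sum_insert hi, Finset.sum_insert hi]
      set z := ∑ i ∈ s, x i • Lᵀ i with hz
      set a := ∑ i ∈ s, qf A (Lᵀ i) with ha
      set r := ∑ i ∈ s, x i ^ 2 with hr
      have ha0 : 0 ≤ a := Finset.sum_nonneg fun i _ => hA _
      have hr0 : 0 ≤ r := Finset.sum_nonneg fun i _ => sq_nonneg _
      have h2 := H37.qf_add_vec hs (x i • Lᵀ i) z
      have h3 := H864.bf_sq_le hs hA (Lᵀ i) z
      rw [bf_smul_left, qf_smul] at h2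
      have hq := hA (Lᵀ i)
      have hqz := hA z
      -- `2 x_i bf ≤ x_i² a + q r`
      have h4 : (x i * bf A (Lᵀ i) z) ^ 2 ≤ (x i ^ 2 * a) * (qf A (Lᵀ i) * r) := by
        calc (x i * bf A (Lᵀ i) z) ^ 2 = x i ^ 2 * bf A (Lᵀ i) z ^ 2 := by ring
          _ ≤ x i ^ 2 * (qf A (Lᵀ i) * qf A z) := mul_le_mul_of_nonneg_left h3 (sq_nonneg _)
          _ ≤ x i ^ 2 * (qf A (Lᵀ i) * (a * r)) := by gcongr
          _ = _ := by ring
      have h5 : 2 * (x i * bf A (Lᵀ i) z) ≤ x i ^ 2 * a + qf A (Lᵀ i) * r := by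
        have p1 : 0 ≤ x i ^ 2 * a := by positivity
        have p2 : 0 ≤ qf A (Lᵀ i) * r := by positivity
        have h6 : (2 * (x i * bf A (Lᵀ i) z)) ^ 2 ≤ (x i ^ 2 * a + qf A (Lᵀ i) * r) ^ 2 := by
          have h7 : (2 * (x i * bf A (Lᵀ i) z)) ^ 2 = 4 * (x i * bf A (Lᵀ i) z) ^ 2 := by ring
          have h8 : (x i ^ 2 * a + qf A (Lᵀ i) * r) ^ 2 =
              4 * ((x i ^ 2 * a) * (qf A (Lᵀ i) * r)) + (x i ^ 2 * a - qf A (Lᵀ i) * r) ^ 2 := by
            ring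
          rw [h7, h8]
          linarith [sq_nonneg (x i ^ 2 * a - qf A (Lᵀ i) * r)]
        exact (le_abs_self _).trans (abs_le_of_sq_le_sq h6 (by linarith))
      rw [h2]
      have e6 : (qf A (Lᵀ i) + a) * (x i ^ 2 + r) =
          x i ^ 2 * qf A (Lᵀ i) + a * r + (x i ^ 2 * a + qf A (Lᵀ i) * r) := by ring
      rw [e6]
      linarith
  have h2 := h1 Finset.univ
  have e : (∑ i, x i • Lᵀ i) = L *ᵥ x := by
    funext y
    rw [Finset.sum_apply]
    simp only [Pi.smul_apply, smul_eq_mul, Matrix.transpose_apply, Matrix.mulVec, dotProduct]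
    exact Finset.sum_congr rfl fun i _ => mul_comm _ _
  rwa [e] at h2

/-- tail of a quadratic form of a Gaussian source -/
theorem tail_src {A : Matrix V' V' ℝ} (hA : ∀ u : V' → ℝ, 0 ≤ qf A u) (hs : Aᵀ = A)
    (L : Matrix V' I ℝ) {E : ℝ} (hE : 0 < E) (h : ∑ i, qf A (Lᵀ i) ≤ E) (a : ℝ) :
    (gau I).real {g | a ≤ qf A (L *ᵥ g)} ≤ 2 * Real.exp (-(a / (4 * E))) := by
  classical
  have e0 : ∀ g : I → ℝ, qf (Lᵀ * A * L) g = qf A (L *ᵥ g) := fun g => by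
    rw [H37.qf_eq, H37.qf_eq, ← Matrix.mulVec_mulVec, ← Matrix.mulVec_mulVec,
      Matrix.dotProduct_mulVec, Matrix.vecMul_transpose]
  have e1 : (Lᵀ * A * L).trace = ∑ i, qf A (Lᵀ i) := by
    unfold Matrix.trace
    refine Finset.sum_congr rfl fun i _ => ?_
    rw [Matrix.diag_apply, Matrix.mul_apply]
    simp only [Matrix.mul_apply, Matrix.transpose_apply, Finset.sum_mul]
    unfold qf
    rw [Finset.sum_comm]
    rfl
  have h1 := H663.gau_tail (K := Lᵀ * A * L) (by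
      rw [transpose_mul, transpose_mul, transpose_transpose, hs, Matrix.mul_assoc])
    (fun x => by rw [e0]; exact hA _) (lam := 1 / (2 * E)) (by positivity) (fun x => by
      rw [e0]
      have h2 := qf_nonneg_add hA hs L x
      have h3 : 0 ≤ ∑ i, x i ^ 2 := Finset.sum_nonneg fun _ _ => sq_nonneg _
      have h4 := h2.trans (mul_le_mul_of_nonneg_right h h3)
      rw [div_mul_eq_mul_div, one_mul, div_le_iff₀ (by positivity)]
      linarith) a
  simp only [e0, e1] at h1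
  have hms : MeasurableSet {g : I → ℝ | a ≤ qf A (L *ᵥ g)} := by
    refine measurableSet_le measurable_const (Continuous.measurable ?_)
    unfold qf
    fun_prop
  rw [integral_indicator_const _ hms, smul_eq_mul, mul_one] at h1
  refine h1.trans ?_
  have h5 : 1 / (2 * E) * ∑ i, qf A (Lᵀ i) ≤ 1 / 2 := by
    rw [div_mul_eq_mul_div, one_mul, div_le_iff₀ (by positivity)]
    linarith
  have h6 : Real.exp (1 / (2 * E) * ∑ i, qf A (Lᵀ i) - 1 / (2 * E) * a / 2) ≤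
      Real.exp (1 / 2) * Real.exp (-(a / (4 * E))) := by
    rw [← Real.exp_add, Real.exp_le_exp]
    have e : 1 / (2 * E) * a / 2 = a / (4 * E) := by
      field_simp
      ring
    rw [e]
    linarith
  refine h6.trans (mul_le_mul_of_nonneg_right ?_ (Real.exp_pos _).le)
  have h7 : Real.exp (1 / 2) ≤ 2 := by
    have h8 := Real.exp_one_lt_d9
    have h9 : Real.exp (1 / 2) * Real.exp (1 / 2) = Real.exp 1 := by
      rw [← Real.exp_add]; norm_num
    nlinarith [Real.exp_pos (1 / 2)]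
  exact h7

end gauss

/-! ### from the neutral to the integer model for a Gaussian source -/

section ap

variable {N l : ℕ} [NeZero N] [NeZero (N / l)] {b t ω : ℝ} {I : Type*} [Fintype I]

lemma res_nonneg (ht : 0 < t) (hb : 0 ≤ b) (u : V N → ℝ) :
    0 ≤ qf (t • (1 : Matrix (V N) (V N) ℝ) + kb b • lapM)⁻¹ u := by
  rcases eq_or_ne u 0 with rfl | h
  · rw [qf_zero_vec]
  · exact (res_pos (kb_pos hb).le ht (fun u => (H37.qf_smul_one t u).ge) h).le

/-- the sub-Gaussian form of a source and of its neutral part -/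
lemma qf_split (ht : 0 < t) (hb : 0 ≤ b) (J : V N → ℝ) :
    qf (t • (1 : Matrix (V N) (V N) ℝ) + kb b • lapM)⁻¹ J =
      qf (t • (1 : Matrix (V N) (V N) ℝ) + kb b • lapM)⁻¹ ((Pn : Matrix (V N) (V N) ℝ) *ᵥ J) +
        (∑ x, J x) ^ 2 / (t * (N : ℝ) ^ 2) := by
  set A := (t • (1 : Matrix (V N) (V N) ℝ) + kb b • lapM)⁻¹ with hA
  have hti : TI A := H859.ti_Rk (n := N) t (kb b)
  have hN : (Fintype.card (V N) : ℝ) = (N : ℝ) ^ 2 := H963.cardV N
  have hN0 : (N : ℝ) ≠ 0 := by exact_mod_cast NeZero.ne N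
  set c : ℝ := (∑ x, J x) / (N : ℝ) ^ 2 with hc
  have e1 : J = (Pn : Matrix (V N) (V N) ℝ) *ᵥ J + c • fun _ => (1 : ℝ) := by
    rw [H963.Pn_mulVec]
    funext x
    simp only [Pi.add_apply, Pi.smul_apply, smul_eq_mul, mul_one]
    rw [hN, hc]
    ring
  have hn : Neu ((Pn : Matrix (V N) (V N) ℝ) *ᵥ J) := H963.neu_Pn _
  have h1 := H37.qf_add_vec hti.transpose ((Pn : Matrix (V N) (V N) ℝ) *ᵥ J)
    (c • fun _ => (1 : ℝ))
  rw [← e1, bf_smul_right, H30.bf_one hti hn, qf_smul] at h1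
  have h3 := hti.mulVec_cN 0
  have h2 : (fun x : V N => TM.H764.cN (TM.H764.dt 0 x)) = fun _ => (1 : ℝ) := by
    funext x
    rw [H864.dt_zero_left]
    exact TM.H764.cN_zero
  rw [h2] at h3
  have h4 : sym A 0 = t⁻¹ := by
    have := H859.sym_Rk (n := N) ht (kb_pos hb).le 0
    rw [TM.H764.EE_zero, mul_zero, add_zero] at this
    exact this
  have h5 : qf A (fun _ => (1 : ℝ)) = (N : ℝ) ^ 2 / t := by
    rw [H37.qf_eq, h3, h4, dotProduct_smul, smul_eq_mul]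
    have e4 : (fun _ : V N => (1 : ℝ)) ⬝ᵥ (fun _ => 1) = (N : ℝ) ^ 2 := by
      simp only [dotProduct, mul_one, Finset.sum_const, Finset.card_univ, nsmul_eq_mul]
      exact hN
    rw [e4]
    field_simp
  rw [h1, h5, hc]
  field_simp
  ring

/-- error term of a source -/
theorem wt_le_nwt_err (hb : 0 < b) (ht : 0 < t) (x₀ : V N)
    (hO : OscZ (wT b N) (t • (1 : Matrix (Tor N) (Tor N) ℝ)) ω) (hω0 : 0 < ω) (hω : ω ≤ 1 / 16)
    (J : V N → ℝ) :
    Rs (wt N b t) J ≤ Rs (nwt N b t x₀) ((Pn : Matrix (V N) (V N) ℝ) *ᵥ J) + 4 * ω +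
      (2308 * √ω + yt N b t) *
        qf (t • (1 : Matrix (Tor N) (Tor N) ℝ) + kb b • lapM)⁻¹ J := by
  have h1 := wt_le_nwt hb.le ht x₀ hO hω0 hω J
  have h2 := qf_split (N := N) ht hb.le J
  have hy : 0 ≤ yt N b t := by
    rw [H864.yt_eq hb ht]
    have h3 := H864.Pik_nonneg (N := N) hb ht 0
    positivity
  have hq : 0 ≤ qf (t • (1 : Matrix (V N) (V N) ℝ) + kb b • lapM)⁻¹
      ((Pn : Matrix (V N) (V N) ℝ) *ᵥ J) := res_nonneg ht hb.le _
  have hN0 : (0 : ℝ) < N := by exact_mod_cast NeZero.pos N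
  have hz : 0 ≤ (∑ x, J x) ^ 2 / (t * (N : ℝ) ^ 2) := by positivity
  have e : (∑ x, J x) ^ 2 / (2 * (t * (N : ℝ) ^ 2)) =
      1 / 2 * ((∑ x, J x) ^ 2 / (t * (N : ℝ) ^ 2)) := by
    field_simp
  rw [e] at h1
  rw [h2]
  have hs := Real.sqrt_nonneg ω
  nlinarith [mul_nonneg hy hq, mul_nonneg hs hz, mul_nonneg hy hz]

/-- **Gaussian sources**: the tail of `R` of the integer model from the one of the neutral model -/
theorem prob_int (hb : 0 < b) (ht : 0 < t) (x₀ : V N)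
    (hO : OscZ (wT b N) (t • (1 : Matrix (Tor N) (Tor N) ℝ)) ω) (hω0 : 0 < ω) (hω : ω ≤ 1 / 16)
    (L : Matrix (V N) I ℝ) {E δ p : ℝ} (hE : 0 < E)
    (h : ∑ i, qf (t • (1 : Matrix (Tor N) (Tor N) ℝ) + kb b • lapM)⁻¹ (Lᵀ i) ≤ E)
    (hp : (gau I).real {g | δ < Rs (nwt N b t x₀) ((Pn : Matrix (V N) (V N) ℝ) *ᵥ (L *ᵥ g))} ≤ p)
    (a : ℝ) :
    (gau I).real {g | δ + 4 * ω + (2308 * √ω + yt N b t) * a < Rs (wt N b t) (L *ᵥ g)} ≤
      p + 2 * Real.exp (-(a / (4 * E))) := by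
  haveI : IsProbabilityMeasure (gau I) := by unfold gau; infer_instance
  have hA0 : ∀ u : V N → ℝ, 0 ≤ qf (t • (1 : Matrix (Tor N) (Tor N) ℝ) + kb b • lapM)⁻¹ u :=
    res_nonneg ht hb.le
  have hti : TI (t • (1 : Matrix (V N) (V N) ℝ) + kb b • lapM)⁻¹ := H859.ti_Rk (n := N) t (kb b)
  have h1 := tail_src hA0 hti.transpose L hE h a
  have hsub : {g : I → ℝ | δ + 4 * ω + (2308 * √ω + yt N b t) * a < Rs (wt N b t) (L *ᵥ g)} ⊆
      {g | δ < Rs (nwt N b t x₀) ((Pn : Matrix (V N) (V N) ℝ) *ᵥ (L *ᵥ g))} ∪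
      {g | a ≤ qf (t • (1 : Matrix (Tor N) (Tor N) ℝ) + kb b • lapM)⁻¹ (L *ᵥ g)} := by
    intro g hg
    by_contra hcon
    rw [Set.mem_union, not_or] at hcon
    obtain ⟨h2, h3⟩ := hcon
    simp only [Set.mem_setOf_eq, not_lt, not_le] at h2 h3 hg
    have h4 := wt_le_nwt_err hb ht x₀ hO hω0 hω (L *ᵥ g)
    have hy : 0 ≤ yt N b t := by
      rw [H864.yt_eq hb ht]
      have h3 := H864.Pik_nonneg (N := N) hb ht 0
      positivity
    have h5 : 0 ≤ 2308 * √ω + yt N b t := by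
      have := Real.sqrt_nonneg ω
      linarith
    have h6 := mul_le_mul_of_nonneg_left h3.le h5
    linarith
  refine (measureReal_mono hsub).trans ((measureReal_union_le _ _).trans ?_)
  exact add_le_add hp h1

end ap

end

end Vale.Agent.P159.H145
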