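import Vale.Agent.P159.H145.In3

/-!
P159, module INT (helper145), part 4: block noise. The field `AP` (integer model, letters of
`H972.Good`) from the corresponding bound of the neutral model.
-/

set_option linter.unusedSectionVars false

namespace Vale.Agent.P159.H145

open Finset Matrix MeasureTheory
open Vale.Agent.P159.TM.H764 (EE grd Q)
open Vale.Agent.P159.TM.Spec (V)
open Vale.Agent.P159.TM.SpecC (Tor wT)
open Vale.Agent.P159.H37
open Vale.Agent.P159.H864 (lapM TI sym cobV Gc Gck GM yt MC MC_self)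
open Vale.Agent.P159.H859 (ge qf_of_mul Rk gd)
open Vale.Agent.P159.H963 (nwt Pn)
open Vale.Agent.P159.H972 (cobB AP tn)

noncomputable section

lemma card_div_le (m q a : ℕ) (hq : 0 < q) :
    ((univ : Finset (Fin m)).filter fun i => i.val / q = a).card ≤ q := by
  have h : ((univ : Finset (Fin m)).filter fun i => i.val / q = a).card ≤
      (Finset.Ico (a * q) (a * q + q)).card := by
    refine Finset.card_le_card_of_injOn (fun i => i.val) (fun i hi => ?_)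
      (fun i _ j _ h => Fin.ext h)
    have h1 : i.val / q = a := (Finset.mem_filter.1 hi).2
    have h2 := Nat.div_add_mod i.val q
    have h3 := Nat.mod_lt i.val hq
    rw [h1] at h2
    simp only [Finset.coe_Ico, Set.mem_Ico]
    constructor
    · rw [← h2, mul_comm]; omega
    · rw [← h2, mul_comm]; omega
  rwa [Nat.card_Ico, Nat.add_sub_cancel_left] at h

section blk

variable {N l : ℕ} [NeZero N] [NeZero (N / l)] {b t : ℝ}

lemma qf_Lb (q : ℕ) (B : ℕ × ℕ) (r κ : ℝ) (j : Fin (N / l) × Fin (N / l)) :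
    qf (Rk r κ : Matrix (V (N / l)) (V (N / l)) ℝ) ((H30.Lb N l q B)ᵀ j) =
      if j.1.val / q = B.1 ∧ j.2.val / q = B.2 then gd (N / l) r κ else 0 := by
  set e : ℝ := if j.1.val / q = B.1 ∧ j.2.val / q = B.2 then 1 else 0 with he
  have h1 : (H30.Lb N l q B)ᵀ j = e • Pi.single ((H864.ce (N / l)).symm j) (1 : ℝ) := by
    funext c
    unfold H30.Lb
    simp only [Matrix.transpose_apply, Matrix.of_apply, Pi.smul_apply, smul_eq_mul]
    by_cases hc : H864.ce (N / l) c = j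
    · have : c = (H864.ce (N / l)).symm j := by rw [← hc, Equiv.symm_apply_apply]
      rw [if_pos hc, this, Pi.single_eq_same, mul_one, he]
    · have : c ≠ (H864.ce (N / l)).symm j := by
        intro h
        exact hc (by rw [h, Equiv.apply_symm_apply])
      rw [if_neg hc, Pi.single_eq_of_ne this, mul_zero]
  rw [h1, qf_smul, H859.qf_Rk_single, he]
  split_ifs <;> ring

/-- energy of the block noise -/
theorem block_energy (hb : 0 ≤ b) (hl : l ∣ N) (ht : 0 < t) {q : ℕ} (hq : 0 < q) (B : ℕ × ℕ)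
    (X : ℝ) :
    ∑ i, qf (t • (1 : Matrix (V N) (V N) ℝ) + kb b • lapM)⁻¹
        (((X * √t) • cobB N l q B)ᵀ i) ≤
      X ^ 2 * (t * ((q : ℝ) * l) ^ 2 * (1 / (t * (N : ℝ) ^ 2) +
        (1 + Real.log ((N / l : ℕ) : ℝ)) / kb b)) := by
  have hκ := kb_pos hb
  have hlp : (0 : ℝ) < l := by exact_mod_cast H864.l_pos hl
  have e1 : ∀ i, qf (t • (1 : Matrix (V N) (V N) ℝ) + kb b • lapM)⁻¹
      (((X * √t) • cobB N l q B)ᵀ i) ≤ X ^ 2 * t * (if i.1.val / q = B.1 ∧ i.2.val / q = B.2 then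
        gd (N / l) t (kb b / (l : ℝ) ^ 2) else 0) := by
    intro i
    have h1 : ((X * √t) • cobB N l q B)ᵀ i = (X * √t) • (cobV N l)ᵀ *ᵥ ((H30.Lb N l q B)ᵀ i) := by
      rw [H30.cobB_eq hl]
      funext x
      simp only [Matrix.transpose_apply, Matrix.smul_apply, Pi.smul_apply, smul_eq_mul,
        Matrix.mulVec, dotProduct, Matrix.mul_apply]
    rw [h1, qf_smul, mul_pow, Real.sq_sqrt ht.le]
    refine mul_le_mul_of_nonneg_left ?_ (by positivity)
    rw [← qf_Lb]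
    have h2 := H816.Hb_cell (N := N) (l := l) hl ht (le_refl t) hκ ((H30.Lb N l q B)ᵀ i)
    unfold H816.Hb at h2
    rwa [MC_self] at h2
  refine (Finset.sum_le_sum fun i _ => e1 i).trans ?_
  rw [← Finset.mul_sum, ← Finset.sum_filter, Finset.sum_const, nsmul_eq_mul]
  have h3 : ((univ : Finset (Fin (N / l) × Fin (N / l))).filter fun i =>
      i.1.val / q = B.1 ∧ i.2.val / q = B.2).card ≤ q * q := by
    have e : ((univ : Finset (Fin (N / l) × Fin (N / l))).filter fun i =>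
        i.1.val / q = B.1 ∧ i.2.val / q = B.2) =
        (univ.filter fun i : Fin (N / l) => i.val / q = B.1) ×ˢ
          (univ.filter fun i : Fin (N / l) => i.val / q = B.2) := by
      ext i
      simp [Finset.mem_product]
    rw [e, Finset.card_product]
    exact Nat.mul_le_mul (card_div_le _ q _ hq) (card_div_le _ q _ hq)
  have h4 : ((((univ : Finset (Fin (N / l) × Fin (N / l))).filter fun i =>
      i.1.val / q = B.1 ∧ i.2.val / q = B.2).card : ℕ) : ℝ) ≤ (q : ℝ) ^ 2 := by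
    have : ((((univ : Finset (Fin (N / l) × Fin (N / l))).filter fun i =>
      i.1.val / q = B.1 ∧ i.2.val / q = B.2).card : ℕ) : ℝ) ≤ ((q * q : ℕ) : ℝ) := by
      exact_mod_cast h3
    push_cast at this
    calc _ ≤ (q : ℝ) * q := this
      _ = (q : ℝ) ^ 2 := by ring
  have h5 := H859.gd_le (n := N / l) ht (κ := kb b / (l : ℝ) ^ 2) (by positivity)
  have h6 : 0 ≤ gd (N / l) t (kb b / (l : ℝ) ^ 2) := H859.gd_nonneg ht (by positivity)
  have hN : (0 : ℝ) < N := by exact_mod_cast NeZero.pos N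
  have e2 : 1 / (t * ((N / l : ℕ) : ℝ) ^ 2) + (1 + Real.log ((N / l : ℕ) : ℝ)) /
      (kb b / (l : ℝ) ^ 2) = (l : ℝ) ^ 2 * (1 / (t * (N : ℝ) ^ 2) +
        (1 + Real.log ((N / l : ℕ) : ℝ)) / kb b) := by
    have e : ((N / l : ℕ) : ℝ) = (N : ℝ) / l := by rw [Nat.cast_div hl hlp.ne']
    generalize Real.log ((N / l : ℕ) : ℝ) = y
    rw [e]
    field_simp
  rw [e2] at h5
  calc X ^ 2 * t * (((((univ : Finset (Fin (N / l) × Fin (N / l))).filter fun i =>
      i.1.val / q = B.1 ∧ i.2.val / q = B.2).card : ℕ) : ℝ) * gd (N / l) t (kb b / (l : ℝ) ^ 2))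
      ≤ X ^ 2 * t * ((q : ℝ) ^ 2 * ((l : ℝ) ^ 2 * (1 / (t * (N : ℝ) ^ 2) +
        (1 + Real.log ((N / l : ℕ) : ℝ)) / kb b))) := by
        refine mul_le_mul_of_nonneg_left ?_ (by positivity)
        exact mul_le_mul h4 h5 h6 (by positivity)
    _ = _ := by ring

/-- **block noise**: integer model from neutral model -/
theorem block_int (hb : 0 < b) (hl : l ∣ N) (ht : 0 < t) (x₀ : V N) {ω : ℝ}
    (hO : OscZ (wT b N) (t • (1 : Matrix (Tor N) (Tor N) ℝ)) ω) (hω0 : 0 < ω) (hω : ω ≤ 1 / 16)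
    {q : ℕ} (hq : 0 < q) (B : ℕ × ℕ) {X E δ p : ℝ} (hE : 0 < E)
    (hXE : X ^ 2 * (t * ((q : ℝ) * l) ^ 2 * (1 / (t * (N : ℝ) ^ 2) +
        (1 + Real.log ((N / l : ℕ) : ℝ)) / kb b)) ≤ E)
    (hp : (gau (Fin (N / l) × Fin (N / l))).real {g | δ < Rs (nwt N b t x₀)
      ((Pn : Matrix (V N) (V N) ℝ) *ᵥ (((X * √t) • cobB N l q B) *ᵥ g))} ≤ p) (a : ℝ) :
    (gau (Fin (N / l) × Fin (N / l))).real {g | δ + 4 * ω + (2308 * √ω + yt N b t) * a <
      Rs (wt N b t) (((X * √t) • cobB N l q B) *ᵥ g)} ≤ p + 2 * Real.exp (-(a / (4 * E))) :=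
  prob_int hb ht x₀ hO hω0 hω _ hE ((block_energy hb.le hl ht hq B X).trans hXE) hp a

end blk

/-- **the field `AP`** -/
theorem ap_of_neu {b t ω X E δ δ' p a : ℝ} {n r s : ℕ} (hb : 0 < b) (hsr : s ≤ r) (hsn : s ≤ n)
    (ht : 0 < t) (x₀ : V (2 ^ r))
    (hO : OscZ (wT b (2 ^ r)) (t • (1 : Matrix (Tor (2 ^ r)) (Tor (2 ^ r)) ℝ)) ω) (hω0 : 0 < ω)
    (hω : ω ≤ 1 / 16) (hE : 0 < E)
    (hXE : X ^ 2 * (t * (2 ^ n) ^ 2 * (1 / (t * (2 ^ r) ^ 2) +
        (1 + Real.log (2 ^ r / 2 ^ s)) / kb b)) ≤ E)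
    (hp : ∀ B : ℕ × ℕ, (gau (Fin (2 ^ r / 2 ^ s) × Fin (2 ^ r / 2 ^ s))).real
      {g | δ < Rs (nwt (2 ^ r) b t x₀) ((Pn : Matrix (V (2 ^ r)) (V (2 ^ r)) ℝ) *ᵥ
        (((X * √t) • cobB (2 ^ r) (2 ^ s) (2 ^ (n - s)) B) *ᵥ g))} ≤ p)
    (hδ : δ + 4 * ω + (2308 * √ω + yt (2 ^ r) b t) * a ≤ δ')
    (hfin : p + 2 * Real.exp (-(a / (4 * E))) ≤ 1 / 30) : AP b n r s X t δ' := by
  intro B
  haveI : NeZero (2 ^ r / 2 ^ s) := ⟨by
    rw [Nat.pow_div hsr two_pos]
    positivity⟩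
  have hl : 2 ^ s ∣ 2 ^ r := Nat.pow_dvd_pow 2 hsr
  have e1 : ((2 ^ (n - s) : ℕ) : ℝ) * ((2 ^ s : ℕ) : ℝ) = 2 ^ n := by
    push_cast
    rw [← pow_add]
    congr 1
    omega
  have e2 : ((2 ^ r / 2 ^ s : ℕ) : ℝ) = 2 ^ r / 2 ^ s := by
    rw [Nat.cast_div hl (by positivity)]
    push_cast
    rfl
  have h1 := block_int (N := 2 ^ r) (l := 2 ^ s) hb hl ht x₀ hO hω0 hω
    (q := 2 ^ (n - s)) (by positivity) B (X := X) hE (by
      rw [e1, e2]
      push_cast
      exact hXE) (hp B) a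
  refine le_trans (measureReal_mono fun g hg => ?_) (h1.trans hfin)
  exact lt_of_le_of_lt hδ hg

end

end Vale.Agent.P159.H145
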