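import Vale.Agent.P159.H145.Pair

/-!
P159 / second order flow, module LOC2, abstract part (helper145): the neutral functional under
constants, the bridge between `T⁰` and `T` in the background `F + c`, and localisation of second
differences of the neutral functional.
-/

namespace Vale.Agent.P159.H145

open MeasureTheory Set intervalIntegral Finset
open Vale.Agent.P159.TM.H104 (EM Lg)
open Vale.Agent.P159.H37

variable {V : Type*} [Fintype V] {w : (V → ℤ) → ℝ} {M : Matrix V V ℝ}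

/-- the weight does not see integer constants -/
def Per (w : (V → ℤ) → ℝ) : Prop := ∀ h, w (h + 1) = w h

/-- `Z_M` is one-periodic in constants -/
lemma ZM_per (hw : Per w) (F : V → ℝ) : ZM w M (cs F 1) = ZM w M F := by
  have h1 := (Equiv.addRight (1 : V → ℤ)).tsum_eq
    (fun h => w h * Real.exp (-(qf M (re h - cs F 1) / 2)))
  have h2 : ∀ h : V → ℤ, w ((Equiv.addRight (1 : V → ℤ)) h) *
      Real.exp (-(qf M (re ((Equiv.addRight (1 : V → ℤ)) h) - cs F 1) / 2)) =
      w h * Real.exp (-(qf M (re h - F) / 2)) := by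
    intro h
    have e : re (h + 1) - cs F 1 = re h - F := by
      funext x
      simp only [re, cs, Pi.sub_apply, Pi.add_apply, Pi.one_apply, Int.cast_add, Int.cast_one]
      ring
    rw [Equiv.coe_addRight, hw h, e]
  unfold ZM
  rw [← h1]
  exact tsum_congr h2

omit [Fintype V] in
lemma cs_cs (F : V → ℝ) (c d : ℝ) : cs (cs F c) d = cs F (c + d) := by
  funext x
  simp only [cs]
  ring

omit [Fintype V] in
lemma cs_zero (F : V → ℝ) : cs F 0 = F := by
  funext x
  simp only [cs, add_zero]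

omit [Fintype V] in
lemma smul_cs (a : ℝ) (F : V → ℝ) (c : ℝ) : a • cs F c = cs (a • F) (a * c) := by
  funext x
  simp only [cs, Pi.smul_apply, smul_eq_mul]
  ring

lemma ZM_periodic (hw : Per w) (F : V → ℝ) : Function.Periodic (fun c => ZM w M (cs F c)) 1 := by
  intro c
  show ZM w M (cs F (c + 1)) = ZM w M (cs F c)
  rw [← cs_cs]
  exact ZM_per hw _

/-- the neutral partition function does not see real constants -/
theorem Zn_cs (hw : Per w) (F : V → ℝ) (c : ℝ) : Zn w M (cs F c) = Zn w M F := by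
  have h1 : Zn w M (cs F c) = ∫ s in (0 : ℝ)..1, ZM w M (cs F (c + s)) := by
    unfold Zn
    refine intervalIntegral.integral_congr fun s _ => ?_
    show ZM w M (cs (cs F c) s) = _
    rw [cs_cs]
  have h2 : ∫ s in (0 : ℝ)..1, ZM w M (cs F (c + s)) = ∫ s in c..c + 1, ZM w M (cs F s) := by
    have := intervalIntegral.integral_comp_add_left (a := (0 : ℝ)) (b := 1)
      (fun s => ZM w M (cs F s)) c
    rw [add_zero] at this
    exact this
  rw [h1, h2, (ZM_periodic hw F).intervalIntegral_add_eq c 0, zero_add]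
  rfl

theorem L0_cs (hw : Per w) (F : V → ℝ) (c : ℝ) : L0 w M (cs F c) = L0 w M F := by
  unfold L0
  rw [Zn_cs hw]

/-- the oscillation bound for every real constant -/
theorem OscZ.all (hw : Per w) {ω : ℝ} (hO : OscZ w M ω) (F : V → ℝ) (c : ℝ) :
    |ZM w M (cs F c) - Zn w M F| ≤ ω * Zn w M F := by
  have h1 := hO F (Int.fract c) ⟨Int.fract_nonneg c, (Int.fract_lt_one c).le⟩
  have h2 : ZM w M (cs F (Int.fract c)) = ZM w M (cs F c) := by
    have h3 := (ZM_periodic (M := M) hw F).int_mul ⌊c⌋ (Int.fract c)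
    simp only [mul_one] at h3
    rw [← h3, Int.fract_add_floor]
  rw [h2] at h1
  exact h1

lemma log_one_add_abs {x : ℝ} {ω : ℝ} (hx : |x| ≤ ω) (hω : ω ≤ 1 / 2) :
    |Real.log (1 + x)| ≤ 2 * ω := by
  have h0 := abs_le.1 hx
  have h2 : (0 : ℝ) < 1 + x := by linarith
  rw [abs_le]
  constructor
  · have h3 := log_one_add_ge (hx.trans hω)
    have h4 : x ^ 2 ≤ ω ^ 2 := by
      rw [← sq_abs]
      exact pow_le_pow_left₀ (abs_nonneg _) hx 2
    nlinarith [h0.1, h0.2]
  · have h3 := Real.log_le_sub_one_of_pos h2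
    have h5 : 0 ≤ ω := (abs_nonneg _).trans hx
    linarith [h0.2]

/-- the free energy in the background `F + c` against the neutral one: `≤ 2 ω` -/
theorem LM_sub_L0 (hw : Per w) (hM : M.transpose = M) (hE : EM (wM w M)) {ω : ℝ}
    (hO : OscZ w M ω) (hω : ω ≤ 1 / 2) (F : V → ℝ) (c : ℝ) :
    |LM w M (cs F c) - L0 w M F| ≤ 2 * ω := by
  have h0 := Zn_pos hM hE F
  have h1 := ZM_pos hM hE (cs F c)
  have h2 : |ZM w M (cs F c) / Zn w M F - 1| ≤ ω := by
    have h3 : ZM w M (cs F c) / Zn w M F - 1 = (ZM w M (cs F c) - Zn w M F) / Zn w M F := by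
      field_simp
    rw [h3, abs_div, abs_of_pos h0, div_le_iff₀ h0]
    exact hO.all hw F c
  have h4 := log_one_add_abs h2 hω
  unfold LM L0
  rw [← Real.log_div h1.ne' h0.ne']
  rwa [show 1 + (ZM w M (cs F c) / Zn w M F - 1) = ZM w M (cs F c) / Zn w M F by ring] at h4

/-- `T` of the source `M F` in background letters -/
theorem Tq_bg (hM : M.transpose = M) (hE : EM (wM w M)) (F : V → ℝ) :
    Tq (wM w M) (M.mulVec F) = LM w M ((2 : ℝ) • F) - 4 * LM w M F + 3 * LM w M 0 := by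
  unfold Tq
  rw [LM_eq hM hE, LM_eq hM hE, LM_eq hM hE, qf_smul, Matrix.mulVec_smul, Matrix.mulVec_zero,
    qf_zero_vec]
  ring

/-- **(T versus T⁰)** in every background `F + c` -/
theorem Tq_le_T0 (hw : Per w) (hM : M.transpose = M) (hE : EM (wM w M)) {ω : ℝ}
    (hO : OscZ w M ω) (hω : ω ≤ 1 / 2) (F : V → ℝ) (c : ℝ) :
    |Tq (wM w M) (M.mulVec (cs F c)) - T0 w M F| ≤ 16 * ω := by
  rw [Tq_bg hM hE, smul_cs]
  have a1 := abs_le.1 (LM_sub_L0 hw hM hE hO hω ((2 : ℝ) • F) (2 * c))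
  have a2 := abs_le.1 (LM_sub_L0 hw hM hE hO hω F c)
  have a3 := abs_le.1 (LM_sub_L0 hw hM hE hO hω (0 : V → ℝ) 0)
  rw [cs_zero] at a3
  unfold T0
  rw [abs_le]
  constructor <;> linarith [a1.1, a1.2, a2.1, a2.2, a3.1, a3.2]

/-- `T⁰` does not see constants -/
theorem T0_cs (hw : Per w) (F : V → ℝ) (c : ℝ) : T0 w M (cs F c) = T0 w M F := by
  unfold T0
  rw [smul_cs, L0_cs hw, L0_cs hw]

/-- second differences of the neutral functional, localised: `u` is the far part of the field -/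
theorem loc2 (hM : M.transpose = M) (hE : EM (wM w M)) {ω ε : ℝ} (hO : OscZ w M ω)
    (hω : ω ≤ 1 / 2) (F u g : V → ℝ)
    (h1 : ∀ c ∈ Icc (0 : ℝ) 1, |LM w M (cs (F + u + g) c) - LM w M (cs (F + u) c) -
      LM w M (cs (F + g) c) + LM w M (cs F c)| ≤ ε)
    (h2 : ∀ c ∈ Icc (0 : ℝ) 1, |LM w M (cs (F + u + -g) c) - LM w M (cs (F + u) c) -
      LM w M (cs (F + -g) c) + LM w M (cs F c)| ≤ ε) :
    |(L0 w M (F + u + g) + L0 w M (F + u - g) - 2 * L0 w M (F + u)) -
      (L0 w M (F + g) + L0 w M (F - g) - 2 * L0 w M F)| ≤ 2 * ε + 16 * ω ^ 2 := by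
  have a1 := abs_le.1 (pair hM hE hO hω F u g h1)
  have a2 := abs_le.1 (pair hM hE hO hω F u (-g) h2)
  rw [← sub_eq_add_neg, ← sub_eq_add_neg] at a2
  rw [abs_le]
  constructor <;> linarith [a1.1, a1.2, a2.1, a2.2]

end Vale.Agent.P159.H145
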