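import Vale.Agent.P159.H773.Sk4

/-!
P159 (helper145), S glue with knowledge inside the window, part 1: the level `j` may use, for the pair
`R`, the relation for all pairs of the windows below and for all pairs `R' < R` of the same window.
The window maps are arbitrary.
-/

open MeasureTheory Filter Topology Finset Matrix

set_option linter.all false

namespace Vale.Agent.P159.H145.Lw

open Vale.Agent.P159.TM.Spec (V)
open Vale.Agent.P159.TM.SpecC (wT)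
open Vale.Agent.P159.H552.Dx7 (kk nx RawCc xy_amp_Cc invS)
open Vale.Agent.P159.H801 (itw T3 itw_succ)
open Vale.Agent.P159.H264 (kap)
open Vale.Agent.P159.H686 (Lcl Cmp Stp Sml Chain al dst dst_nonneg xfer one_level int_sub_sq
  abs_sub_one_le)
open Vale.Agent.P159.H883 (nuM Psi BW Zp CT)
open Vale.Agent.P159.H708 (Bx)
open Vale.Agent.P159.H770 (wTD Ed)
open Vale.Agent.P159.H817 (eD)
open Vale.Agent.P159.H27 (Rb BelR Num Lev er rec_upto)
open Vale.Agent.P159.H773 (nuF PsF cMn cMn_pos Blw ej Sma sd Pth cMn_pt cT0 eD_en SIn ej_le)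

noncomputable section

/-! ### the abstract relation, with the base fields only at the last level -/

section abs

variable {Ω Ω' X : ℕ → Type} [∀ i, MeasurableSpace (Ω i)] [∀ i, MeasurableSpace (Ω' i)]
  [∀ i, MeasurableSpace (X i)] {ν : ∀ i, Measure (Ω i)} {ν' : ∀ i, Measure (Ω' i)}
  {Ψ : ∀ i, Ω i → ℝ} {Ψ' : ∀ i, Ω' i → ℝ} {c κ : ℕ → ℝ} {w : ∀ i, Ω i → X i}
  {w' : ∀ i, Ω' i → X i} {G : ∀ i, X i → ℝ} {Gd : ∀ i, Set (Ω i)} {Gd' : ∀ i, Set (Ω' i)}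
  {ε δ q b L h τ η κP bW : ℕ → ℝ}

/-- the distance at level `i`, from the levels `< i` and the base pair of level `i` -/
theorem dst_uptoW (N : Num Ω Ω' ν ν' ε δ q b L h τ η κP bW) (i : ℕ)
    (C : ∀ j < i, Lev Ω Ω' X ν ν' Ψ Ψ' c κ w w' G Gd Gd' δ q b L h τ η κP bW j)
    (Ci : Lcl (ν i) (Ψ i) (c i) (c i) (w i) (G i) (Gd i) (L i) (δ i) (q i) (b i)) :
    dst (ν i) (w i) (G i) ≤ (1 / 4) ^ i * L 0 + 184 * ε i := by
  have hloc : ∀ j ≤ i, Lcl (ν j) (Ψ j) (c j) (c j) (w j) (G j) (Gd j) (L j) (δ j) (q j) (b j) := by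
    intro j hj
    rcases Nat.lt_or_ge j i with h1 | h1
    · exact (C j h1).loc
    · obtain rfl : j = i := le_antisymm hj h1
      exact Ci
  have hα0 : ∀ i, 0 ≤ al (κP i) (η i) := fun i => by
    have := (N.sml i).η0
    have := (N.sml i).κ0
    unfold al
    positivity
  have hrec : ∀ j < i, dst (ν (j + 1)) (w (j + 1)) (G (j + 1))
      ≤ (5 * al (κP j) (η j) + 4 * ε j) * dst (ν j) (w j) (G j) + 45 * ε j + 2 * ε (j + 1) := by
    intro j hj
    have := N.pr j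
    have := N.pr' j
    have := N.pr (j + 1)
    have S := N.sml j
    have Sp := N.sml (j + 1)
    have Cj := C j hj
    have Cp := hloc (j + 1) hj
    obtain ⟨r1, r2, _, _⟩ := xfer Cj.loc Cj.loc' Cj.cmp S.L1 S.δ0 S.q0 S.h0 S.τ0 S.sm
    have hα : al (κP j) (η j) ≤ 1 := by
      have := N.alp j
      have := S.ε0
      linarith
    obtain ⟨s1, s2⟩ := S.step (D := dst (ν j) (w j) (G j)) (δp := δ (j + 1)) (εp := ε (j + 1))
      dst_nonneg (abs_nonneg _) r2 r1 hα Sp.δε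
    have h1 := one_level Cj.loc Cj.loc' Cj.cmp Cj.stp Cp S.L1 Sp.L1 S.δ0 Sp.δ0
      (by linarith [Sp.δε, Sp.ε1]) S.q0 S.h0 S.κ0 S.η0 S.τ0 S.sm le_rfl s1
    exact h1.trans s2
  have hD0 : dst (ν 0) (w 0) (G 0) ≤ L 0 := by
    have := N.pr 0
    have H := hloc 0 (Nat.zero_le i)
    have S := N.sml 0
    unfold dst
    rw [Real.sqrt_le_left H.L0]
    have hI := int_sub_sq (ν := ν 0) H.Gm H.wm H.G0 H.Gb S.L1
    calc ∫ x, (G 0 (w 0 x) - 1) ^ 2 ∂(ν 0) ≤ ∫ _, L 0 ^ 2 ∂(ν 0) := by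
          refine integral_mono hI (integrable_const _) fun x => ?_
          simp only
          rw [← sq_abs]
          exact pow_le_pow_left₀ (abs_nonneg _) (abs_sub_one_le S.L1 (H.G0 _) (H.Gb _)) 2
      _ = L 0 ^ 2 := by simp
  have h := rec_upto (D := fun i => dst (ν i) (w i) (G i)) (ε := ε)
    (θ := fun i => 5 * al (κP i) (η i) + 4 * ε i)
    (fun i => by
      have := hα0 i
      have := (N.sml i).ε0
      positivity) N.alp (fun i => (N.sml i).ε0) N.slow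
    (by
      have := N.pr 0
      exact dst_nonneg) i hrec
  refine h.trans ?_
  have := mul_le_mul_of_nonneg_left hD0 (by positivity : (0 : ℝ) ≤ (1 / 4) ^ i)
  linarith

/-- the relation at level `i` for any other pair, from the levels `< i` and the base pair -/
theorem rel_uptoW (N : Num Ω Ω' ν ν' ε δ q b L h τ η κP bW) (i : ℕ)
    (C : ∀ j < i, Lev Ω Ω' X ν ν' Ψ Ψ' c κ w w' G Gd Gd' δ q b L h τ η κP bW j)
    (Ci : Lcl (ν i) (Ψ i) (c i) (c i) (w i) (G i) (Gd i) (L i) (δ i) (q i) (b i))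
    {ΩR : Type} [MeasurableSpace ΩR] {νR : Measure ΩR} [IsProbabilityMeasure νR]
    {ΨR : ΩR → ℝ} {cR κR : ℝ} {wR : ΩR → X i} {GdR : Set ΩR}
    (HR : Lcl νR ΨR cR κR wR (G i) GdR (L i) (δ i) (q i) (b i))
    (hc : Cmp (ν i) νR (w i) wR (h i) (τ i)) :
    |Real.log cR - Real.log κR| ≤ er ε h L i := by
  have := N.pr i
  have S := N.sml i
  obtain ⟨r1, r2, _, _⟩ := xfer Ci HR hc S.L1 S.δ0 S.q0 S.h0 S.τ0 S.sm
  have r3 := S.err r1
  have r4 : h i * min (dst (ν i) (w i) (G i)) 3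
      ≤ h i * min ((1 / 4) ^ i * L 0 + 184 * ε i) 3 :=
    mul_le_mul_of_nonneg_left (min_le_min_right _ (dst_uptoW N i C Ci)) S.h0
  have hp : 0 < cR / κR := div_pos HR.hc HR.hκ
  rw [← Real.log_div HR.hc.ne' HR.hκ.ne']
  have hlow : 5 / 8 ≤ cR / κR := by
    have := (abs_le.1 r2).1
    linarith
  have hlog : |Real.log (cR / κR)| ≤ 2 * |cR / κR - 1| := by
    rw [abs_le]
    constructor
    · have h1 := Real.one_sub_inv_le_log_of_pos hp
      have h2 : -(2 * |cR / κR - 1|) ≤ 1 - (cR / κR)⁻¹ := by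
        have e : 1 - (cR / κR)⁻¹ = (cR / κR)⁻¹ * (cR / κR - 1) := by
          rw [mul_sub, inv_mul_cancel₀ hp.ne', mul_one]
        have hi : (cR / κR)⁻¹ ≤ 2 := by
          rw [inv_le_comm₀ hp (by norm_num)]
          linarith
        have hi0 : 0 < (cR / κR)⁻¹ := inv_pos.2 hp
        rw [e]
        have h3 := neg_abs_le (cR / κR - 1)
        have h4 := abs_nonneg (cR / κR - 1)
        nlinarith
      linarith
    · have h1 := Real.log_le_sub_one_of_pos hp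
      have := le_abs_self (cR / κR - 1)
      have := abs_nonneg (cR / κR - 1)
      linarith
  refine hlog.trans ?_
  unfold er
  linarith

end abs

/-! ### one level -/

section fam

variable (b : ℝ) (Nf : ℕ → ℕ) [∀ R, NeZero (Nf R)]

/-- **inputs of one level**, window maps `W R`, knowledge `K R'` (the relation at the pair `R'`) for the
pairs below `R` in the window -/
structure LvW (wD : ∀ R, (V (Nf R) → ℤ) → ℝ) (φ : ∀ R, V (Nf R) → ℝ) (e : ℕ → ℝ)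
    (t t' a : ℝ) (R0 R1 D : ℕ) (W : ∀ R, (V (Nf R) → ℝ) → Bx D ⊕ Bx D → ℝ)
    (G : (Bx D ⊕ Bx D → ℝ) → ℝ) (δ q bb Λ h τ η κP bW : ℝ) (K : ℕ → Prop) : Prop where
  loc : ∀ R, R0 ≤ R → R ≤ R1 → (∀ R', R0 ≤ R' → R' < R → K R') →
    ∃ Gd : Set (V (Nf R) → ℝ),
    Lcl (nuF b Nf t R) (PsF b Nf wD φ t R) (cMn b Nf wD R)
      (cMn b Nf wD R0 * Real.exp (-(a / 2 * (e R - e R0)))) (W R) G Gd Λ δ q bb
  cmp : ∀ R, R0 ≤ R → R ≤ R1 → (∀ R', R0 ≤ R' → R' < R → K R') →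
    Cmp (nuF b Nf t R0) (nuF b Nf t R) (W R0) (W R) h τ
  stp : (∀ R', R0 ≤ R' → R' < R1 → K R') →
    Stp (nuF b Nf t R1) (nuF b Nf t' R1) (PsF b Nf wD φ t R1) (PsF b Nf wD φ t' R1)
    (cMn b Nf wD R1) (W R1) κP η bW

end fam

section chain

variable {b : ℝ} {Nf : ℕ → ℕ} [∀ R, NeZero (Nf R)]
variable {wD : ∀ R, (V (Nf R) → ℤ) → ℝ} {φ : ∀ R, V (Nf R) → ℝ} {e a : ℕ → ℝ}
variable {k w : ℕ → ℕ} {n0 : ℕ} {t : ℕ → ℝ} {D : ℕ → ℕ}
variable {W : ∀ j R, (V (Nf R) → ℝ) → Bx (D j) ⊕ Bx (D j) → ℝ}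
variable {G : ∀ j, (Bx (D j) ⊕ Bx (D j) → ℝ) → ℝ} {ε δ q bb Λ h τ η κP bW : ℕ → ℝ}

/-- the relation at the pair `R` of the window `j` -/
def RelJ (b : ℝ) (Nf : ℕ → ℕ) [∀ R, NeZero (Nf R)] (wD : ∀ R, (V (Nf R) → ℤ) → ℝ)
    (e a : ℕ → ℝ) (k w : ℕ → ℕ) (n0 : ℕ) (F : ℕ → ℝ) (j R : ℕ) : Prop :=
  |Real.log (cMn b Nf wD R) - Real.log (cMn b Nf wD (Rb k w n0 j)) +
    a (itw w n0 j) / 2 * (e R - e (Rb k w n0 j))| ≤ F j

/-- **the relation at every level, from level-wise inputs which may use the relation below,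
also inside the window** -/
theorem stat_of_lvW (hb : 0 < b) (ht : ∀ j, 0 < t j) (hD : ∀ R, BW (wD R))
    (hmono : ∀ j, Rb k w n0 j ≤ Rb k w n0 (j + 1))
    (hL : ∀ j, Blw b Nf wD e a k w n0 (ej ε h Λ) j →
      LvW b Nf wD φ e (t j) (t (j + 1)) (a (itw w n0 j)) (Rb k w n0 j)
      (Rb k w n0 (j + 1)) (D j) (W j) (G j) (δ j) (q j) (bb j) (Λ j) (h j) (τ j) (η j)
      (κP j) (bW j) (RelJ b Nf wD e a k w n0 (ej ε h Λ) j))
    (sml : ∀ i, Sml (ε i) (δ i) (q i) (bb i) (Λ i) (h i) (τ i) (η i) (κP i) (bW i)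
      (Λ (i + 1)) (bb (i + 1)))
    (alp : ∀ i, 5 * al (κP i) (η i) + 4 * ε i ≤ 1 / 4)
    (slow : ∀ i, ε i ≤ 2 * ε (i + 1)) (j : ℕ) :
    Blw b Nf wD e a k w n0 (ej ε h Λ) j := by
  classical
  have hpr : ∀ (s : ℝ), 0 < s → ∀ R, IsProbabilityMeasure (nuF b Nf s R) := fun s hs R =>
    H883.prob_nuM (H963.gw_wT hb.le) (H883.bw_wT hb) (H883.mf_scalar hs) 0
  set Rj : ℕ → ℕ := fun j => Rb k w n0 j with hRj
  have hcp := cMn_pos (b := b) (Nf := Nf) hb hD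
  -- the good set of the pair `R` at level `j`
  let P : ∀ j R, Set (V (Nf R) → ℝ) → Prop := fun j R Gd =>
    Lcl (nuF b Nf (t j) R) (PsF b Nf wD φ (t j) R) (cMn b Nf wD R)
      (cMn b Nf wD (Rj j) * Real.exp (-(a (itw w n0 j) / 2 * (e R - e (Rj j)))))
      (W j R) (G j) Gd (Λ j) (δ j) (q j) (bb j)
  let Gd : ∀ j R, Set (V (Nf R) → ℝ) := fun j R =>
    if hx : ∃ Gd, P j R Gd then Classical.choose hx else ∅
  have hGd : ∀ j R, (∃ Gd, P j R Gd) → P j R (Gd j R) := fun j R hx => by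
    have : Gd j R = Classical.choose hx := dif_pos hx
    rw [this]
    exact Classical.choose_spec hx
  have N : Num (fun j => V (Nf (Rj j)) → ℝ) (fun j => V (Nf (Rj (j + 1))) → ℝ)
      (fun j => nuF b Nf (t j) (Rj j)) (fun j => nuF b Nf (t j) (Rj (j + 1)))
      ε δ q bb Λ h τ η κP bW :=
    ⟨fun i => hpr _ (ht i) _, fun i => hpr _ (ht i) _, sml, alp, slow⟩
  -- the property of the level `i`
  let LV : ℕ → Prop := fun i =>
      Lev (fun j => V (Nf (Rj j)) → ℝ) (fun j => V (Nf (Rj (j + 1))) → ℝ)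
      (fun j => Bx (D j) ⊕ Bx (D j) → ℝ) (fun j => nuF b Nf (t j) (Rj j))
      (fun j => nuF b Nf (t j) (Rj (j + 1))) (fun j => PsF b Nf wD φ (t j) (Rj j))
      (fun j => PsF b Nf wD φ (t j) (Rj (j + 1))) (fun j => cMn b Nf wD (Rj j))
      (fun j => cMn b Nf wD (Rj j) *
        Real.exp (-(a (itw w n0 j) / 2 * (e (Rj (j + 1)) - e (Rj j)))))
      (fun j => W j (Rj j)) (fun j => W j (Rj (j + 1))) G
      (fun j => Gd j (Rj j)) (fun j => Gd j (Rj (j + 1)))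
      δ q bb Λ h τ η κP bW i
  have key : ∀ i, LV i ∧ ∀ R, Rj i ≤ R → R ≤ Rj (i + 1) →
      RelJ b Nf wD e a k w n0 (ej ε h Λ) i R := by
    intro i
    induction i using Nat.strong_induction_on with
    | _ i ih =>
      have hB : Blw b Nf wD e a k w n0 (ej ε h Λ) i := fun m hm R h1 h2 => (ih m hm).2 R h1 h2
      have hLi := hL i hB
      have base : P i (Rj i) (Gd i (Rj i)) :=
        hGd i (Rj i) (hLi.loc (Rj i) le_rfl (hmono i) fun R' h1 h2 => absurd h2 (not_lt.2 h1))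
      have base' : Lcl (nuF b Nf (t i) (Rj i)) (PsF b Nf wD φ (t i) (Rj i)) (cMn b Nf wD (Rj i))
          (cMn b Nf wD (Rj i)) (W i (Rj i)) (G i) (Gd i (Rj i)) (Λ i) (δ i) (q i) (bb i) := by
        have e1 : cMn b Nf wD (Rj i) * Real.exp (-(a (itw w n0 i) / 2 *
            (e (Rj i) - e (Rj i)))) = cMn b Nf wD (Rj i) := by simp
        have h3 := base
        simp only [P] at h3
        rw [e1] at h3
        exact h3
      -- the relation for all pairs of the window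
      have rel : ∀ R, Rj i ≤ R → R ≤ Rj (i + 1) → RelJ b Nf wD e a k w n0 (ej ε h Λ) i R := by
        intro R
        induction R using Nat.strong_induction_on with
        | _ R ihR =>
          intro h1 h2
          have hK : ∀ R', Rj i ≤ R' → R' < R → RelJ b Nf wD e a k w n0 (ej ε h Λ) i R' :=
            fun R' a1 a2 => ihR R' a2 a1 (a2.le.trans h2)
          obtain ⟨GdR, hGR⟩ := hLi.loc R h1 h2 hK
          have hc := hLi.cmp R h1 h2 hK
          haveI := hpr (t i) (ht i) R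
          have h3 := rel_uptoW N i (fun m hm => (ih m hm).1) base' hGR hc
          rw [Real.log_mul (hcp _).ne' (Real.exp_pos _).ne', Real.log_exp] at h3
          unfold RelJ
          refine le_of_eq_of_le ?_ h3
          congr 1
          ring
      refine ⟨⟨base', ?_, ?_, ?_⟩, rel⟩
      · exact hGd i (Rj (i + 1)) (hLi.loc (Rj (i + 1)) (hmono i) le_rfl
          fun R' a1 a2 => rel R' a1 a2.le)
      · exact hLi.cmp (Rj (i + 1)) (hmono i) le_rfl fun R' a1 a2 => rel R' a1 a2.le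
      · exact hLi.stp fun R' a1 a2 => rel R' a1 a2.le
  exact fun m hm R h1 h2 => (key m).2 R h1 h2

/-- **all inputs of S at one ratio**, with the relation below (also inside the window) as knowledge -/
structure SInW (b : ℝ) (Nf : ℕ → ℕ) [∀ R, NeZero (Nf R)] (wD : ∀ R, (V (Nf R) → ℤ) → ℝ)
    (φ : ∀ R, V (Nf R) → ℝ) (e x y a : ℕ → ℝ) (k w : ℕ → ℕ) (n0 : ℕ) (c' : ℝ) : Prop where
  ex : ∃ (t : ℕ → ℝ) (D : ℕ → ℕ) (W : ∀ j R, (V (Nf R) → ℝ) → Bx (D j) ⊕ Bx (D j) → ℝ)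
    (G : ∀ j, (Bx (D j) ⊕ Bx (D j) → ℝ) → ℝ)
    (ε δ q bb Λ h τ η κP bW : ℕ → ℝ), (∀ j, 0 < t j) ∧
    (∀ j, Blw b Nf wD e a k w n0 (ej ε h Λ) j →
      LvW b Nf wD φ e (t j) (t (j + 1)) (a (itw w n0 j)) (Rb k w n0 j)
      (Rb k w n0 (j + 1)) (D j) (W j) (G j) (δ j) (q j) (bb j) (Λ j) (h j) (τ j) (η j)
      (κP j) (bW j) (RelJ b Nf wD e a k w n0 (ej ε h Λ) j)) ∧
    (∀ i, Sml (ε i) (δ i) (q i) (bb i) (Λ i) (h i) (τ i) (η i) (κP i) (bW i)
      (Λ (i + 1)) (bb (i + 1))) ∧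
    (∀ i, 5 * al (κP i) (η i) + 4 * ε i ≤ 1 / 4) ∧ (∀ i, ε i ≤ 2 * ε (i + 1)) ∧
    Sma y w n0 c' ε h Λ
  bw : ∀ R, BW (wD R)
  c0 : 0 < c'
  mono : ∀ j, Rb k w n0 j ≤ Rb k w n0 (j + 1)
  kw : ∀ᶠ j in atTop, k (nx w (itw w n0 j)) ≤ 3 * w (itw w n0 j)
  av : ∀ᶠ n in atTop, |a n - invS x n| ≤ y n ^ (1 + c')

/-- **the level free inputs of 552 from `SInW`** -/
theorem SInW.raw (hb : 0 < b) {x y : ℕ → ℝ} {c' C0 : ℝ}
    (H : SInW b Nf wD φ e x y a k w n0 c')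
    (en : ∀ᶠ R : ℕ in atTop, |e R - 1 / Real.pi * Real.log R| ≤ C0) :
    RawCc (fun R => Real.log (cMn b Nf wD R)) e a x y k w n0 c' C0 := by
  obtain ⟨t, D, W, G, ε, δ, q, bb, Λ, h, τ, η, κP, bW, ht, hL, sml, alp, slow, hS⟩ := H.ex
  have hst := stat_of_lvW hb ht H.bw H.mono hL sml alp slow
  refine ⟨H.c0, H.kw, Eventually.of_forall fun j => ?_, H.av, en, ?_⟩
  · have h1 := H.mono j
    unfold Rb at h1
    rw [itw_succ] at h1
    exact (Nat.pow_le_pow_iff_right (by norm_num)).1 h1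
  · filter_upwards [ej_le hS.ε0 hS.h0 hS.h1 hS.εy hS.Λy] with j hj R h1 h2
    have h3 := hst (j + 1) j (Nat.lt_succ_self j) R h1 (by
      unfold Rb
      rw [itw_succ]
      exact h2)
    exact h3.trans hj

end chain

/-- **THE AMPLITUDE THEOREM FROM THE CONDITIONAL LEVEL-WISE INPUTS** (point cores, knowledge inside
the window) -/
theorem xy_amp_SInW {b : ℝ} (hb : 0 < b) {x y : ℕ → ℝ} {i1 : ℕ}
    (hF : ∀ i, i1 ≤ i → ∃ (c r q B A : ℝ) (w : ℕ → ℕ) (n1 n0 : ℕ) (a : ℕ → ℝ) (k : ℕ → ℕ)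
      (c' : ℝ) (η : ∀ R, Ed (sd i R) → ℤ) (φ : ∀ R, V (sd i R) → ℝ),
      T3 x y kap c r q B A w n1 ∧ n1 ≤ n0 ∧ Pth i η ∧
      SInW b (sd i) (fun R => wTD (sd i R) b (η R)) φ (fun R => eD (sd i R) R) x y a k w n0 c') :
    ∃ a : ℝ, 0 < a ∧ Tendsto (fun r : ℕ => corrInf b ((r : ℤ), 0) /
      ((r : ℝ) ^ (-(1 / 4) : ℝ) * Real.log r ^ (1 / 8 : ℝ))) atTop (𝓝 a) := by
  refine xy_amp_Cc hb (x := x) (y := y) (i1 := max i1 1) fun i hi => ?_
  obtain ⟨c, r, q, B, A, w, n1, n0, a, k, c', η, φ, hT, h01, hη, hS⟩ :=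
    hF i ((le_max_left _ _).trans hi)
  have hi1 : 1 ≤ i := (le_max_right _ _).trans hi
  have hN : ∀ᶠ R : ℕ in atTop, 2 * R ≤ sd i R := Eventually.of_forall fun R => by
    have h3 : 2 ^ 1 ≤ 2 ^ i := Nat.pow_le_pow_right (by norm_num) hi1
    exact (Nat.mul_le_mul_right R (by simpa using h3)).trans (H773.sd_ge i R)
  obtain ⟨C0, hC0⟩ := eD_en hN
  have hR := hS.raw hb hC0
  refine ⟨c, r, q, B, A, w, n1, n0, a, k, c', C0, sd i, hT, h01,
    Eventually.of_forall fun R => by exact_mod_cast H773.sd_ge i R, ?_⟩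
  refine ⟨hR.c0, hR.kw, hR.k1, hR.av, hR.en, ?_⟩
  filter_upwards [hR.stat] with j hj R h1 h2
  have h0 : 1 ≤ 2 ^ kk k (itw w n0 j) := Nat.one_le_two_pow
  have h3 := hj R h1 h2
  rw [cMn_pt hb.le hi1 hη (h0.trans h1), cMn_pt hb.le hi1 hη h0] at h3
  exact h3

end

end Vale.Agent.P159.H145.Lw
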