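import Vale.Agent.P159.H145.Lw1
import Vale.Agent.P159.H37.Sf4

/-!
P159 (helper145), S glue with knowledge inside the window, part 2: the price bound at all distances up
to a multiple of the pair `R` of the window.
-/

open Filter Topology Finset

set_option linter.all false

namespace Vale.Agent.P159.H145.Lw

open Vale.Agent.P159.TM.Spec (V)
open Vale.Agent.P159.H552.Dx7 (kk nx invS)
open Vale.Agent.P159.H801 (itw T3 Fl Wn itw_succ itw_zero itw_ge itw_tend rp_cmp SFlow xa Bw)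
open Vale.Agent.P159.H770 (wTD Ed)
open Vale.Agent.P159.H817 (eD)
open Vale.Agent.P159.H27 (Rb BelR Slo Rb_pos)
open Vale.Agent.P159.H773 (sd Pth de cT0)
open Vale.Agent.P159.H253.Rec (RecAt ga ua rec_prop ga_nonneg ga_anti ua_nonneg ua_anti ga_le_ua)
open Vale.Agent.P159.H37.Sf (Lc Dsl Kn KnR)

noncomputable section

/-- axis log convexity of the two point function -/
def Mid (b : ℝ) : Prop := ∀ m n : ℕ, ga b (m + n) ^ 2 ≤ ga b (2 * m) * ga b (2 * n)

section up

variable {b β C1 : ℝ}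

lemma RecAt_half (hb : 0 ≤ b) (hβ0 : 0 ≤ β) (hβ1 : β ≤ 1) (hC1 : 1 ≤ C1) {T U d : ℕ} (hT : 16 ≤ T)
    (hU : U = T / 2) (hd : d = U / 2) (h : RecAt b β C1 T) :
    ga b (2 * (U - d)) ≤ 8 * C1 * ga b (2 * U) := by
  have h1 : 2 * (U - d - 1) + 2 ≤ 2 * (U - d) := by omega
  have h2 := ga_le_ua hb _ _ h1
  have hs1 : 1 ≤ U - d - 1 := by omega
  have h3 := h.2 (U - d - 1) hs1 (by omega)
  have h4 : ga b T ≤ ga b (2 * U) := ga_anti hb (by omega)
  have hs0 : (0 : ℝ) < ((U - d - 1 : ℕ) : ℝ) := by exact_mod_cast hs1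
  have h8 : (T : ℝ) ≤ 8 * ((U - d - 1 : ℕ) : ℝ) := by
    have : T ≤ 8 * (U - d - 1) := by omega
    exact_mod_cast this
  have h5 : ((T : ℝ) / ((U - d - 1 : ℕ) : ℝ)) ^ β ≤ 8 := by
    calc ((T : ℝ) / ((U - d - 1 : ℕ) : ℝ)) ^ β ≤ 8 ^ β :=
          Real.rpow_le_rpow (by positivity) (by rw [div_le_iff₀ hs0]; exact h8) hβ0
      _ ≤ 8 ^ (1 : ℝ) := Real.rpow_le_rpow_of_exponent_le (by norm_num) hβ1
      _ = 8 := Real.rpow_one 8
  calc ga b (2 * (U - d)) ≤ ua b (U - d - 1) := h2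
    _ ≤ C1 * ((T : ℝ) / ((U - d - 1 : ℕ) : ℝ)) ^ β * ga b T := h3
    _ ≤ C1 * 8 * ga b (2 * U) :=
        mul_le_mul (mul_le_mul_of_nonneg_left h5 (by linarith)) h4 h.1.le (by positivity)
    _ = _ := by ring

/-- the constant of the upward extension by the factor `A` -/
def Cup (C1 : ℝ) (A : ℕ) : ℝ := (8 * C1) ^ (8 * A)

lemma Cup_pos (hC1 : 1 ≤ C1) (A : ℕ) : 1 ≤ Cup C1 A := one_le_pow₀ (by linarith)

/-- **upward extension**: `C(R') ≥ C(T) / Cup` for `T ≤ R' ≤ A T` -/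
theorem ga_up (hb : 0 ≤ b) (hβ0 : 0 ≤ β) (hβ1 : β ≤ 1) (hC1 : 1 ≤ C1) (hM : Mid b) {T : ℕ}
    (hT : 16 ≤ T) (h : RecAt b β C1 T) {A R : ℕ} (hR : R ≤ A * T) :
    ga b T ≤ Cup C1 A * ga b R := by
  obtain ⟨U, hU⟩ : ∃ U, U = T / 2 := ⟨_, rfl⟩
  obtain ⟨d, hd⟩ : ∃ d, d = U / 2 := ⟨_, rfl⟩
  have hhalf := RecAt_half hb hβ0 hβ1 hC1 hT hU hd h
  have hq : 0 < 8 * C1 := by linarith
  have hU0 : 0 < ga b (2 * U) := lt_of_lt_of_le h.1 (ga_anti hb (by omega))
  -- the ratios
  have key : ∀ k : ℕ, 0 < ga b (2 * (U + k * d)) ∧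
      ga b (2 * (U + k * d - d)) ≤ 8 * C1 * ga b (2 * (U + k * d)) := by
    intro k
    induction k with
    | zero =>
      simp only [zero_mul, add_zero]
      exact ⟨hU0, hhalf⟩
    | succ k ih =>
      obtain ⟨i1, i2⟩ := ih
      have hm := hM (U + k * d - d) (U + (k + 1) * d)
      have e1 : U + k * d - d + (U + (k + 1) * d) = 2 * (U + k * d) := by
        have e2 : (k + 1) * d = k * d + d := by ring
        have e3 : d ≤ U + k * d := by
          have : d ≤ U := by omega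
          omega
        omega
      rw [e1] at hm
      have e4 : U + (k + 1) * d - d = U + k * d := by
        have e2 : (k + 1) * d = k * d + d := by ring
        omega
      rw [e4]
      set x := ga b (2 * (U + k * d - d)) with hx
      set z := ga b (2 * (U + k * d)) with hz
      set v := ga b (2 * (U + (k + 1) * d)) with hv
      have hv0 : 0 ≤ v := ga_nonneg hb _
      have h6 : z ^ 2 ≤ 8 * C1 * z * v := hm.trans (mul_le_mul_of_nonneg_right i2 hv0)
      have h7 : z ≤ 8 * C1 * v := by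
        have : z * z ≤ z * (8 * C1 * v) := by nlinarith
        exact le_of_mul_le_mul_left this i1
      refine ⟨?_, h7⟩
      by_contra hcon
      have : v = 0 := le_antisymm (not_lt.1 hcon) hv0
      rw [this, mul_zero] at h7
      linarith
  have hpow : ∀ k : ℕ, ga b (2 * U) ≤ (8 * C1) ^ k * ga b (2 * (U + k * d)) := by
    intro k
    induction k with
    | zero => simp
    | succ k ih =>
      have h1 := (key (k + 1)).2
      have e4 : U + (k + 1) * d - d = U + k * d := by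
        have e2 : (k + 1) * d = k * d + d := by ring
        omega
      rw [e4] at h1
      calc ga b (2 * U) ≤ (8 * C1) ^ k * ga b (2 * (U + k * d)) := ih
        _ ≤ (8 * C1) ^ k * (8 * C1 * ga b (2 * (U + (k + 1) * d))) :=
            mul_le_mul_of_nonneg_left h1 (by positivity)
        _ = _ := by rw [pow_succ]; ring
  have h9 := hpow (8 * A)
  have h10 : R ≤ 2 * (U + 8 * A * d) := by
    have h11 : T ≤ 16 * d := by omega
    have h12 : A * T ≤ A * (16 * d) := Nat.mul_le_mul_left _ h11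
    have h13 : A * (16 * d) = 2 * (8 * A * d) := by ring
    omega
  calc ga b T ≤ ga b (2 * U) := ga_anti hb (by omega)
    _ ≤ (8 * C1) ^ (8 * A) * ga b (2 * (U + 8 * A * d)) := h9
    _ ≤ Cup C1 A * ga b R :=
        mul_le_mul_of_nonneg_left (ga_anti hb h10) (by positivity)

/-- **upward extension of the price bound** -/
theorem RecAt_up (hb : 0 ≤ b) (hβ0 : 0 ≤ β) (hβ1 : β ≤ 1) (hC1 : 1 ≤ C1) (hM : Mid b) {T : ℕ}
    (hT : 16 ≤ T) (h : RecAt b β C1 T) {A R : ℕ} (hTR : T ≤ R) (hR : R ≤ A * T) :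
    RecAt b β (C1 * Cup C1 A) R := by
  have hg := ga_up hb hβ0 hβ1 hC1 hM hT h hR
  have hC := Cup_pos hC1 A
  have hT0 : (0 : ℝ) < T := by
    have : 0 < T := by omega
    exact_mod_cast this
  have hpos : 0 < ga b R := by
    by_contra hcon
    have h1 : ga b R = 0 := le_antisymm (not_lt.1 hcon) (ga_nonneg hb _)
    rw [h1, mul_zero] at hg
    linarith [h.1]
  refine ⟨hpos, fun s hs hsR => ?_⟩
  have hs0 : (0 : ℝ) < s := by exact_mod_cast hs
  have hRT : (T : ℝ) ≤ R := by exact_mod_cast hTR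
  rcases Nat.le_total s T with h1 | h1
  · have h2 : ((T : ℝ) / s) ^ β ≤ ((R : ℝ) / s) ^ β :=
      Real.rpow_le_rpow (by positivity) (div_le_div_of_nonneg_right hRT hs0.le) hβ0
    calc ua b s ≤ C1 * ((T : ℝ) / s) ^ β * ga b T := h.2 s hs h1
      _ ≤ C1 * ((R : ℝ) / s) ^ β * (Cup C1 A * ga b R) :=
          mul_le_mul (mul_le_mul_of_nonneg_left h2 (by linarith)) hg h.1.le (by positivity)
      _ = _ := by ring
  · have h2 := h.2 T (by omega) le_rfl
    rw [div_self hT0.ne', Real.one_rpow, mul_one] at h2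
    have h3 : (1 : ℝ) ≤ ((R : ℝ) / s) ^ β := by
      refine Real.one_le_rpow ?_ hβ0
      rw [le_div_iff₀ hs0, one_mul]
      exact_mod_cast hsR
    have h4 : 0 ≤ C1 * (Cup C1 A * ga b R) := by
      have := hpos.le
      positivity
    calc ua b s ≤ ua b T := ua_anti hb h1
      _ ≤ C1 * ga b T := h2
      _ ≤ C1 * (Cup C1 A * ga b R) := mul_le_mul_of_nonneg_left hg (by linarith)
      _ ≤ C1 * (Cup C1 A * ga b R) * ((R : ℝ) / s) ^ β := le_mul_of_one_le_right h4 h3
      _ = _ := by ring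

end up

/-! ### slopes inside the window -/

/-- the constant of the slopes inside the window -/
def Dw : ℝ := Dsl + Real.pi / 2 * de 1 + 1

/-- the relation at the pair `R` of the window `j`, error `1/2` -/
def RelH (b : ℝ) (i : ℕ) (a : ℕ → ℝ) (k w : ℕ → ℕ) (n0 j R : ℕ) : Prop :=
  |Lc b i R - Lc b i (Rb k w n0 j) + a (itw w n0 j) / 2 *
    (eD (sd i R) R - eD (sd i (Rb k w n0 j)) (Rb k w n0 j))| ≤ 1 / 2

section slope

variable {b β : ℝ} {i : ℕ} {a : ℕ → ℝ} {k w : ℕ → ℕ} {n0 j R : ℕ}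

/-- **slopes** up to the pair before `R` -/
theorem slope_in (hK : Kn b β i a k w n0 j)
    (hW : ∀ R', Rb k w n0 j ≤ R' → R' < R → RelH b i a k w n0 j R') {r R' : ℕ}
    (h0 : Rb k w n0 0 ≤ r) (hr : r ≤ R') (hR : R' < R ∨ R' ≤ Rb k w n0 j) :
    Lc b i r - Lc b i R' ≤ β * (Real.log R' - Real.log r) + Dw := by
  obtain ⟨κ, H⟩ := hK.slo
  have hde : 0 ≤ de 1 := by unfold de; positivity
  have hπ := Real.pi_pos
  have hβ := H.β0
  have hr0 : (0 : ℝ) < r := by exact_mod_cast (Rb_pos k w n0 0).trans_le h0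
  have hlog : 0 ≤ Real.log R' - Real.log r :=
    sub_nonneg.2 (Real.log_le_log hr0 (by exact_mod_cast hr))
  have hd2 : 0 ≤ Real.pi / 2 * de 1 := by positivity
  unfold Dw
  rcases Nat.le_total R' (Rb k w n0 j) with h1 | h1
  · have h2 := hK.slope r R' h0 hr h1
    linarith
  · have hRR : R' < R ∨ R' = Rb k w n0 j := by
      rcases hR with h | h
      · exact Or.inl h
      · exact Or.inr (le_antisymm h h1)
    rcases hRR with hRR | hRR
    swap
    · rw [hRR] at hr ⊢
      have h2 := hK.slope r _ h0 hr le_rfl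
      linarith
    have h3 := abs_le.1 (hW R' h1 hRR)
    have hpos : (0 : ℝ) < Rb k w n0 j := by exact_mod_cast Rb_pos k w n0 j
    rcases Nat.le_total r (Rb k w n0 j) with h4 | h4
    · -- `r` below the window
      have h5 := hK.slope r _ h0 h4 le_rfl
      have h6 := H.e_le (h0.trans h4) h1 j
      have h7 : 0 ≤ Real.log R' - Real.log (Rb k w n0 j) :=
        sub_nonneg.2 (Real.log_le_log hpos (by exact_mod_cast h1))
      have h8 : 1 / 4 * (Real.log R' - Real.log (Rb k w n0 j)) ≤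
          β * (Real.log R' - Real.log (Rb k w n0 j)) := mul_le_mul_of_nonneg_right hβ h7
      have h9 : β * (Real.log R' - Real.log r) = β * (Real.log R' - Real.log (Rb k w n0 j)) +
          β * (Real.log (Rb k w n0 j) - Real.log r) := by ring
      rw [h9]
      linarith [h3.1]
    · -- both in the window
      have h5 := abs_le.1 (hW r h4 (lt_of_le_of_lt hr hRR))
      have h6 := H.e_le h0 hr j
      have h8 : 1 / 4 * (Real.log R' - Real.log r) ≤ β * (Real.log R' - Real.log r) :=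
        mul_le_mul_of_nonneg_right hβ hlog
      have h10 : a (itw w n0 j) / 2 * (eD (sd i R') R' - eD (sd i r) r) =
          a (itw w n0 j) / 2 * (eD (sd i R') R' - eD (sd i (Rb k w n0 j)) (Rb k w n0 j)) -
          a (itw w n0 j) / 2 * (eD (sd i r) r - eD (sd i (Rb k w n0 j)) (Rb k w n0 j)) := by ring
      rw [h10] at h6
      have hD : 0 ≤ Dsl := by unfold Dsl; positivity
      linarith [h3.1, h5.2]

end slope

/-- **everything known at the pair `R` of the window `j`**: the relation in all windows below, the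
relation for the pairs `R' < R` of the window, and the price bound for all distances up to `A R`
(plane and every torus of side at least `A0` times the distance) -/
structure KnW (b β C2 A0 : ℝ) (A i : ℕ) (a : ℕ → ℝ) (k w : ℕ → ℕ) (n0 j R : ℕ) : Prop
    extends Kn b β i a k w n0 j where
  relw : ∀ R', Rb k w n0 j ≤ R' → R' < R → RelH b i a k w n0 j R'
  rcd : ∀ R' : ℕ, Rb k w n0 0 ≤ R' → R' ≤ A * R → RecAt b β C2 R'
  tor : ∀ R' : ℕ, Rb k w n0 0 ≤ R' → R' ≤ A * R → ∀ N : ℕ, A0 * R' ≤ N →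
    |ga b R' - cT0 (N - 2) b R'| ≤ cT0 (N - 2) b R' / 2 ∧
    ∀ s : ℕ, 1 ≤ s → s ≤ R' → ua b s ≤ C2 * ((R' : ℝ) / s) ^ β * cT0 (N - 2) b R'

/-- **the knowledge at the pair `R`** from the start and the relations -/
theorem knW {b β C0 : ℝ} (hb : 0 < b) (hM : Mid b) (hβ0 : 0 ≤ β) (hβ1 : β ≤ 1) (hC0 : 1 ≤ C0)
    (A : ℕ) :
    ∃ (A0 C2 : ℝ), 8 ≤ A0 ∧ 1 ≤ C2 ∧ ∀ (i : ℕ) (a : ℕ → ℝ) (k w : ℕ → ℕ) (n0 j R : ℕ),
      A0 ≤ 2 ^ i → 4 ≤ n0 → RecAt b β C0 (Rb k w n0 0) → Kn b β i a k w n0 j →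
      Rb k w n0 j ≤ R → (∀ R', Rb k w n0 j ≤ R' → R' < R → RelH b i a k w n0 j R') →
      KnW b β C2 A0 A i a k w n0 j R := by
  have hDw : 0 ≤ Dw := by
    have hde : 0 ≤ de 1 := by unfold de; positivity
    have hπ := Real.pi_pos
    unfold Dw Dsl
    positivity
  obtain ⟨A1, C1, hA1, hC1, h⟩ := rec_prop (b := b) (α := β) (β := β) (C0 := C0)
    (D := Dw) hb hβ0 hβ1 hβ0 le_rfl hC0 hDw
  set B : ℕ := 2 * A with hB
  set C2 : ℝ := 3 / 2 * (C1 * Cup C1 B) with hC2
  have hCup := Cup_pos hC1 B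
  have hCC : 1 ≤ C1 * Cup C1 B := one_le_mul_of_one_le_of_one_le hC1 hCup
  have hC21 : 1 ≤ C2 := by rw [hC2]; linarith
  -- the ratio for the tori
  set c : ℝ := 1 / (16 * b + 1) with hc
  have hc0 : 0 < c := by positivity
  obtain ⟨A2, hA2, hA2'⟩ : ∃ A2 : ℝ, 8 ≤ A2 ∧ 112 * C2 * A2 ^ (-c) ≤ 1 / 3 := by
    have ht : Tendsto (fun x : ℝ => 112 * C2 * x ^ (-c)) atTop (𝓝 (112 * C2 * 0)) :=
      (tendsto_rpow_neg_atTop hc0).const_mul _
    rw [mul_zero] at ht
    obtain ⟨x, hx1, hx2⟩ := ((ht.eventually_le_const (by norm_num : (0 : ℝ) < 1 / 3)).and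
      (eventually_ge_atTop 8)).exists
    exact ⟨x, hx2, hx1⟩
  refine ⟨max A1 A2, C2, hA1.trans (le_max_left _ _), hC21,
    fun i a k w n0 j R hi hn0 hst hK hjR hW => ?_⟩
  obtain ⟨κ, hS⟩ := hK.slo
  have h16 : ∀ m, 16 ≤ Rb k w n0 m := fun m => by
    have h3 : 2 ^ 4 ≤ Rb k w n0 0 := by
      unfold Rb kk
      rw [itw_zero]
      exact Nat.pow_le_pow_right (by norm_num) (by omega)
    exact h3.trans (hS.Rb_mono (Nat.zero_le m))
  -- the top of the known range
  set T : ℕ := max (Rb k w n0 j) (R - 1) with hT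
  have hT16 : 16 ≤ T := (h16 j).trans (le_max_left _ _)
  have hRT : R ≤ 2 * T := by
    have := le_max_right (Rb k w n0 j) (R - 1)
    omega
  have hknown : ∀ R', Rb k w n0 0 ≤ R' → R' ≤ T → RecAt b β C1 R' := by
    intro R' g1 g2
    refine (h (sd i) (Rb k w n0 0) T (by have := h16 0; omega) (fun R'' g3 g4 => ?_) hst ?_ R' g1
      g2).1
    · have h3 : (2 : ℝ) ^ i * R'' ≤ sd i R'' := by exact_mod_cast H773.sd_ge i R''
      exact (mul_le_mul_of_nonneg_right ((le_max_left _ _).trans hi) (Nat.cast_nonneg _)).trans h3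
    · intro r R'' g3 g4 g5
      refine slope_in hK hW g3 g4 ?_
      rcases Nat.lt_or_ge R'' R with g6 | g6
      · exact Or.inl g6
      · refine Or.inr ?_
        rcases le_max_iff.1 (hT ▸ g5 : R'' ≤ max (Rb k w n0 j) (R - 1)) with g7 | g7
        · exact g7
        · have := h16 j
          omega
  have hT0 : Rb k w n0 0 ≤ T := (hS.Rb_mono (Nat.zero_le j)).trans (le_max_left _ _)
  have hrecT := hknown T hT0 le_rfl
  have hrec : ∀ R' : ℕ, Rb k w n0 0 ≤ R' → R' ≤ A * R → RecAt b β C2 R' := by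
    intro R' g1 g2
    rcases Nat.le_total R' T with g3 | g3
    · refine (hknown R' g1 g3).mono ?_
      rw [hC2]
      have : C1 ≤ C1 * Cup C1 B := le_mul_of_one_le_right (by linarith) hCup
      linarith
    · refine (RecAt_up hb.le hβ0 hβ1 hC1 hM hT16 hrecT (A := B) g3 ?_).mono ?_
      · refine g2.trans ?_
        rw [hB]
        calc A * R ≤ A * (2 * T) := Nat.mul_le_mul_left _ hRT
          _ = 2 * A * T := by ring
      · rw [hC2]
        linarith
  refine { toKn := hK, relw := hW, rcd := hrec, tor := fun R' g1 g2 N hN => ?_ }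
  have hr := hrec R' g1 g2
  have hR16 : 16 ≤ R' := (h16 0).trans g1
  have hR0 : (0 : ℝ) < R' := by
    have : 0 < R' := by omega
    exact_mod_cast this
  have hN8 : 8 * R' ≤ N := by
    have h1 : (8 : ℝ) * R' ≤ N := (mul_le_mul_of_nonneg_right
      (hA1.trans (le_max_left _ _)) hR0.le).trans hN
    exact_mod_cast h1
  have h1 := hr.tor hb.le hβ0 hβ1 (by linarith) (by omega) hN8
  have h2 : ((N : ℝ) / R') ^ (-(1 / (16 * b + 1)) : ℝ) ≤ A2 ^ (-c) := by
    refine Real.rpow_le_rpow_of_nonpos (by linarith) ?_ (by linarith)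
    rw [le_div_iff₀ hR0]
    exact (mul_le_mul_of_nonneg_right (le_max_right _ _) hR0.le).trans hN
  have hg := hr.1
  have h3 : |ga b R' - cT0 (N - 2) b R'| ≤ 1 / 3 * ga b R' := by
    refine h1.trans (mul_le_mul_of_nonneg_right ?_ hg.le)
    exact (mul_le_mul_of_nonneg_left h2 (by linarith)).trans hA2'
  have h4 := abs_le.1 h3
  have h5 : ga b R' ≤ 3 / 2 * cT0 (N - 2) b R' := by linarith [h4.2]
  refine ⟨?_, fun s hs hsR => ?_⟩
  · refine h3.trans ?_
    linarith
  · have hcp : 0 ≤ cT0 (N - 2) b R' := by linarith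
    rcases Nat.le_total R' T with g3 | g3
    · have k1 := (hknown R' g1 g3).2 s hs hsR
      have hp : 0 ≤ ((R' : ℝ) / s) ^ β := by positivity
      calc ua b s ≤ C1 * ((R' : ℝ) / s) ^ β * ga b R' := k1
        _ ≤ (C1 * Cup C1 B) * ((R' : ℝ) / s) ^ β * (3 / 2 * cT0 (N - 2) b R') := by
            refine mul_le_mul (mul_le_mul_of_nonneg_right ?_ hp) h5 hg.le (by positivity)
            exact le_mul_of_one_le_right (by linarith) hCup
        _ = C2 * ((R' : ℝ) / s) ^ β * cT0 (N - 2) b R' := by rw [hC2]; ring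
    · have k1 := (RecAt_up hb.le hβ0 hβ1 hC1 hM hT16 hrecT (A := B) g3 (by
        refine g2.trans ?_
        rw [hB]
        calc A * R ≤ A * (2 * T) := Nat.mul_le_mul_left _ hRT
          _ = 2 * A * T := by ring)).2 s hs hsR
      have hp : 0 ≤ ((R' : ℝ) / s) ^ β := by positivity
      calc ua b s ≤ C1 * Cup C1 B * ((R' : ℝ) / s) ^ β * ga b R' := k1
        _ ≤ (C1 * Cup C1 B) * ((R' : ℝ) / s) ^ β * (3 / 2 * cT0 (N - 2) b R') :=
            mul_le_mul_of_nonneg_left h5 (by positivity)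
        _ = C2 * ((R' : ℝ) / s) ^ β * cT0 (N - 2) b R' := by rw [hC2]; ring

end

end Vale.Agent.P159.H145.Lw
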