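import Vale.Agent.P159.H145.Lw2

/-!
P159 (helper145), S glue with knowledge inside the window, part 3: the amplitude theorem from the flow
and one statement per level; the level may use, at the pair `R`, the price bound `KnW` at `R`.
-/

open Filter Topology Finset MeasureTheory Matrix

set_option linter.all false

namespace Vale.Agent.P159.H145.Lw

open Vale.Agent.P159.TM.Spec (V)
open Vale.Agent.P159.H552.Dx7 (kk nx invS)
open Vale.Agent.P159.H801 (itw T3 Fl Wn itw_succ itw_zero itw_ge itw_tend rp_cmp SFlow xa Bw)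
open Vale.Agent.P159.H264 (kap)
open Vale.Agent.P159.H686 (Sml al Lcl Cmp Stp)
open Vale.Agent.P159.H708 (Bx)
open Vale.Agent.P159.H770 (wTD Ed)
open Vale.Agent.P159.H817 (eD)
open Vale.Agent.P159.H27 (Rb BelR Slo Rb_pos)
open Vale.Agent.P159.H773 (sd Pth de ej cMn cMn_pt cT0 nuF PsF)
open Vale.Agent.P159.H972 (tn lg Par Good YBn)
open Vale.Agent.P159.H253.Rec (RecAt ga ua)
open Vale.Agent.P159.H37.Sf

noncomputable section

section fam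

variable (b : ℝ) (Nf : ℕ → ℕ) [∀ R, NeZero (Nf R)]

/-- **inputs of one level**, windows `W R`; `Q R` = what is known at the pair `R` -/
structure LvQ (wD : ∀ R, (V (Nf R) → ℤ) → ℝ) (φ : ∀ R, V (Nf R) → ℝ) (e : ℕ → ℝ)
    (t t' a : ℝ) (R0 R1 D : ℕ) (W : ∀ R, (V (Nf R) → ℝ) → Bx D ⊕ Bx D → ℝ)
    (G : (Bx D ⊕ Bx D → ℝ) → ℝ) (δ q bb Λ h τ η κP bW : ℝ) (Q : ℕ → Prop) : Prop where
  loc : ∀ R, R0 ≤ R → R ≤ R1 → Q R → ∃ Gd : Set (V (Nf R) → ℝ),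
    Lcl (nuF b Nf t R) (PsF b Nf wD φ t R) (cMn b Nf wD R)
      (cMn b Nf wD R0 * Real.exp (-(a / 2 * (e R - e R0)))) (W R) G Gd Λ δ q bb
  cmp : ∀ R, R0 ≤ R → R ≤ R1 → Q R → Cmp (nuF b Nf t R0) (nuF b Nf t R) (W R0) (W R) h τ
  stp : Q R1 → Stp (nuF b Nf t R1) (nuF b Nf t' R1) (PsF b Nf wD φ t R1) (PsF b Nf wD φ t' R1)
    (cMn b Nf wD R1) (W R1) κP η bW

end fam

section fam2

variable {b : ℝ} {Nf : ℕ → ℕ} [∀ R, NeZero (Nf R)]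

lemma LvQ.toW {wD : ∀ R, (V (Nf R) → ℤ) → ℝ} {φ : ∀ R, V (Nf R) → ℝ} {e : ℕ → ℝ}
    {t t' a : ℝ} {R0 R1 D : ℕ} {W : ∀ R, (V (Nf R) → ℝ) → Bx D ⊕ Bx D → ℝ}
    {G : (Bx D ⊕ Bx D → ℝ) → ℝ} {δ q bb Λ h τ η κP bW : ℝ} {Q K : ℕ → Prop}
    (H : LvQ b Nf wD φ e t t' a R0 R1 D W G δ q bb Λ h τ η κP bW Q) (h01 : R0 ≤ R1)
    (hQ : ∀ R, R0 ≤ R → R ≤ R1 → (∀ R', R0 ≤ R' → R' < R → K R') → Q R) :
    LvW b Nf wD φ e t t' a R0 R1 D W G δ q bb Λ h τ η κP bW K :=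
  ⟨fun R h1 h2 h3 => H.loc R h1 h2 (hQ R h1 h2 h3), fun R h1 h2 h3 => H.cmp R h1 h2 (hQ R h1 h2 h3),
    fun h3 => H.stp (hQ R1 h01 le_rfl h3)⟩

/-- 686's unconditional level -/
lemma LvQ.of_lvlW {wD : ∀ R, (V (Nf R) → ℤ) → ℝ} {φ : ∀ R, V (Nf R) → ℝ} {e : ℕ → ℝ}
    {t t' a : ℝ} {R0 R1 D : ℕ} {W : ∀ R, (V (Nf R) → ℝ) → Bx D ⊕ Bx D → ℝ}
    {G : (Bx D ⊕ Bx D → ℝ) → ℝ} {δ q bb Λ h τ η κP bW : ℝ} {Q : ℕ → Prop}
    (H : H686.LvlW b Nf wD φ e t t' a R0 R1 D W G δ q bb Λ h τ η κP bW) :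
    LvQ b Nf wD φ e t t' a R0 R1 D W G δ q bb Λ h τ η κP bW Q :=
  ⟨fun R h1 h2 _ => H.loc R h1 h2, fun R h1 h2 _ => H.cmp R h1 h2, fun _ => H.stp⟩

end fam2

/-- **the output of one level** `n` (next level `n'`), distances `R0 ≤ R ≤ R1`, knowledge `Q R` -/
def LvOutQ (b : ℝ) (i : ℕ) (η : ∀ R, Ed (sd i R) → ℤ) (φ : ∀ R, V (sd i R) → ℝ)
    (c3 c4 y a : ℝ) (n n' R0 R1 : ℕ) (Q : ℕ → Prop) : Prop :=
  ∃ (D : ℕ) (W : ∀ R, (V (sd i R) → ℝ) → Bx D ⊕ Bx D → ℝ) (G : (Bx D ⊕ Bx D → ℝ) → ℝ)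
    (δ q bb Λ h τ ηn κP bW : ℝ),
    NumS y c3 c4 δ q bb Λ h τ ηn κP bW ∧
    LvQ b (sd i) (fun R => wTD (sd i R) b (η R)) φ (fun R => eD (sd i R) R) (tn n) (tn n') a
      R0 R1 D W G δ q bb Λ h τ ηn κP bW Q

/-- the data of a level, chosen once for all -/
lemma lvQ_choice {b : ℝ} {i : ℕ} {η : ∀ R, Ed (sd i R) → ℤ} {φ : ∀ R, V (sd i R) → ℝ}
    {c3 c4 y a : ℝ} {n n' R0 R1 : ℕ} {Q : ℕ → Prop} (hy : 0 < y) :
    ∃ (D : ℕ) (W : ∀ R, (V (sd i R) → ℝ) → Bx D ⊕ Bx D → ℝ) (G : (Bx D ⊕ Bx D → ℝ) → ℝ)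
      (δ q bb Λ h τ ηn κP bW : ℝ),
      NumS y c3 c4 δ q bb Λ h τ ηn κP bW ∧ (LvOutQ b i η φ c3 c4 y a n n' R0 R1 Q →
      LvQ b (sd i) (fun R => wTD (sd i R) b (η R)) φ (fun R => eD (sd i R) R) (tn n) (tn n') a
        R0 R1 D W G δ q bb Λ h τ ηn κP bW Q) := by
  classical
  by_cases H : LvOutQ b i η φ c3 c4 y a n n' R0 R1 Q
  · obtain ⟨D, W, G, δ, q, bb, Λ, h, τ, ηn, κP, bW, h1, h2⟩ := H
    exact ⟨D, W, G, δ, q, bb, Λ, h, τ, ηn, κP, bW, h1, fun _ => h2⟩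
  · exact ⟨0, fun _ _ _ => 0, fun _ => 0, 0, 0, 0, 1, 0, 0, 0, 0, 0, NumS.zero y c3 c4 hy,
      fun h => absurd h H⟩

/-- the relation in the letters of `Lc` -/
lemma relH_of {b : ℝ} (hb : 0 ≤ b) {i : ℕ} (hi : 1 ≤ i) {η : ∀ R, Ed (sd i R) → ℤ} (hη : Pth i η)
    {a : ℕ → ℝ} {k w : ℕ → ℕ} {n0 j R : ℕ} {F : ℕ → ℝ} (hF : F j ≤ 1 / 2)
    (hR : Rb k w n0 j ≤ R)
    (h : RelJ b (sd i) (fun R => wTD (sd i R) b (η R)) (fun R => eD (sd i R) R) a k w n0 F j R) :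
    RelH b i a k w n0 j R := by
  have h1 : 1 ≤ Rb k w n0 j := Rb_pos k w n0 j
  unfold RelJ at h
  simp only [cMn_pt hb hi hη (h1.trans hR), cMn_pt hb hi hη h1] at h
  unfold RelH Lc
  exact h.trans hF

/-- **THE AMPLITUDE THEOREM FROM ONE STATEMENT PER LEVEL**, knowledge inside the window -/
theorem s_glueQ {b : ℝ} (hb : 0 < b) {x y a : ℕ → ℝ} {c r q B A : ℝ} {w k : ℕ → ℕ} {N : ℕ}
    (hT : T3 x y kap c r q B A w N) (hw : Tendsto w atTop atTop)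
    (hk1 : ∀ᶠ n in atTop, k n ≤ 1 + k (n + w n)) (hk3 : ∀ᶠ n in atTop, k (n + w n) ≤ 3 * w n)
    (ha : ∀ᶠ n in atTop, 0 ≤ a n ∧ a n ≤ Real.pi / 2) {c5 : ℝ} (hc5 : 0 < c5)
    (hav : ∀ᶠ n in atTop, |a n - invS x n| ≤ y n ^ (1 + c5)) {c3 c4 β : ℝ} (h3 : 0 < c3)
    (h4 : 0 < c4) (hβ : 1 / 4 < β) {Rc : ℕ → Prop} {i1 : ℕ}
    (hR : ∀ n1, ∃ n0, n1 ≤ n0 ∧ Rc (Rb k w n0 0))
    (hL : ∀ i, i1 ≤ i → ∃ (η : ∀ R, Ed (sd i R) → ℤ) (φ : ∀ R, V (sd i R) → ℝ), Pth i η ∧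
      ∃ N1 : ℕ, ∀ n0, N1 ≤ n0 → Rc (Rb k w n0 0) → ∀ j, Kn b β i a k w n0 j →
        ∃ Q : ℕ → Prop, (∀ R, Rb k w n0 j ≤ R → R ≤ Rb k w n0 (j + 1) →
          (∀ R', Rb k w n0 j ≤ R' → R' < R → RelH b i a k w n0 j R') → Q R) ∧
        LvOutQ b i η φ c3 c4 (y (itw w n0 j)) (a (itw w n0 j)) (itw w n0 j) (itw w n0 (j + 1))
          (Rb k w n0 j) (Rb k w n0 (j + 1)) Q) :
    ∃ A : ℝ, 0 < A ∧ Tendsto (fun r : ℕ => Vale.Agent.P159.corrInf b ((r : ℤ), 0) /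
      ((r : ℝ) ^ (-(1 / 4) : ℝ) * Real.log r ^ (1 / 8 : ℝ))) atTop (𝓝 A) := by
  classical
  obtain ⟨κ, hκ⟩ := H773.eD_fam
  set c' : ℝ := min c4 c5 / 2 with hc'
  have hc'0 : 0 < c' := by have : 0 < min c4 c5 := lt_min h4 hc5; linarith
  have hc'4 : c' < c4 := by have := min_le_left c4 c5; linarith
  have hc'5 : c' < c5 := by have := min_le_right c4 c5; linarith
  obtain ⟨y0, hy0, hy01, hS⟩ := sml_of h3 hc'0 hc'4
  have hy := hT.fl.y0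
  -- variation of `y`
  have hη1 : 0 < Real.log 2 / c3 := div_pos (Real.log_pos one_lt_two) h3
  have hη2 : 0 < Real.log 2 / (1 + c') := div_pos (Real.log_pos one_lt_two) (by linarith)
  have hV1 := hT.fl.var hT.wn hη1
  have hV2 := hT.fl.var hT.wn hη2
  have hwin : ∀ᶠ n in atTop, Real.pi / 2 * de 1 + 1 / 2 ≤
      (β - 1 / 4) * (((w n : ℝ) - 1) * Real.log 2) := by
    have h1 : Tendsto (fun n => (β - 1 / 4) * (((w n : ℝ) - 1) * Real.log 2)) atTop atTop := by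
      refine Tendsto.const_mul_atTop (by linarith) ?_
      refine Tendsto.atTop_mul_const (Real.log_pos one_lt_two) ?_
      exact tendsto_atTop_add_const_right _ _ (tendsto_natCast_atTop_atTop.comp hw)
    exact h1.eventually_ge_atTop _
  have hys : ∀ᶠ n in atTop, y n ≤ y0 := by
    filter_upwards [hT.fl.yt.eventually (gt_mem_nhds hy0)] with n hn using hn.le
  refine xy_amp_SInW hb (x := x) (y := y) (i1 := max i1 1) fun i hi => ?_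
  have hi1 : 1 ≤ i := (le_max_right _ _).trans hi
  obtain ⟨η, φ, hη, N1, hN1⟩ := hL i ((le_max_left _ _).trans hi)
  have hN : ∀ᶠ R : ℕ in atTop, (2 : ℝ) ^ i * R ≤ sd i R := Eventually.of_forall fun R => by
    exact_mod_cast H773.sd_ge i R
  obtain ⟨R1, hR1⟩ := eventually_atTop.1 (hκ i hi1 _ hN)
  obtain ⟨N2, hN2⟩ := eventually_atTop.1 ((hV1.and hV2).and ((hk1.and hk3).and
    ((ha.and hwin).and hys)))
  obtain ⟨n0, hn0, hRc⟩ := hR (max (max N N1) (max N2 R1))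
  have g1 : N ≤ n0 := ((le_max_left _ _).trans (le_max_left _ _)).trans hn0
  have g2 : N1 ≤ n0 := ((le_max_right _ _).trans (le_max_left _ _)).trans hn0
  have g3 : N2 ≤ n0 := ((le_max_left _ _).trans (le_max_right _ _)).trans hn0
  have g4 : R1 ≤ n0 := ((le_max_right _ _).trans (le_max_right _ _)).trans hn0
  have w1 : ∀ n, n0 ≤ n → 1 ≤ w n := fun n hn => hT.wn.w1 n (g1.trans hn)
  have hge : ∀ j, n0 ≤ itw w n0 j := fun j => by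
    have := itw_ge (N := n0) w1 le_rfl j
    omega
  have v1 : ∀ n, n0 ≤ n → |Real.log (y (n + w n)) - Real.log (y n)| ≤ Real.log 2 / c3 :=
    fun n hn => (hN2 n (g3.trans hn)).1.1 _ (Nat.le_add_right _ _) (by omega)
  have v2 : ∀ n, n0 ≤ n → |Real.log (y (n + w n)) - Real.log (y n)| ≤ Real.log 2 / (1 + c') :=
    fun n hn => (hN2 n (g3.trans hn)).1.2 _ (Nat.le_add_right _ _) (by omega)
  have slo : Slo (fun R => eD (sd i R) R) a (fun _ => 1 / 2) k w n0 κ (de 1) β (1 / 2) := by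
    refine slo_of hβ w1 (fun n hn => (hN2 n (g3.trans hn)).2.2.1.1)
      (fun n hn => (hN2 n (g3.trans hn)).2.1.1) (fun n hn => (hN2 n (g3.trans hn)).2.2.1.2) ?_
    intro R hR
    have h1 : R1 ≤ R := by
      refine (g4.trans ?_).trans hR
      have h2 : n0 < 2 ^ n0 := Nat.lt_two_pow_self
      have h3 : 2 ^ n0 ≤ Rb k w n0 0 := by
        unfold Rb kk
        rw [itw_zero]
        exact Nat.pow_le_pow_right (by norm_num) (Nat.le_add_right _ _)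
      omega
    exact (hR1 R h1).trans (de_mono hi1)
  -- knowledge of the level `j`
  let KQ : ℕ → (ℕ → Prop) → Prop := fun j Q =>
    (∀ R, Rb k w n0 j ≤ R → R ≤ Rb k w n0 (j + 1) →
      (∀ R', Rb k w n0 j ≤ R' → R' < R → RelH b i a k w n0 j R') → Q R) ∧
    LvOutQ b i η φ c3 c4 (y (itw w n0 j)) (a (itw w n0 j)) (itw w n0 j) (itw w n0 (j + 1))
      (Rb k w n0 j) (Rb k w n0 (j + 1)) Q
  let Qf : ℕ → ℕ → Prop := fun j => if hx : ∃ Q, KQ j Q then Classical.choose hx else fun _ => True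
  have hQf : ∀ j, (∃ Q, KQ j Q) → KQ j (Qf j) := fun j hx => by
    have : Qf j = Classical.choose hx := dif_pos hx
    rw [this]
    exact Classical.choose_spec hx
  choose D W G δ q bb Λ h τ ηn κP bW hNum hLv using fun j : ℕ =>
    lvQ_choice (b := b) (i := i) (η := η) (φ := φ) (c3 := c3) (c4 := c4)
      (y := y (itw w n0 j)) (a := a (itw w n0 j)) (n := itw w n0 j) (n' := itw w n0 (j + 1))
      (R0 := Rb k w n0 j) (R1 := Rb k w n0 (j + 1)) (Q := Qf j) (hy _)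
  have hyj : ∀ j, y (itw w n0 j) ≤ y0 := fun j => (hN2 _ (g3.trans (hge j))).2.2.2
  have hsm : ∀ j, Sml (y (itw w n0 j) ^ (1 + c') / 100) (δ j) (q j) (bb j) (Λ j) (h j) (τ j)
      (ηn j) (κP j) (bW j) (Λ (j + 1)) (bb (j + 1)) ∧
      5 * al (κP j) (ηn j) + 4 * (y (itw w n0 j) ^ (1 + c') / 100) ≤ 1 / 4 := fun j => by
    refine hS (y (itw w n0 j)) (y (itw w n0 (j + 1))) _ _ _ _ _ _ _ _ _ _ _ (hy _) (hyj j)
      (hy _) ?_ (hNum j) (hNum (j + 1)).Λ1 (hNum (j + 1)).Λ2 (hNum (j + 1)).b0 (hNum (j + 1)).b1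
    rw [itw_succ]
    exact v1 _ (hge j)
  have hch := y_chain (y := y) (s := 1 + c') hy (by linarith) w1 v2
  refine ⟨c, r, _, B, A, w, N, n0, a, k, c', η, φ, hT, g1, hη, ?_⟩
  refine ⟨⟨fun j => tn (itw w n0 j), D, W, G, fun j => y (itw w n0 j) ^ (1 + c') / 100, δ, q, bb, Λ,
    h, τ, ηn, κP, bW, fun j => tn_pos _, ?_, fun j => (hsm j).1, fun j => (hsm j).2, ?_, ?_⟩,
    ?_, hc'0, ?_, ?_, ?_⟩
  · intro j hB
    have hej : ∀ m, ej (fun j => y (itw w n0 j) ^ (1 + c') / 100) h Λ m ≤ 1 / 2 := fun m =>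
      ej_half (fun j => (hsm j).1.ε1) (fun j => (hNum j).h0) (fun j => (hNum j).h1) m
    have hB' := belR_Lc hb.le hi1 hη hej hB
    have hKn : Kn b β i a k w n0 j := by
      refine ⟨hB', fun r R h1 h2 h3 => ?_, κ, slo⟩
      have := slo.slope hB' h1 h2 h3 (by norm_num)
      unfold Dsl
      exact this
    have hkq := hQf j (hN1 n0 g2 hRc j hKn)
    refine (hLv j hkq.2).toW (slo.mon j) fun R h1 h2 h5 => hkq.1 R h1 h2 fun R' h6 h7 => ?_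
    exact relH_of hb.le hi1 hη (hej j) h6 (h5 R' h6 h7)
  · intro j
    have := (hch j).1
    linarith
  · exact ⟨fun j => by have := Real.rpow_pos_of_pos (hy (itw w n0 j)) (1 + c'); positivity,
      fun j => (hNum j).h0, fun j => (hNum j).h1, Eventually.of_forall fun j => le_rfl,
      lam_small (hy n0) (fun j => (hch j).2) _⟩
  · exact fun R => H883.bw_wTD hb _
  · exact slo.mon
  · exact Eventually.of_forall fun j => (hN2 _ (g3.trans (hge j))).2.1.2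
  · filter_upwards [hav, hys] with n hn hn2
    exact hn.trans (Real.rpow_le_rpow_of_exponent_ge (hy n) (hn2.trans hy01) (by linarith))

section flow

variable {P : Par} {b σ c c1 q2 qx : ℝ} {a y ε xs : ℕ → ℝ} {c' r q A : ℝ} {N : ℕ}

/-- **THE AMPLITUDE THEOREM FROM THE FLOW, A SOFT LOWER BOUND AND ONE STATEMENT PER LEVEL**: the
level may use, at the pair `R`, the knowledge `KnW` at `R` (distances up to `Am R`) -/
theorem s_final_Q (hb : 0 < b) (hσ : σ ≤ 1 / 4) (hM : Mid b)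
    (h : SFlow P b σ c c1 q2 qx a y ε xs c' r q A N) {ck c3 c4 α β c0 : ℝ} (hck : 0 < ck)
    (hck1 : ck ≤ P.thp) (h3 : 0 < c3) (h4 : 0 < c4) (hα0 : 0 ≤ α) (hαβ : α < β)
    (hβ : 1 / 4 < β) (hβ1 : β ≤ 1) (hc0 : 0 < c0)
    (hlow : ∀ᶠ r : ℕ in atTop, c0 * (r : ℝ) ^ (-α) ≤ ga b r) (Am : ℕ)
    (hL : ∀ A0 C2 : ℝ, 8 ≤ A0 → 1 ≤ C2 → ∃ i1 : ℕ, ∀ i, i1 ≤ i →
      ∃ (η : ∀ R, Ed (sd i R) → ℤ) (φ : ∀ R, V (sd i R) → ℝ), Pth i η ∧
      ∃ N1 : ℕ, ∀ n0, N1 ≤ n0 →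
        ∀ j n n', Kn b β i a (kf ck y) (fun n => P.w (ε n)) n0 j →
        n = itw (fun n => P.w (ε n)) n0 j → n' = n + P.w (ε n) →
        LvOutQ b i η φ c3 c4 (y n) (a n) n n' (2 ^ (n + kf ck y n)) (2 ^ (n' + kf ck y n'))
          (KnW b β C2 A0 Am i a (kf ck y) (fun n => P.w (ε n)) n0 j)) :
    ∃ A : ℝ, 0 < A ∧ Tendsto (fun r : ℕ => Vale.Agent.P159.corrInf b ((r : ℤ), 0) /
      ((r : ℝ) ^ (-(1 / 4) : ℝ) * Real.log r ^ (1 / 8 : ℝ))) atTop (𝓝 A) := by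
  obtain ⟨ha, hav⟩ := sf_a h
  obtain ⟨hk1, hk1'⟩ := sf_k1 h hck
  obtain ⟨C0, hC0, hR⟩ := start_rec (w := fun n => P.w (ε n)) hb.le hk1' hα0 hαβ hβ1 hc0 hlow
  obtain ⟨A0, C2, hA0, hC2, hK⟩ := knW (b := b) (β := β) (C0 := C0) hb hM (by linarith) hβ1 hC0 Am
  obtain ⟨i1, hi1⟩ := hL A0 C2 hA0 hC2
  obtain ⟨i2, hi2⟩ := (tendsto_pow_atTop_atTop_of_one_lt (one_lt_two (α := ℝ))).eventually_ge_atTop
    A0 |>.exists_forall_of_atTop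
  refine s_glueQ hb h.t3 (sf_wt h hσ) hk1 (sf_k3 h hσ hck hck1) ha
    (c5 := (q2 - 1) / 2) (by have := h.q21; linarith) hav h3 h4 hβ
    (Rc := RecAt b β C0) (i1 := max i1 i2) hR fun i hi => ?_
  obtain ⟨η, φ, hη, N1, hN1⟩ := hi1 i ((le_max_left _ _).trans hi)
  refine ⟨η, φ, hη, max N1 4, fun n0 hn0 hr j hKn => ?_⟩
  refine ⟨KnW b β C2 A0 Am i a (kf ck y) (fun n => P.w (ε n)) n0 j, fun R h1 h2 h5 => ?_, ?_⟩
  · exact hK i a _ _ n0 j R (hi2 i ((le_max_right _ _).trans hi)) ((le_max_right _ _).trans hn0) hr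
      hKn h1 h5
  · exact hN1 n0 ((le_max_left _ _).trans hn0) j
      (itw (fun n => P.w (ε n)) n0 j) (itw (fun n => P.w (ε n)) n0 (j + 1)) hKn rfl
      (itw_succ _ _ _)

end flow

end

end Vale.Agent.P159.H145.Lw
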