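import Vale.Agent.P159.H145.Nu1
import Vale.Agent.P159.H239.Typ
import Vale.Agent.P159.H859.Zs
import Vale.Agent.P159.H159.KapN

/-!
P159 / P_up (helper145), module NUM, part 2: the linear response sum (input (V) of `D0Step`).

`sumV` : `16 ^ (m - n) (ξ_n / N) ^ 2 T ∑ Vk ≤ κ ε` from `DN ≤ ε` at level `n` and typical sources.
-/

set_option linter.unusedSectionVars false

namespace Vale.Agent.P159.H145

open Finset Matrix MeasureTheory
open Vale.Agent.P159.H37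
open Vale.Agent.P159.H972
open Vale.Agent.P159.TM.Spec (V)
open Vale.Agent.P159.H963 (nwt obsN Gnc)
open Vale.Agent.P159.H447 (K4S SN CN cl cl_eq cl_nonneg cl_mono Ful)
open Vale.Agent.P159.H239 (TypE)
open Vale.Agent.P159.H859 (Sgn Typ)
open Vale.Agent.P159.H159 (Vk)

noncomputable section

/-! ### arithmetic -/

/-- powers of a number below one -/
lemma rpow_le34 {y x : ℝ} (hy : 0 ≤ y) (hy1 : y ≤ 1) (hx : 3 / 4 ≤ x) :
    y ^ x ≤ y ^ (3 / 4 : ℝ) := by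
  rcases hy.eq_or_lt with rfl | h
  · rw [Real.zero_rpow (by linarith), Real.zero_rpow (by norm_num)]
  · exact Real.rpow_le_rpow_of_exponent_ge h hy1 hx

lemma half_pow_le {J : ℕ} (hJ : 2 ≤ J) : (1 / 2 : ℝ) ^ J ≤ 1 / 4 := by
  calc (1 / 2 : ℝ) ^ J ≤ (1 / 2 : ℝ) ^ 2 :=
        pow_le_pow_of_le_one (by norm_num) (by norm_num) hJ
    _ = 1 / 4 := by norm_num

theorem v_core {κ thp C0 q : ℝ} (hκ : 0 < κ) (ht0 : 0 < thp) (ht : thp ≤ 1 / 300)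
    (hC : 0 ≤ C0) (hq : 8 * C0 + 8 ≤ q) :
    ∃ E : ℝ, 0 < E ∧ ∀ e, 0 < e → e ≤ E → ∀ J : ℕ, 2 ≤ J → ∀ M nb nc lam p : ℝ, 0 ≤ M → 0 ≤ nb →
      0 ≤ nc → 0 ≤ lam → M ≤ 64 * e ^ (-(5 * thp)) → nb ≤ 64 * e ^ (-(5 * thp)) →
      lam ≤ 64 * e ^ (-(5 * thp)) → nc ≤ 128 * e ^ (-(5 * thp + C0)) → p ≤ 55 * e ^ q →
      4 * M ^ 4 * (2 * cl J (8 * (lam * (512 * M ^ 4 * nb ^ 2 * e))) ^ 2 +
        21300 * (4 * M ^ 2 * nc ^ 2) ^ 2 * √p + 18 * (nc ^ 2) ^ 2 * √p) ≤ κ * e := by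
  obtain ⟨E1, hE1, h1⟩ := absorb (A := 4096 * 64 ^ 7) (a := 1 / 2) (κ := 1) (by positivity)
    (by norm_num) one_pos
  set A : ℝ := 512 * 64 ^ 4 * (4096 * 64 ^ 7) ^ 2 + 4 * 64 ^ 8 * 128 ^ 4 * 340818 * 8 with hA
  obtain ⟨E2, hE2, h2⟩ := absorb (A := A) (a := 1 / 4) (κ := κ) (by positivity)
    (by norm_num) hκ
  refine ⟨min 1 (min E1 E2), by positivity, fun e he hee J hJ M nb nc lam p hM0 hn0 hc0 hl0 hM hn hl
    hc hp => ?_⟩
  have he1 : e ≤ 1 := hee.trans (min_le_left _ _)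
  have k1 := h1 e he (hee.trans ((min_le_right _ _).trans (min_le_left _ _)))
  have k2 := h2 e he (hee.trans ((min_le_right _ _).trans (min_le_right _ _)))
  set B : ℝ := 64 * e ^ (-(5 * thp)) with hB
  have hB1 : 1 ≤ B := by
    have := one_le_rpow_neg he he1 (show 0 ≤ 5 * thp by linarith)
    rw [hB]; linarith
  have hB0 : 0 ≤ B := by linarith
  have hBk : ∀ k : ℕ, B ^ k = 64 ^ k * e ^ (-(5 * thp) * k) := fun k => pow_base he _ k
  -- the closure number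
  set y : ℝ := 4096 * B ^ 7 * e with hy
  have hy0 : 0 ≤ y := by positivity
  have e1 : y = 4096 * 64 ^ 7 * (e ^ (-(5 * thp) * (7 : ℕ)) * e) := by
    rw [hy, hBk]; ring
  have e2 : e ^ (-(5 * thp) * (7 : ℕ)) * e = e ^ (1 - 35 * thp) := by
    nth_rw 2 [← Real.rpow_one e]
    rw [← Real.rpow_add he]
    congr 1
    push_cast
    ring
  rw [e2] at e1
  have hyle : y ≤ 4096 * 64 ^ 7 * e ^ (5 / 6 : ℝ) := by
    rw [e1]
    exact mul_le_mul_of_nonneg_left (rpow_anti he he1 (by linarith)) (by positivity)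
  have hy1 : y ≤ 1 := by
    refine hyle.trans (le_trans ?_ k1)
    exact mul_le_mul_of_nonneg_left (rpow_anti he he1 (by norm_num)) (by positivity)
  have hz : 8 * (lam * (512 * M ^ 4 * nb ^ 2 * e)) ≤ y := by
    calc 8 * (lam * (512 * M ^ 4 * nb ^ 2 * e)) ≤ 8 * (B * (512 * B ^ 4 * B ^ 2 * e)) := by
          gcongr
      _ = y := by rw [hy]; ring
  have hcl : cl J (8 * (lam * (512 * M ^ 4 * nb ^ 2 * e))) ≤ 8 * y ^ (3 / 4 : ℝ) := by
    refine (cl_mono J hz).trans ?_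
    rw [cl_eq J hy0]
    have := half_pow_le hJ
    exact mul_le_mul_of_nonneg_left (rpow_le34 hy0 hy1 (by linarith)) (by norm_num)
  have hcl0 := cl_nonneg J (8 * (lam * (512 * M ^ 4 * nb ^ 2 * e)))
  have hsq : cl J (8 * (lam * (512 * M ^ 4 * nb ^ 2 * e))) ^ 2 ≤ 64 * y ^ (3 / 2 : ℝ) := by
    calc _ ≤ (8 * y ^ (3 / 4 : ℝ)) ^ 2 := pow_le_pow_left₀ hcl0 hcl 2
      _ = 64 * (y ^ (3 / 4 : ℝ)) ^ (2 : ℕ) := by ring
      _ = 64 * y ^ (3 / 2 : ℝ) := by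
        rw [← Real.rpow_natCast (y ^ (3 / 4 : ℝ)) 2, ← Real.rpow_mul hy0]
        norm_num
  -- first term
  have t1 : 4 * M ^ 4 * (2 * cl J (8 * (lam * (512 * M ^ 4 * nb ^ 2 * e))) ^ 2) ≤
      512 * 64 ^ 4 * (4096 * 64 ^ 7) ^ 2 * e ^ (5 / 4 : ℝ) := by
    have s1 : y ^ (3 / 2 : ℝ) ≤ (4096 * 64 ^ 7) ^ 2 * e ^ (3 / 2 - 105 / 2 * thp) := by
      rw [e1, Real.mul_rpow (by positivity) (by positivity), ← Real.rpow_mul he.le]
      refine mul_le_mul ?_ (le_of_eq (by congr 1; ring)) (by positivity) (by positivity)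
      calc ((4096 : ℝ) * 64 ^ 7) ^ (3 / 2 : ℝ) ≤ (4096 * 64 ^ 7) ^ (2 : ℝ) :=
            Real.rpow_le_rpow_of_exponent_le (by norm_num) (by norm_num)
        _ = _ := by rw [← Real.rpow_natCast]; norm_num
    have s2 : M ^ 4 ≤ 64 ^ 4 * e ^ (-(20 * thp)) := by
      calc M ^ 4 ≤ B ^ 4 := by gcongr
        _ = 64 ^ 4 * e ^ (-(20 * thp)) := by
          rw [hBk]
          congr 2
          push_cast
          ring
    calc 4 * M ^ 4 * (2 * cl J (8 * (lam * (512 * M ^ 4 * nb ^ 2 * e))) ^ 2)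
        ≤ 4 * (64 ^ 4 * e ^ (-(20 * thp))) * (2 * (64 * ((4096 * 64 ^ 7) ^ 2 *
          e ^ (3 / 2 - 105 / 2 * thp)))) := by
          refine mul_le_mul (by linarith) ?_ (by positivity) (by positivity)
          linarith
      _ = 512 * 64 ^ 4 * (4096 * 64 ^ 7) ^ 2 *
          (e ^ (-(20 * thp)) * e ^ (3 / 2 - 105 / 2 * thp)) := by ring
      _ ≤ _ := by
        rw [← Real.rpow_add he]
        exact mul_le_mul_of_nonneg_left (rpow_anti he he1 (by linarith)) (by positivity)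
  -- bad terms
  have hs : √p ≤ 8 * e ^ (q / 2) := by
    rw [Real.sqrt_le_left (by positivity)]
    refine hp.trans ?_
    have : (8 * e ^ (q / 2)) ^ 2 = 64 * e ^ q := by
      rw [pow_base he]
      norm_num
    rw [this]
    have : 0 ≤ e ^ q := by positivity
    linarith
  have hs0 := Real.sqrt_nonneg p
  have t2 : 4 * M ^ 4 * (21300 * (4 * M ^ 2 * nc ^ 2) ^ 2 * √p + 18 * (nc ^ 2) ^ 2 * √p) ≤
      4 * 64 ^ 8 * 128 ^ 4 * 340818 * 8 * e ^ (5 / 4 : ℝ) := by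
    have s3 : nc ^ 4 ≤ 128 ^ 4 * e ^ (-(20 * thp + 4 * C0)) := by
      calc nc ^ 4 ≤ (128 * e ^ (-(5 * thp + C0))) ^ 4 := by gcongr
        _ = _ := by
          rw [pow_base he]
          congr 2
          push_cast
          ring
    have s4 : B ^ 8 = 64 ^ 8 * e ^ (-(40 * thp)) := by
      rw [hBk]
      congr 2
      push_cast
      ring
    have s5 : M ^ 4 * M ^ 4 ≤ B ^ 8 := by
      calc M ^ 4 * M ^ 4 ≤ B ^ 4 * B ^ 4 := by gcongr
        _ = B ^ 8 := by ring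
    have s6 : M ^ 4 ≤ B ^ 8 := by
      calc M ^ 4 ≤ B ^ 4 := by gcongr
        _ ≤ B ^ 8 := pow_le_pow_right₀ hB1 (by norm_num)
    have hnc : 0 ≤ nc ^ 4 := by positivity
    calc 4 * M ^ 4 * (21300 * (4 * M ^ 2 * nc ^ 2) ^ 2 * √p + 18 * (nc ^ 2) ^ 2 * √p)
        = 4 * ((340800 * (M ^ 4 * M ^ 4) + 18 * M ^ 4) * nc ^ 4 * √p) := by ring
      _ ≤ 4 * ((340800 * B ^ 8 + 18 * B ^ 8) * (128 ^ 4 * e ^ (-(20 * thp + 4 * C0))) *
          (8 * e ^ (q / 2))) := by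
          gcongr
      _ = 4 * 64 ^ 8 * 128 ^ 4 * 340818 * 8 *
          (e ^ (-(40 * thp)) * e ^ (-(20 * thp + 4 * C0)) * e ^ (q / 2)) := by
          rw [s4]; ring
      _ ≤ _ := by
        rw [← Real.rpow_add he, ← Real.rpow_add he]
        exact mul_le_mul_of_nonneg_left (rpow_anti he he1 (by linarith)) (by positivity)
  have e3 : e ^ (5 / 4 : ℝ) = e ^ (1 / 4 : ℝ) * e := by
    nth_rw 3 [← Real.rpow_one e]
    rw [← Real.rpow_add he]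
    norm_num
  calc 4 * M ^ 4 * (2 * cl J (8 * (lam * (512 * M ^ 4 * nb ^ 2 * e))) ^ 2 +
        21300 * (4 * M ^ 2 * nc ^ 2) ^ 2 * √p + 18 * (nc ^ 2) ^ 2 * √p)
      = 4 * M ^ 4 * (2 * cl J (8 * (lam * (512 * M ^ 4 * nb ^ 2 * e))) ^ 2) +
        4 * M ^ 4 * (21300 * (4 * M ^ 2 * nc ^ 2) ^ 2 * √p + 18 * (nc ^ 2) ^ 2 * √p) := by ring
    _ ≤ 512 * 64 ^ 4 * (4096 * 64 ^ 7) ^ 2 * e ^ (5 / 4 : ℝ) +
        4 * 64 ^ 8 * 128 ^ 4 * 340818 * 8 * e ^ (5 / 4 : ℝ) := add_le_add t1 t2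
    _ = A * e ^ (1 / 4 : ℝ) * e := by rw [e3, hA]; ring
    _ ≤ κ * e := mul_le_mul_of_nonneg_right k2 he.le

/-! ### numbers of the state -/

/-- typical sources in the letters of helper859 -/
lemma typ_of {N l : ℕ} [NeZero N] [NeZero (N / l)] {b T s Y p : ℝ} {I : Type*} [Fintype I]
    {A : Matrix (V (N / l)) I ℝ} (hF : Ful N l b T s A) (h : TypE N l b T s Y 1 p) (hY : 1 ≤ Y)
    (hp : p ≤ 1 / 2) : Typ N l b T s A Y p :=
  { toFul := hF, Q1 := hY, p1 := hp, typ := h }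

lemma tn_ratio {n m : ℕ} (h : n ≤ m) : tn n = (2 ^ (m - n)) ^ 2 * tn m := by
  unfold tn
  have h5 : (4 : ℝ) ^ m = (2 ^ (m - n)) ^ 2 * 4 ^ n := by
    rw [← pow_mul, mul_comm (m - n) 2, pow_mul]
    norm_num
    rw [← pow_add, Nat.sub_add_cancel h]
  rw [h5]
  field_simp

/-- the cumulant in units of the box number -/
lemma K4_le {b T ε : ℝ} {n r s : ℕ} (hn : n ≤ r) (h : DN b n r s T ≤ ε) :
    T ^ 2 * K4S (nwt (2 ^ r) b T 0) (SN (2 ^ r) (2 ^ s)) (SN (2 ^ r) (2 ^ s)) ≤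
      2 * ((2 : ℝ) ^ (r - n)) ^ 2 * ε := by
  unfold DN at h
  have e : (2 : ℝ) ^ r = 2 ^ (r - n) * 2 ^ n := by rw [← pow_add, Nat.sub_add_cancel hn]
  rw [e] at h
  set K4 := K4S (nwt (2 ^ r) b T 0) (SN (2 ^ r) (2 ^ s)) (SN (2 ^ r) (2 ^ s))
  set x : ℝ := 2 ^ (r - n) with hx
  have hx0 : 0 < x := by positivity
  have h2 : (0 : ℝ) < 2 ^ n := by positivity
  have e2 : 1 / 2 * T ^ 2 * (2 ^ n / (x * 2 ^ n)) ^ 2 * K4 = T ^ 2 * K4 / (2 * x ^ 2) := by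
    field_simp
  rw [e2, div_le_iff₀ (by positivity)] at h
  linarith

/-- **(V)**, from the state at level `n` -/
theorem sumV {th thp C0 b κ q : ℝ} (hb : 0 < b) (hκ : 0 < κ) (ht0 : 0 < thp)
    (ht : thp ≤ 1 / 300) (hC : 0 ≤ C0) (hq : 8 * C0 + 8 ≤ q) {J : ℕ} (hJ : 2 ≤ J) :
    ∃ E : ℝ, 0 < E ∧ ∀ (n m r s : ℕ) (ε : ℝ) [NeZero (2 ^ r / 2 ^ s)],
      StN th thp C0 n m r s ε → ε ≤ E → ∀ T Y : ℝ, tn n ≤ T → T ≤ 4 * tn n →
      DN b n r s T ≤ ε → (2 : ℝ) ^ (J + 2) ≤ Y → TypE (2 ^ r) (2 ^ s) b T (tn m) Y 1 (ε ^ q) →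
      ∀ S : Finset (V (2 ^ r / 2 ^ s)),
        16 ^ (m - n) * (2 ^ n / 2 ^ r) ^ 2 *
          (T * ∑ k ∈ S, Vk (2 ^ r) (2 ^ s) b T (tn m) T k) ≤ κ * ε := by
  obtain ⟨E1, hE1, h1⟩ := v_core hκ ht0 ht hC hq
  obtain ⟨E2, hE2, h2⟩ := exp_absorb (c := 1 / 10) (a := thp / 2) q (by norm_num) (by linarith)
  refine ⟨min (1 / 2) (min E1 E2), by positivity, ?_⟩
  intro n m r s ε _ hN hε T Y hT1 hT2 hD hY hTy S
  have k1 := h1 ε hN.ε0 (hε.trans ((min_le_right _ _).trans (min_le_left _ _))) J hJ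
  have k2 := h2 ε hN.ε0 (hε.trans ((min_le_right _ _).trans (min_le_right _ _)))
  have he := hN.ε0
  have he1 := hN.ε1'
  have htm : 0 < tn m := tn_pos m
  have htn : 0 < tn n := tn_pos n
  have hT : 0 < T := htn.trans_le hT1
  have hnm := hN.nm
  have hmr := hN.mr
  have hl : 2 ^ s ∣ 2 ^ r := Nat.pow_dvd_pow 2 (by have := hN.hsn; omega)
  set M : ℝ := 2 ^ (m - n) with hM
  set nb : ℝ := 2 ^ (r - n) with hnb
  have hM0 : 0 < M := by positivity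
  have hM2 : 2 ≤ M := by
    have h3 : 1 ≤ lg thp ε := one_le_lg ht0 he hN.ε1
    have h4 : 1 ≤ m - n := by have := hN.lo; omega
    calc (2 : ℝ) = 2 ^ 1 := by norm_num
      _ ≤ M := pow_le_pow_right₀ one_le_two h4
  have hnb0 : 0 < nb := by positivity
  have hnb1 : 1 ≤ nb := one_le_pow₀ one_le_two
  have hr := tn_ratio hnm
  rw [← hM] at hr
  -- masses
  have hsT : tn m ≤ T / 2 := by
    have : tn m * 4 ≤ tn n := by
      rw [hr]
      have h4 : 4 ≤ M ^ 2 := by nlinarith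
      nlinarith
    linarith
  have hsT' : tn m < T := by linarith
  have hTs : T ≤ 4 * M ^ 2 * tn m := by
    rw [hr] at hT2
    linarith
  -- the cumulant
  set K4 := K4S (nwt (2 ^ r) b T 0) (SN (2 ^ r) (2 ^ s)) (SN (2 ^ r) (2 ^ s)) with hK4
  have hK := K4_le (b := b) (T := T) (by omega : n ≤ r) hD
  rw [← hK4, ← hnb] at hK
  set D : ℝ := 512 * M ^ 4 * nb ^ 2 * ε with hDd
  have hD0 : 0 < D := by positivity
  have hratio : (T / tn m) ^ 2 ≤ (4 * M ^ 2) ^ 2 := by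
    refine pow_le_pow_left₀ (by positivity) ?_ 2
    rw [div_le_iff₀ htm]
    exact hTs
  have hK0 : 0 ≤ T ^ 2 * K4 ∨ T ^ 2 * K4 ≤ 0 := le_total _ _
  have hK1 : (T ^ 2 / tn m) ^ 2 * K4 ≤ (4 * M ^ 2) ^ 2 * (2 * nb ^ 2 * ε) := by
    have e : (T ^ 2 / tn m) ^ 2 * K4 = (T / tn m) ^ 2 * (T ^ 2 * K4) := by
      field_simp
    rw [e]
    rcases hK0 with h3 | h3
    · exact mul_le_mul hratio hK h3 (by positivity)
    · exact (mul_nonpos_of_nonneg_of_nonpos (sq_nonneg _) h3).trans (by positivity)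
  -- typical sources
  obtain ⟨A, hA⟩ := H239.exists_increment
    ((H859.dat_neu' (N := 2 ^ r) (l := 2 ^ s) (t := T) hb hl hT).pd htm hsT').posSemidef
  have hF : Ful (2 ^ r) (2 ^ s) b T (tn m) A := ⟨hb, hl, htm, hsT', hA.symm⟩
  have hp1 : ε ^ q ≤ 1 / 2 := by
    calc ε ^ q ≤ ε ^ (1 : ℝ) := rpow_anti he he1 (by linarith)
      _ = ε := Real.rpow_one ε
      _ ≤ 1 / 2 := hN.ε1
  have hY2 : (2 : ℝ) ^ (J + 1) ≤ Y := by
    refine le_trans ?_ hY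
    exact pow_le_pow_right₀ one_le_two (by omega)
  have hY1 : 1 ≤ Y := (one_le_pow₀ one_le_two).trans hY
  have hty := typ_of hF hTy hY1 hp1
  set lam : ℝ := ε ^ (-thp) with hlam
  have hlam0 : 0 < lam := Real.rpow_pos_of_pos he _
  have hexp : Real.exp (-(√lam / 10)) ≤ ε ^ q := by
    have e : √lam = ε ^ (-(thp / 2)) := by
      rw [hlam, Real.sqrt_eq_rpow, ← Real.rpow_mul he.le]
      congr 1
      ring
    rw [e]
    refine le_trans (le_of_eq ?_) k2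
    congr 2
    ring
  have c1 := hty.close_exact (r := 2) (n := J) (D := D) (lam := lam) (by norm_num) (by
      calc (2 : ℝ) ^ (J + 1) * 2 = 2 ^ (J + 2) := by ring
        _ ≤ Y := hY) hD0 (by
      calc (2 : ℝ) ^ 4 * ((T ^ 2 / tn m) ^ 2 * K4) ≤ 2 ^ 4 * ((4 * M ^ 2) ^ 2 *
            (2 * nb ^ 2 * ε)) := mul_le_mul_of_nonneg_left hK1 (by norm_num)
        _ = D := by rw [hDd]; ring) hlam0.le
  have c2 := hty.noise (κ' := T / 2) (r := 1) (n := J) (D := D) (lam := lam) (by positivity)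
      (by linarith) (by norm_num) (by linarith) hD0 (by
      have e : (1 : ℝ) ^ 4 * ((T / 2) ^ 2 * K4) = T ^ 2 * K4 / 4 := by ring
      rw [e]
      have h4 : (1 : ℝ) ≤ M ^ 4 := one_le_pow₀ (by linarith)
      have h5 : 0 ≤ nb ^ 2 * ε := by positivity
      calc T ^ 2 * K4 / 4 ≤ 2 * nb ^ 2 * ε / 4 := by linarith
        _ ≤ 512 * 1 * (nb ^ 2 * ε) := by linarith
        _ ≤ 512 * M ^ 4 * (nb ^ 2 * ε) := by gcongr
        _ = D := by rw [hDd]; ring) hlam0.le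
  have hq0 : 0 ≤ ε ^ q := Real.rpow_nonneg he.le _
  set R : ℝ := cl J (8 * (lam * D)) with hR
  have hR0 : 0 ≤ R := cl_nonneg J _
  set p' : ℝ := 55 * ε ^ q with hp'
  have h3 := H159.sum_Vk_num (N := 2 ^ r) (l := 2 ^ s) (b := b) (T := T) (a := tn m) hb hl htm
    hsT'.le (H859.RQ_meas (N := 2 ^ r) hb.le hT 2 R) hR0 hR0 (fun F hF => hF)
    (p := p') (c1.trans (by rw [hp']; linarith)) (p₁ := p') (by
      refine (measureReal_mono fun g hg => ?_).trans (c2.trans (by rw [hp']; linarith))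
      simp only [Set.mem_ofPred_eq] at hg ⊢
      intro hc
      rw [one_smul, ← Matrix.transpose_smul] at hc
      exact absurd hc.1 (not_le.2 hg)) S
  have hnc : (((2 ^ r / 2 ^ s : ℕ) : ℕ) : ℝ) = 2 ^ (r - s) := by
    rw [Nat.pow_div (by have := hN.hsn; omega) two_pos]
    push_cast
    rfl
  rw [hnc] at h3
  set nc : ℝ := 2 ^ (r - s) with hncd
  have hnc0 : 0 < nc := by positivity
  have h4 : T * ∑ k ∈ S, Vk (2 ^ r) (2 ^ s) b T (tn m) T k ≤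
      4 * (2 * R ^ 2 + 21300 * (4 * M ^ 2 * nc ^ 2) ^ 2 * √p' + 18 * (nc ^ 2) ^ 2 * √p') := by
    have h5 : (T * nc ^ 2 / tn m) ^ 2 ≤ (4 * M ^ 2 * nc ^ 2) ^ 2 := by
      refine pow_le_pow_left₀ (by positivity) ?_ 2
      rw [div_le_iff₀ htm]
      calc T * nc ^ 2 ≤ (4 * M ^ 2 * tn m) * nc ^ 2 := by gcongr
        _ = _ := by ring
    calc T * ∑ k ∈ S, Vk (2 ^ r) (2 ^ s) b T (tn m) T k
        ≤ T * (4 / T * (R ^ 2 + R ^ 2 + 21300 * (T * nc ^ 2 / tn m) ^ 2 * √p' +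
          18 * (nc ^ 2) ^ 2 * √p')) := mul_le_mul_of_nonneg_left h3 hT.le
      _ = 4 * (2 * R ^ 2 + 21300 * (T * nc ^ 2 / tn m) ^ 2 * √p' + 18 * (nc ^ 2) ^ 2 * √p') := by
        field_simp
        ring
      _ ≤ _ := by gcongr
  have h6 : (16 : ℝ) ^ (m - n) = M ^ 4 := by
    rw [hM, ← pow_mul, mul_comm, pow_mul]
    norm_num
  have h7 : ((2 : ℝ) ^ n / 2 ^ r) ^ 2 ≤ 1 := by
    refine pow_le_one₀ (by positivity) ?_
    rw [div_le_one (by positivity)]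
    exact pow_le_pow_right₀ one_le_two (by omega)
  have h8 := k1 M nb nc lam p' hM0.le hnb0.le hnc0.le hlam0.le hN.M_leB hN.nb_le (by
    have e1 := rpow_anti he he1 (show -(5 * thp) ≤ -thp by linarith)
    have e2 := Real.rpow_pos_of_pos he (-(5 * thp))
    rw [hlam]
    linarith) hN.nc_le le_rfl
  have h9 : 0 ≤ T * ∑ k ∈ S, Vk (2 ^ r) (2 ^ s) b T (tn m) T k :=
    mul_nonneg hT.le (Finset.sum_nonneg fun k _ => H159.Vk_nonneg hb.le hl htm hsT'.le le_rfl k)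
  rw [h6]
  calc M ^ 4 * (2 ^ n / 2 ^ r) ^ 2 * (T * ∑ k ∈ S, Vk (2 ^ r) (2 ^ s) b T (tn m) T k)
      ≤ M ^ 4 * 1 * (4 * (2 * R ^ 2 + 21300 * (4 * M ^ 2 * nc ^ 2) ^ 2 * √p' +
        18 * (nc ^ 2) ^ 2 * √p')) := by
        refine mul_le_mul (mul_le_mul_of_nonneg_left h7 (by positivity)) h4 h9 (by positivity)
    _ = 4 * M ^ 4 * (2 * R ^ 2 + 21300 * (4 * M ^ 2 * nc ^ 2) ^ 2 * √p' +
        18 * (nc ^ 2) ^ 2 * √p') := by ring
    _ ≤ κ * ε := h8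

end

end Vale.Agent.P159.H145
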