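import Vale.Agent.P159.H145.Nu2
import Vale.Agent.P159.H612.Nearg6

/-!
P159 / P_up (helper145), module NUM, part 3: calculus of bounds `0 ≤ x ≤ A ε ^ a` and the arithmetic
of the near part (inputs (B1), (B3) of `D0Step`).
-/

set_option linter.unusedSectionVars false

namespace Vale.Agent.P159.H145

open Finset Matrix MeasureTheory
open Vale.Agent.P159.H37
open Vale.Agent.P159.H972
open Vale.Agent.P159.H447 (cl cl_eq cl_nonneg cl_mono)

noncomputable section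

/-- `0 ≤ x ≤ A e ^ a` -/
structure Bd (e x A a : ℝ) : Prop where
  x0 : 0 ≤ x
  A0 : 0 ≤ A
  le : x ≤ A * e ^ a

namespace Bd

variable {e x y A B a b : ℝ}

lemma mul (he : 0 < e) (h : Bd e x A a) (h' : Bd e y B b) : Bd e (x * y) (A * B) (a + b) where
  x0 := mul_nonneg h.x0 h'.x0
  A0 := mul_nonneg h.A0 h'.A0
  le := by
    rw [Real.rpow_add he]
    calc x * y ≤ (A * e ^ a) * (B * e ^ b) :=
          mul_le_mul h.le h'.le h'.x0 (mul_nonneg h.A0 (Real.rpow_nonneg he.le _))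
      _ = _ := by ring

lemma add (h : Bd e x A a) (h' : Bd e y B a) : Bd e (x + y) (A + B) a where
  x0 := add_nonneg h.x0 h'.x0
  A0 := add_nonneg h.A0 h'.A0
  le := by
    have h1 := h.le
    have h2 := h'.le
    rw [add_mul]
    exact add_le_add h1 h2

lemma smul {c : ℝ} (hc : 0 ≤ c) (h : Bd e x A a) : Bd e (c * x) (c * A) a where
  x0 := mul_nonneg hc h.x0
  A0 := mul_nonneg hc h.A0
  le := by
    rw [mul_assoc]
    exact mul_le_mul_of_nonneg_left h.le hc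

lemma rp (he : 0 < e) {s : ℝ} (hs : 0 ≤ s) (h : Bd e x A a) : Bd e (x ^ s) (A ^ s) (a * s) where
  x0 := Real.rpow_nonneg h.x0 _
  A0 := Real.rpow_nonneg h.A0 _
  le := by
    calc x ^ s ≤ (A * e ^ a) ^ s := Real.rpow_le_rpow h.x0 h.le hs
      _ = _ := by rw [Real.mul_rpow h.A0 (Real.rpow_nonneg he.le _), ← Real.rpow_mul he.le]

lemma pow (he : 0 < e) (k : ℕ) (h : Bd e x A a) : Bd e (x ^ k) (A ^ k) (a * k) where
  x0 := pow_nonneg h.x0 _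
  A0 := pow_nonneg h.A0 _
  le := by
    rw [← pow_base he]
    exact pow_le_pow_left₀ h.x0 h.le k

lemma sqrt (he : 0 < e) (h : Bd e x A a) : Bd e (√x) (√A) (a / 2) where
  x0 := Real.sqrt_nonneg _
  A0 := Real.sqrt_nonneg _
  le := by
    have e1 : √(e ^ a) = e ^ (a / 2) := by
      rw [Real.sqrt_eq_rpow, ← Real.rpow_mul he.le]
      congr 1
      ring
    rw [← e1, ← Real.sqrt_mul h.A0]
    exact Real.sqrt_le_sqrt h.le

lemma mono (he : 0 < e) (he1 : e ≤ 1) (h : Bd e x A a) (hA : A ≤ B) (hb : b ≤ a) :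
    Bd e x B b where
  x0 := h.x0
  A0 := h.A0.trans hA
  le := h.le.trans (mul_le_mul hA (rpow_anti he he1 hb) (Real.rpow_nonneg he.le _)
    (h.A0.trans hA))

lemma exp (he : 0 < e) (he1 : e ≤ 1) (h : Bd e x A a) (hb : b ≤ a) : Bd e x A b :=
  h.mono he he1 le_rfl hb

/-- smaller quantities -/
lemma of_le (h : Bd e x A a) (hy0 : 0 ≤ y) (hy : y ≤ x) : Bd e y A a :=
  ⟨hy0, h.A0, hy.trans h.le⟩

lemma cst (he : 0 < e) (he1 : e ≤ 1) {c : ℝ} (hc : 0 ≤ c) : Bd e c c 0 :=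
  ⟨hc, hc, by rw [Real.rpow_zero, mul_one]⟩

lemma self (he : 0 < e) : Bd e e 1 1 := ⟨he.le, zero_le_one, by rw [Real.rpow_one, one_mul]⟩

end Bd

/-- all bounds of exponent `1 + μ` are absorbed -/
lemma fin_absorb {A μ κ : ℝ} (hA : 0 ≤ A) (hμ : 0 < μ) (hκ : 0 < κ) :
    ∃ E : ℝ, 0 < E ∧ ∀ e, 0 < e → e ≤ E → ∀ x, Bd e x A (1 + μ) → x ≤ κ * e := by
  obtain ⟨E, hE, h⟩ := absorb hA hμ hκ
  refine ⟨E, hE, fun e he hee x hx => ?_⟩
  have h1 := h e he hee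
  calc x ≤ A * e ^ (1 + μ) := hx.le
    _ = A * e ^ μ * e := by rw [Real.rpow_add he, Real.rpow_one]; ring
    _ ≤ κ * e := mul_le_mul_of_nonneg_right h1 he.le

/-- unit free number of the localisation, `x = 1 - 2 ^ (-J)`, `r = T / a`, `κ' = κ T` -/
def LC (J : ℕ) (nn r lD e β κ' ω : ℝ) : ℝ :=
  2 * ((2 * (4 * (κ' * nn ^ 2 * r) + 8 * ω ^ 2) +
    176 * (32 * (lD * e ^ 2)) ^ (1 - (1 / 2 : ℝ) ^ J) + 576 * (2 * nn ^ 2 * r * √β)) / e)

/-- unit free size of the excess covariance -/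
def SZ (J : ℕ) (lD q β : ℝ) : ℝ := 2 * (cl J (128 * lD) + 24 * (q * √β))

/-- unit free error of the law -/
def LW (J : ℕ) (nn r lD e q β κ' ω ρ pe : ℝ) : ℝ :=
  (Real.exp ρ - 1 + pe) * (SZ J lD q β + LC J nn r lD e β κ' ω) + 39 * (nn * (nn ^ 2 * r) * √pe)

/-- unit free difference of the priors on the window -/
def CT (J : ℕ) (lD δ q β : ℝ) : ℝ :=
  2 * ((336 * (32 * (lD * δ)) ^ (1 - (1 / 2 : ℝ) ^ J) + 264 * (q * √β)) / √δ)

/-- unit free number of the near part -/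
def TDT (J : ℕ) (nn r lD e q β κ' ω ρ pe δ : ℝ) : ℝ :=
  2 * (LW J nn r lD e q β κ' ω ρ pe + LC J nn r lD e β κ' ω) + CT J lD δ q β

/-- `T dtN` in unit free letters -/
lemma T_dtN {N l ρw J : ℕ} [NeZero N] [NeZero (N / l)] {b T a c D e lam q β κ ω ρ pe : ℝ}
    (hT : 0 < T) (ha : 0 < a) :
    T * H612.dtN N l ρw J b T a c D e lam q β κ ω ρ pe =
      TDT J ((N / l : ℕ) : ℝ) (T / a) (lam * D) e q β (κ * T) ω ρ pe
        (8 * (c / T) * H859.wc N l ρw b T a) := by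
  unfold H612.dtN H612.LwN H612.LcN H612.CtN H612.szW TDT LW LC SZ CT
  set nn : ℝ := ((N / l : ℕ) : ℝ)
  set δ := 8 * (c / T) * H859.wc N l ρw b T a
  have e1 : 4 * κ * nn ^ 2 * (T ^ 2 / a) = 4 * (κ * T * nn ^ 2 * (T / a)) := by
    field_simp
  have e2 : lam * D * e ^ 2 = lam * D * e ^ 2 := rfl
  rw [e1]
  generalize (32 * (lam * D * e ^ 2)) ^ (1 - (1 / 2 : ℝ) ^ J) = z1
  generalize (32 * (lam * D * δ)) ^ (1 - (1 / 2 : ℝ) ^ J) = z2
  generalize (cl J (128 * (lam * D))) = z3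
  generalize √β = sb
  generalize √δ = sd
  generalize √pe = sp
  generalize Real.exp ρ = ex
  set f := 2 * (4 * (κ * T * nn ^ 2 * (T / a)) + 8 * ω ^ 2) + 176 * z1 +
    576 * (2 * nn ^ 2 * (T / a) * sb) with hf
  have hT' : T ≠ 0 := hT.ne'
  have ha' : a ≠ 0 := ha.ne'
  have k1 : T * (2 / T) = 2 := by field_simp
  have k2 : T * (nn ^ 2 / a) = nn ^ 2 * (T / a) := by ring
  calc T * (2 * ((ex - 1 + pe) * (2 / T * (z3 + 24 * (q * sb)) + 2 / T * (f / e)) +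
        39 * (nn * (nn ^ 2 / a) * sp) + 2 / T * (f / e)) +
        2 / T * ((336 * z2 + 264 * (q * sb)) / sd))
      = 2 * ((ex - 1 + pe) * ((T * (2 / T)) * (z3 + 24 * (q * sb)) + (T * (2 / T)) * (f / e)) +
        39 * (nn * (T * (nn ^ 2 / a)) * sp) + (T * (2 / T)) * (f / e)) +
        (T * (2 / T)) * ((336 * z2 + 264 * (q * sb)) / sd) := by ring
    _ = _ := by rw [k1, k2]

/-! ### the near part: everything except the zero background term -/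

section core

variable {thp σ C0 A c1 q0 : ℝ} {J : ℕ}

/-- `LC` without the zero background -/
def LCa (J : ℕ) (nn r lD e β κ' : ℝ) : ℝ :=
  2 * ((2 * (4 * (κ' * nn ^ 2 * r)) +
    176 * (32 * (lD * e ^ 2)) ^ (1 - (1 / 2 : ℝ) ^ J) + 576 * (2 * nn ^ 2 * r * √β)) / e)

lemma LC_split (nn r lD e β κ' ω : ℝ) :
    LC J nn r lD e β κ' ω = LCa J nn r lD e β κ' + 32 * ω ^ 2 / e := by
  unfold LC LCa
  ring

/-- the hypotheses on the numbers of the near part -/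
structure NB (thp σ C0 A c1 q0 : ℝ) (ε K4 M nn r lD κ' β q δ ρ pe : ℝ) : Prop where
  ε0 : 0 < ε
  ε1 : ε ≤ 1
  K : Bd ε K4 A (-σ)
  M1 : ε ^ (-thp) ≤ M
  M2 : M ≤ 64 * ε ^ (-(5 * thp))
  nn0 : 0 ≤ nn
  nn1 : nn ≤ 128 * ε ^ (-(5 * thp + C0))
  r0 : 0 ≤ r
  r1 : r ≤ 4 * M ^ 2
  lD1 : Bd ε lD A (1 - σ)
  k1 : Bd ε κ' A q0
  be : Bd ε β A q0
  q1 : Bd ε q A (-c1)
  d1 : (M ^ 2)⁻¹ ≤ δ
  d2 : δ ≤ A * ε ^ (-σ) * (M ^ 2)⁻¹
  r00 : 0 ≤ ρ
  rh : ρ ≤ A * ε ^ (3 / 4 : ℝ)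
  rh1 : ρ ≤ 1
  p1 : Bd ε pe A q0

variable {ε K4 M nn r lD κ' β q δ ρ pe : ℝ}

namespace NB

variable (h : NB thp σ C0 A c1 q0 ε K4 M nn r lD κ' β q δ ρ pe)
include h

lemma M0 : 0 < M := (Real.rpow_pos_of_pos h.ε0 _).trans_le h.M1

lemma bM : Bd ε M 64 (-(5 * thp)) := ⟨h.M0.le, by norm_num, h.M2⟩

lemma bMi : Bd ε M⁻¹ 1 thp := by
  refine ⟨inv_nonneg.2 h.M0.le, zero_le_one, ?_⟩
  rw [one_mul, inv_le_comm₀ h.M0 (Real.rpow_pos_of_pos h.ε0 _), ← Real.rpow_neg h.ε0.le]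
  exact h.M1

lemma bnn : Bd ε nn 128 (-(5 * thp + C0)) := ⟨h.nn0, by norm_num, h.nn1⟩

lemma br : Bd ε r (4 * 64 ^ 2) (-(5 * thp) * (2 : ℕ)) :=
  ((h.bM.pow h.ε0 2).smul (by norm_num : (0 : ℝ) ≤ 4)).of_le h.r0 h.r1

lemma bu (hA : 0 ≤ A) (hq : 3 / 4 ≤ q0) : Bd ε (Real.exp ρ - 1 + pe) (3 * A) (3 / 4) := by
  have h1 : Real.exp ρ - 1 ≤ 2 * ρ := by
    have h4 := Real.abs_exp_sub_one_le (x := ρ) (by rw [abs_of_nonneg h.r00]; exact h.rh1)
    rw [abs_of_nonneg h.r00] at h4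
    exact (le_abs_self _).trans h4
  have h2 : Bd ε ρ A (3 / 4) := ⟨h.r00, hA, h.rh⟩
  have h3 := (h2.smul (by norm_num : (0 : ℝ) ≤ 2)).add (h.p1.exp h.ε0 h.ε1 hq)
  have h5 := h.p1.x0
  have h6 := Real.one_le_exp h.r00
  have h7 := h3.of_le (y := Real.exp ρ - 1 + pe) (by linarith) (by linarith)
  have e : 2 * A + A = 3 * A := by ring
  rwa [e] at h7

/-- `(32 lD) ^ x` -/
lemma blx (hh0 : (0 : ℝ) ≤ (1 / 2 : ℝ) ^ J) (hh : (1 / 2 : ℝ) ^ J ≤ 1) (hσ0 : 0 ≤ σ)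
    {c : ℝ} (hc : 0 ≤ c) : Bd ε ((c * lD) ^ (1 - (1 / 2 : ℝ) ^ J)) ((c * A) ^ (1 - (1 / 2 : ℝ) ^ J))
      (1 - σ - (1 / 2 : ℝ) ^ J) := by
  have h1 := (h.lD1.smul hc).rp h.ε0 (s := 1 - (1 / 2 : ℝ) ^ J) (by linarith)
  exact h1.exp h.ε0 h.ε1 (by nlinarith)

end NB

/-- powers of `1 / 2` -/
lemma hJ_bounds (ht0 : 0 < thp) (ht : thp ≤ 1 / 300) (hJ : (1 / 2 : ℝ) ^ J ≤ thp / 32) :
    0 < (1 / 2 : ℝ) ^ J ∧ (1 / 2 : ℝ) ^ J ≤ 1 / 9600 := ⟨by positivity, by linarith⟩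

/-- **the near part without the zero background** -/
theorem nb_bd (ht0 : 0 < thp) (ht : thp ≤ 1 / 300) (hσ0 : 0 ≤ σ) (hσ : σ ≤ thp / 32)
    (hC : 0 ≤ C0) (hA : 0 ≤ A) (hc1 : 0 ≤ c1) (hq0 : 12 * C0 + 2 * c1 + 12 ≤ q0)
    (hJ : (1 / 2 : ℝ) ^ J ≤ thp / 32) :
    ∃ B : ℝ, ∀ ε K4 M nn r lD κ' β q δ ρ pe : ℝ,
      NB thp σ C0 A c1 q0 ε K4 M nn r lD κ' β q δ ρ pe →
      Bd ε (K4 * (2 * (Real.exp ρ - 1 + pe) * SZ J lD q β +
        2 * (Real.exp ρ - 1 + pe + 1) * LCa J nn r lD M⁻¹ β κ' +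
        78 * (nn * (nn ^ 2 * r) * √pe) + CT J lD δ q β)) B (1 + thp / 2) := by
  obtain ⟨hh0, hh1⟩ := hJ_bounds ht0 ht hJ
  refine ⟨?_, fun ε K4 M nn r lD κ' β q δ ρ pe h => ?_⟩
  rotate_left
  have he := h.ε0
  have he1 := h.ε1
  have hM := h.M0
  set x : ℝ := 1 - (1 / 2 : ℝ) ^ J with hx
  have hx2 : 0 ≤ 2 * x - 1 := by rw [hx]; linarith
  -- probabilities
  have bq := h.q1.mul he (h.be.sqrt he)
  -- the law
  have u1 := ((h.blx (J := J) hh0.le (by linarith) hσ0 (by norm_num : (0 : ℝ) ≤ 128)).smul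
    (by norm_num : (0 : ℝ) ≤ 8)).exp he he1 (show 3 / 4 ≤ _ by linarith)
  have u2 := (bq.smul (by norm_num : (0 : ℝ) ≤ 24)).exp he he1 (show 3 / 4 ≤ _ by linarith)
  have u3 := ((u1.add u2).smul (by norm_num : (0 : ℝ) ≤ 2)).smul (by norm_num : (0 : ℝ) ≤ 2)
  have t1 := (h.K.mul he ((h.bu hA (by linarith)).mul he u3)).exp he he1
    (show 1 + thp / 2 ≤ _ by linarith)
  -- the localisation
  have bMx := h.bMi.rp he hx2
  have bu1 : Bd ε (Real.exp ρ - 1 + pe + 1) (3 * A + 1) 0 :=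
    ((h.bu hA (by linarith)).exp he he1 (by norm_num)).add (Bd.cst he he1 zero_le_one)
  have l1 := (((h.k1.mul he (h.bnn.pow he 2)).mul he h.br).mul he h.bM).exp he he1
    (show (2 : ℝ) ≤ _ by push_cast; linarith)
  have l2 := ((h.blx (J := J) hh0.le (by linarith) hσ0 (by norm_num : (0 : ℝ) ≤ 32)).mul he
    bMx).exp he he1 (show 1 + 3 / 4 * thp ≤ _ by rw [hx]; nlinarith)
  have l3 := ((((h.bnn.pow he 2).mul he h.br).mul he (h.be.sqrt he)).mul he h.bM).exp he he1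
    (show (2 : ℝ) ≤ _ by push_cast; linarith)
  have eLC : LCa J nn r lD M⁻¹ β κ' = 16 * (κ' * nn ^ 2 * r * M) +
      352 * ((32 * lD) ^ x * (M⁻¹) ^ (2 * x - 1)) + 2304 * (nn ^ 2 * r * √β * M) := by
    unfold LCa
    rw [← hx]
    have e1 : (32 * (lD * (M⁻¹) ^ 2)) ^ x = (32 * lD) ^ x * (M⁻¹) ^ (2 * x) := by
      rw [← mul_assoc, Real.mul_rpow (by have := h.lD1.x0; positivity) (by positivity)]
      congr 1
      rw [← Real.rpow_natCast (M⁻¹) 2, ← Real.rpow_mul (by positivity)]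
      norm_num
    have e2 : (M⁻¹) ^ (2 * x) = (M⁻¹) ^ (2 * x - 1) * M⁻¹ := by
      nth_rw 3 [← Real.rpow_one M⁻¹]
      rw [← Real.rpow_add (by positivity)]
      congr 1
      ring
    rw [e1, e2]
    generalize (M⁻¹) ^ (2 * x - 1) = z
    generalize (32 * lD) ^ x = w
    field_simp
    ring
  have m1 := ((l1.smul (by norm_num : (0 : ℝ) ≤ 16)).exp he he1
    (show 1 + 3 / 4 * thp ≤ 2 by linarith)).add (l2.smul (by norm_num : (0 : ℝ) ≤ 352))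
  have m2 := m1.add ((l3.smul (by norm_num : (0 : ℝ) ≤ 2304)).exp he he1
    (show 1 + 3 / 4 * thp ≤ 2 by linarith))
  have t2 := (h.K.mul he ((bu1.mul he m2).smul (by norm_num : (0 : ℝ) ≤ 2))).exp he he1
    (show 1 + thp / 2 ≤ _ by linarith)
  -- the bad part of the law
  have t3 := (h.K.mul he (((h.bnn.mul he ((h.bnn.pow he 2).mul he h.br)).mul he
    (h.p1.sqrt he)).smul (by norm_num : (0 : ℝ) ≤ 78))).exp he he1
    (show 1 + thp / 2 ≤ _ by push_cast; linarith)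
  -- the priors
  have hδ0 : 0 < δ := (by positivity : (0 : ℝ) < (M ^ 2)⁻¹).trans_le h.d1
  have bδ : Bd ε δ (A * (1 * 1)) (-σ + (thp + thp)) := by
    have h2 := (Bd.mk (e := ε) (x := A * ε ^ (-σ)) (A := A) (a := -σ)
      (mul_nonneg hA (Real.rpow_nonneg he.le _)) hA le_rfl).mul he (h.bMi.mul he h.bMi)
    refine h2.of_le hδ0.le (h.d2.trans (le_of_eq ?_))
    rw [pow_two, mul_inv]
  have bδx := (bδ.rp he (s := x - 1 / 2) (by rw [hx]; linarith)).exp he he1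
    (show thp - σ - 2 * thp * (1 / 2 : ℝ) ^ J ≤ _ by rw [hx]; nlinarith)
  have hsd : (√δ)⁻¹ ≤ M := by
    rw [inv_le_comm₀ (Real.sqrt_pos.2 hδ0) hM]
    refine Real.le_sqrt_of_sq_le ?_
    rw [inv_pow]
    exact h.d1
  have bsd : Bd ε (√δ)⁻¹ 64 (-(5 * thp)) := h.bM.of_le (by positivity) hsd
  have eCT : CT J lD δ q β = 672 * ((32 * lD) ^ x * δ ^ (x - 1 / 2)) +
      528 * (q * √β * (√δ)⁻¹) := by
    unfold CT
    rw [← hx]
    have e1 : (32 * (lD * δ)) ^ x = (32 * lD) ^ x * δ ^ x := by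
      rw [← mul_assoc, Real.mul_rpow (by have := h.lD1.x0; positivity) hδ0.le]
    have e2 : δ ^ x = δ ^ (x - 1 / 2) * √δ := by
      rw [Real.sqrt_eq_rpow, ← Real.rpow_add hδ0]
      congr 1
      ring
    have hs : √δ ≠ 0 := (Real.sqrt_pos.2 hδ0).ne'
    rw [e1, e2]
    generalize δ ^ (x - 1 / 2) = z
    generalize (32 * lD) ^ x = w
    field_simp
    ring
  have v1 := (((h.blx (J := J) hh0.le (by linarith) hσ0
    (by norm_num : (0 : ℝ) ≤ 32)).mul he bδx).smul (by norm_num : (0 : ℝ) ≤ 672)).exp he he1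
    (show 1 + 3 / 4 * thp ≤ _ by nlinarith)
  have v2 := ((bq.mul he bsd).smul (by norm_num : (0 : ℝ) ≤ 528)).exp he he1
    (show 1 + 3 / 4 * thp ≤ _ by linarith)
  have t4 := (h.K.mul he (v1.add v2)).exp he he1 (show 1 + thp / 2 ≤ _ by linarith)
  have hfin := ((t1.add t2).add t3).add t4
  have hcl : cl J (128 * lD) = 8 * (128 * lD) ^ x := by
    rw [cl_eq J (by have := h.lD1.x0; positivity)]
  have e5 : K4 * (2 * (Real.exp ρ - 1 + pe) * SZ J lD q β +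
        2 * (Real.exp ρ - 1 + pe + 1) * LCa J nn r lD M⁻¹ β κ' +
        78 * (nn * (nn ^ 2 * r) * √pe) + CT J lD δ q β) =
      K4 * ((Real.exp ρ - 1 + pe) * (2 * (2 * (8 * (128 * lD) ^ x + 24 * (q * √β))))) +
      K4 * (2 * ((Real.exp ρ - 1 + pe + 1) * (16 * (κ' * nn ^ 2 * r * M) +
        352 * ((32 * lD) ^ x * (M⁻¹) ^ (2 * x - 1)) + 2304 * (nn ^ 2 * r * √β * M)))) +
      K4 * (78 * (nn * (nn ^ 2 * r) * √pe)) +
      K4 * (672 * ((32 * lD) ^ x * δ ^ (x - 1 / 2)) + 528 * (q * √β * (√δ)⁻¹)) := by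
    rw [eLC, eCT]
    unfold SZ
    rw [hcl]
    ring
  rw [e5]
  exact hfin

/-- **the near part** -/
theorem near_core {κ sg : ℝ} (hκ : 0 < κ) (ht0 : 0 < thp) (ht : thp ≤ 1 / 300)
    (hsg : 60 * thp ≤ sg) (hσ0 : 0 ≤ σ) (hσ : σ ≤ thp / 32)
    (hC : 0 ≤ C0) (hA : 0 ≤ A) (hc1 : 0 ≤ c1) (hq0 : 12 * C0 + 2 * c1 + 12 ≤ q0)
    (hJ : (1 / 2 : ℝ) ^ J ≤ thp / 32) :
    ∃ E : ℝ, 0 < E ∧ ∀ ε K4 M nn r lD κ' β q δ ρ pe Y ω : ℝ,
      NB thp σ C0 A c1 q0 ε K4 M nn r lD κ' β q δ ρ pe → ε ≤ E → 0 < Y → 0 ≤ ω →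
      ω ≤ A * ε ^ (-(10 * thp)) * max Y ε →
      K4 * TDT J nn r lD M⁻¹ q β κ' ω ρ pe δ ≤ κ * max (ε / 8) (ε ^ (-(sg / 2)) * Y ^ 2) := by
  obtain ⟨B, hB⟩ := nb_bd (σ := σ) (A := A) (c1 := c1) (q0 := q0) ht0 ht hσ0 hσ hC hA hc1 hq0 hJ
  have hB0 : 0 ≤ |B| := abs_nonneg B
  obtain ⟨E1, hE1, h1⟩ := fin_absorb hB0 (by linarith : 0 < thp / 2)
    (by positivity : 0 < κ / 16)
  set G : ℝ := 4096 * (3 * A + 1) * A ^ 3 with hG
  have hG0 : 0 ≤ G := by positivity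
  obtain ⟨E2, hE2, h2⟩ := absorb hG0 ht0 (by positivity : 0 < κ / 2)
  obtain ⟨E3, hE3, h3⟩ := absorb hG0 (by norm_num : (0 : ℝ) < 1 / 2)
    (by positivity : 0 < κ / 16)
  refine ⟨min E1 (min E2 E3), by positivity, ?_⟩
  intro ε K4 M nn r lD κ' β q δ ρ pe Y ω h hε hY hω0 hω
  have he := h.ε0
  have he1 := h.ε1
  have k1 := h1 ε he (hε.trans (min_le_left _ _))
  have k2 := h2 ε he (hε.trans ((min_le_right _ _).trans (min_le_left _ _)))
  have k3 := h3 ε he (hε.trans ((min_le_right _ _).trans (min_le_right _ _)))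
  have a1 := k1 _ ((hB ε K4 M nn r lD κ' β q δ ρ pe h).mono he he1 (le_abs_self B) le_rfl)
  set u : ℝ := Real.exp ρ - 1 + pe with hu
  have hM := h.M0
  have bu := (h.bu hA (by linarith))
  have hu0 : 0 ≤ u := bu.x0
  have hu1 : u + 1 ≤ 3 * A + 1 := by
    have := (bu.exp he he1 (by norm_num : (0 : ℝ) ≤ 3 / 4)).le
    rw [Real.rpow_zero, mul_one] at this
    linarith
  have e1 : K4 * TDT J nn r lD M⁻¹ q β κ' ω ρ pe δ =
      K4 * (2 * u * SZ J lD q β + 2 * (u + 1) * LCa J nn r lD M⁻¹ β κ' +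
        78 * (nn * (nn ^ 2 * r) * √pe) + CT J lD δ q β) + 64 * (u + 1) * (K4 * (ω ^ 2 * M)) := by
    unfold TDT LW
    rw [LC_split, ← hu, div_inv_eq_mul]
    ring
  set mx := max Y ε with hmx
  have hmx0 : 0 < mx := hY.trans_le (le_max_left _ _)
  have a2 : 64 * (u + 1) * (K4 * (ω ^ 2 * M)) ≤ G * ε ^ (-(25 * thp + σ)) * mx ^ 2 := by
    have b1 : ω ^ 2 ≤ (A * ε ^ (-(10 * thp)) * mx) ^ 2 := pow_le_pow_left₀ hω0 hω 2
    have hK := h.K
    calc 64 * (u + 1) * (K4 * (ω ^ 2 * M))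
        ≤ 64 * (3 * A + 1) * ((A * ε ^ (-σ)) * ((A * ε ^ (-(10 * thp)) * mx) ^ 2 *
          (64 * ε ^ (-(5 * thp))))) := by
          refine mul_le_mul (by linarith) (mul_le_mul hK.le (mul_le_mul b1 h.M2 hM.le
            (sq_nonneg _)) (by positivity) (mul_nonneg hA (Real.rpow_nonneg he.le _)))
            (mul_nonneg hK.x0 (by positivity)) (by positivity)
      _ = G * (ε ^ (-σ) * (ε ^ (-(10 * thp)) * ε ^ (-(10 * thp))) * ε ^ (-(5 * thp))) *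
          mx ^ 2 := by
          rw [hG]; ring
      _ = _ := by
          rw [← Real.rpow_add he, ← Real.rpow_add he, ← Real.rpow_add he]
          congr 3
          ring
  set e' := max (ε / 8) (ε ^ (-(sg / 2)) * Y ^ 2) with he'
  have a3 : G * ε ^ (-(25 * thp + σ)) * mx ^ 2 ≤ κ / 2 * e' := by
    rcases le_total ε Y with hc | hc
    · have e2 : mx = Y := max_eq_left hc
      rw [e2]
      have e3 : G * ε ^ (-(25 * thp + σ)) ≤ κ / 2 * ε ^ (-(sg / 2)) := by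
        have e4 : ε ^ (-(25 * thp + σ)) ≤ ε ^ thp * ε ^ (-(sg / 2)) := by
          rw [← Real.rpow_add he]
          exact rpow_anti he he1 (by linarith)
        calc G * ε ^ (-(25 * thp + σ)) ≤ G * (ε ^ thp * ε ^ (-(sg / 2))) :=
              mul_le_mul_of_nonneg_left e4 hG0
          _ = G * ε ^ thp * ε ^ (-(sg / 2)) := by ring
          _ ≤ _ := mul_le_mul_of_nonneg_right k2 (Real.rpow_nonneg he.le _)
      calc G * ε ^ (-(25 * thp + σ)) * Y ^ 2 ≤ κ / 2 * ε ^ (-(sg / 2)) * Y ^ 2 :=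
            mul_le_mul_of_nonneg_right e3 (sq_nonneg _)
        _ = κ / 2 * (ε ^ (-(sg / 2)) * Y ^ 2) := by ring
        _ ≤ κ / 2 * e' := mul_le_mul_of_nonneg_left (le_max_right _ _) (by positivity)
    · have e2 : mx = ε := max_eq_right hc
      rw [e2]
      have e4 : ε ^ (-(25 * thp + σ)) * ε ≤ ε ^ (1 / 2 : ℝ) := by
        nth_rw 2 [← Real.rpow_one ε]
        rw [← Real.rpow_add he]
        exact rpow_anti he he1 (by linarith)
      calc G * ε ^ (-(25 * thp + σ)) * ε ^ 2 = G * (ε ^ (-(25 * thp + σ)) * ε) * ε := by ring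
        _ ≤ G * ε ^ (1 / 2 : ℝ) * ε :=
            mul_le_mul_of_nonneg_right (mul_le_mul_of_nonneg_left e4 hG0) he.le
        _ ≤ κ / 16 * ε := mul_le_mul_of_nonneg_right k3 he.le
        _ = κ / 2 * (ε / 8) := by ring
        _ ≤ κ / 2 * e' := mul_le_mul_of_nonneg_left (le_max_left _ _) (by positivity)
  have a4 : κ / 16 * ε ≤ κ / 2 * e' := by
    calc κ / 16 * ε = κ / 2 * (ε / 8) := by ring
      _ ≤ κ / 2 * e' := mul_le_mul_of_nonneg_left (le_max_left _ _) (by positivity)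
  rw [e1]
  linarith

end core

end

end Vale.Agent.P159.H145
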