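import Vale.Agent.P159.H145.Nu3
import Vale.Agent.P159.H447.WinN2

/-!
P159 / P_up (helper145), module NUM, part 4: **inputs (B1), (B3) of `D0Step`** (near part): windows of
helper447, `NearH` of helper612, numbers in powers of `ε`.
-/

set_option linter.unusedSectionVars false

namespace Vale.Agent.P159.H145

open Finset Matrix MeasureTheory
open Vale.Agent.P159.H37
open Vale.Agent.P159.H972
open Vale.Agent.P159.TM.Spec (V)
open Vale.Agent.P159.TM.SpecC (wT)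
open Vale.Agent.P159.H963 (nwt Gnc)
open Vale.Agent.P159.H447 (K4S SN cl cl_eq cl_nonneg cl_mono Ful LN wcB kwB DB qB ThB NumW win_pair)
open Vale.Agent.P159.H239 (TypE)
open Vale.Agent.P159.H859 (Sgn)
open Vale.Agent.P159.H612 (PUH NearH dtN)

noncomputable section

/-! ### logarithms -/

namespace StN

variable {th thp C0 k0 ε : ℝ} {n m r s : ℕ} (h : StN th thp C0 n m r s ε)
include h

lemma win_le (hk : 0 < k0) : ((m - n + 1 : ℕ) : ℝ) ≤ (8 * thp / k0 + 5) * ε ^ (-k0) := by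
  have he := h.ε0
  have h1 : ((m - n : ℕ) : ℝ) ≤ 4 * (lg thp ε : ℝ) := by
    have : m - n ≤ 4 * lg thp ε := by have := h.up; omega
    exact_mod_cast this
  have h2 := logb_nonneg' he h.ε1'
  have h3 : (lg thp ε : ℝ) ≤ thp * Real.logb 2 (1 / ε) + 1 :=
    (Nat.ceil_lt_add_one (by have := h.thp0; positivity)).le
  have h4 : Real.logb 2 (1 / ε) ≤ 2 * Real.log (1 / ε) := by
    unfold Real.logb
    have h5 : 0 ≤ Real.log (1 / ε) := Real.log_nonneg ((le_div_iff₀ he).2 (by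
      have := h.ε1'; linarith))
    rw [div_le_iff₀ (Real.log_pos one_lt_two)]
    have := Real.log_two_gt_d9
    nlinarith
  have h5 := log_le_pow (a := k0) hk he
  have h6 := one_le_rpow_neg he h.ε1' hk.le
  push_cast
  have h7 : thp * Real.logb 2 (1 / ε) ≤ thp * (2 * (ε ^ (-k0) / k0)) :=
    mul_le_mul_of_nonneg_left (h4.trans (by linarith)) h.thp0.le
  calc ((m - n : ℕ) : ℝ) + 1 ≤ 4 * (thp * (2 * (ε ^ (-k0) / k0)) + 1) + 1 := by linarith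
    _ = 8 * thp / k0 * ε ^ (-k0) + 5 * 1 := by ring
    _ ≤ 8 * thp / k0 * ε ^ (-k0) + 5 * ε ^ (-k0) := by linarith
    _ = _ := by ring

lemma cast_nc : ((2 ^ r / 2 ^ s : ℕ) : ℝ) = 2 ^ (r - s) := by
  rw [Nat.pow_div (by have := h.hsn; have := h.nm; have := h.mr; omega) two_pos]
  push_cast
  rfl

lemma LN_le (hk : 0 < k0) (ht : 5 * thp ≤ 1) :
    LN (2 ^ r) (2 ^ s) ≤ (6 + (1 + C0) / k0) * ε ^ (-k0) := by
  have he := h.ε0
  have he1 := h.ε1'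
  unfold LN
  rw [h.cast_nc]
  have h1 : Real.log ((2 : ℝ) ^ (r - s)) ≤ Real.log (128 * ε ^ (-(5 * thp + C0))) :=
    Real.log_le_log (by positivity) h.nc_le
  rw [Real.log_mul (by norm_num) (Real.rpow_pos_of_pos he _).ne', Real.log_rpow he] at h1
  have h2 : Real.log 128 ≤ 5 := by
    have e : (128 : ℝ) = 2 ^ 7 := by norm_num
    rw [e, Real.log_pow]
    have := Real.log_two_lt_d9
    push_cast
    linarith
  have h3 : Real.log (1 / ε) = -Real.log ε := by rw [one_div, Real.log_inv]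
  have h5 := log_le_pow (a := k0) hk he
  rw [h3] at h5
  have h6 := one_le_rpow_neg he he1 hk.le
  have h7 : 0 ≤ -Real.log ε := by
    have := Real.log_nonpos he.le he1
    linarith
  have h8 : -(5 * thp + C0) * Real.log ε ≤ (1 + C0) * (ε ^ (-k0) / k0) := by
    have : -(5 * thp + C0) * Real.log ε = (5 * thp + C0) * (-Real.log ε) := by ring
    rw [this]
    exact mul_le_mul (by linarith) h5 h7 (by have := h.C00; linarith)
  calc 1 + Real.log ((2 : ℝ) ^ (r - s)) ≤ 6 * 1 + (1 + C0) * (ε ^ (-k0) / k0) := by linarith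
    _ ≤ 6 * ε ^ (-k0) + (1 + C0) * (ε ^ (-k0) / k0) := by linarith
    _ = _ := by ring

lemma LN_one : 1 ≤ LN (2 ^ r) (2 ^ s) := by
  unfold LN
  rw [h.cast_nc]
  have := Real.log_nonneg (one_le_pow₀ one_le_two : (1 : ℝ) ≤ 2 ^ (r - s))
  linarith

end StN

/-! ### the numbers of the windows -/

section num4

variable {th thp C0 k0 b : ℝ}

/-- window length -/
def Wn (k0 ε : ℝ) : ℕ := 3 * 2 ^ lg k0 ε + 5 + 1

lemma bK {ε : ℝ} (hk : 0 < k0) (he : 0 < ε) (he1 : ε ≤ 1) :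
    Bd ε ((2 ^ lg k0 ε : ℕ) : ℝ) 2 (-k0) := by
  refine ⟨Nat.cast_nonneg _, by norm_num, ?_⟩
  push_cast
  exact two_lg_le hk.le he he1

lemma one_le_K (ε : ℝ) : (1 : ℝ) ≤ ((2 ^ lg k0 ε : ℕ) : ℝ) := by
  push_cast
  exact one_le_pow₀ one_le_two

lemma bW {ε : ℝ} (hk : 0 < k0) (he : 0 < ε) (he1 : ε ≤ 1) : Bd ε (Wn k0 ε : ℝ) (9 * 2) (-k0) := by
  refine ((bK hk he he1).smul (by norm_num : (0 : ℝ) ≤ 9)).of_le (Nat.cast_nonneg _) ?_
  have := one_le_K (k0 := k0) ε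
  unfold Wn
  push_cast at this ⊢
  linarith

lemma bL (hk : 0 < k0) (ht : 5 * thp ≤ 1) {ε : ℝ} {n m r s : ℕ}
    (h : StN th thp C0 n m r s ε) :
    Bd ε (LN (2 ^ r) (2 ^ s)) (6 + (1 + C0) / k0) (-k0) :=
  ⟨zero_le_one.trans h.LN_one, by have := h.C00; positivity, h.LN_le hk ht⟩

/-- the numbers of the window are small powers -/
theorem num_win (hb : 0 < b) (hk : 0 < k0) (ht : 5 * thp ≤ 1) (hC : 0 ≤ C0) (ht0 : 0 < thp)
    (J : ℕ) :
    ∃ A : ℝ, 0 ≤ A ∧ ∀ (n m r s : ℕ) (ε : ℝ), StN th thp C0 n m r s ε →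
      Bd ε ((2 * ((2 ^ lg k0 ε : ℕ) : ℝ) + 1) ^ 4 * ((m - n + 1 : ℕ) : ℝ)) A (-(20 * k0)) ∧
      Bd ε (ε ^ (-k0) * DB b (Wn k0 ε) (LN (2 ^ r) (2 ^ s)) ε) A (1 - 20 * k0) ∧
      Bd ε (wcB b (Wn k0 ε) (LN (2 ^ r) (2 ^ s))) A (-(20 * k0)) ∧
      Bd ε (qB b (Wn k0 ε) (2 ^ (n - s)) (LN (2 ^ r) (2 ^ s))) A (-(2 * C0 + 20 * k0)) ∧
      Bd ε (ThB b (Wn k0 ε) (LN (2 ^ r) (2 ^ s)) (ε ^ (-k0)) * ε) A (1 - 22 * k0) ∧
      Bd ε ((2 : ℝ) ^ (J + 2) * √(2 * kwB b (Wn k0 ε) (LN (2 ^ r) (2 ^ s)))) A (-(4 * k0)) := by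
  have s1 : ∃ A : ℝ, ∀ (n m r s : ℕ) (ε : ℝ), StN th thp C0 n m r s ε →
      Bd ε ((2 * ((2 ^ lg k0 ε : ℕ) : ℝ) + 1) ^ 4 * ((m - n + 1 : ℕ) : ℝ)) A (-(20 * k0)) := by
    refine ⟨?_, fun n m r s ε h => ?_⟩
    rotate_left
    have he := h.ε0
    have he1 := h.ε1'
    have w1 : Bd ε (2 * ((2 ^ lg k0 ε : ℕ) : ℝ) + 1) (3 * 2) (-k0) := by
      refine ((bK hk he he1).smul (by norm_num : (0 : ℝ) ≤ 3)).of_le (by positivity) ?_
      have := one_le_K (k0 := k0) ε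
      linarith
    have w2 : Bd ε ((m - n + 1 : ℕ) : ℝ) (8 * thp / k0 + 5) (-k0) :=
      ⟨Nat.cast_nonneg _, by positivity, h.win_le hk⟩
    have w3 := (w1.pow he 4).mul he w2
    have w5 := w3.exp he he1 (show -(20 * k0) ≤ _ by push_cast; linarith)
    exact w5
  have s2 : ∃ A : ℝ, ∀ (n m r s : ℕ) (ε : ℝ), StN th thp C0 n m r s ε →
      Bd ε (8 * (5780 * (1 + b) ^ 2) ^ 2 * (ε ^ (-k0) * ((Wn k0 ε : ℝ) ^ 14 *
        (LN (2 ^ r) (2 ^ s)) ^ 2 * ε))) A (1 - 20 * k0) := by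
    refine ⟨?_, fun n m r s ε h => ?_⟩
    rotate_left
    have he := h.ε0
    have he1 := h.ε1'
    have w1 : Bd ε (ε ^ (-k0)) 1 (-k0) := ⟨Real.rpow_nonneg he.le _, zero_le_one, by rw [one_mul]⟩
    have w3 := (w1.mul he ((((bW hk he he1).pow he 14).mul he ((bL hk ht h).pow he 2)).mul he
      (Bd.self he))).smul (by positivity : (0 : ℝ) ≤ 8 * (5780 * (1 + b) ^ 2) ^ 2)
    have w5 := w3.exp he he1 (show 1 - 20 * k0 ≤ _ by push_cast; linarith)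
    exact w5
  have s3 : ∃ A : ℝ, ∀ (n m r s : ℕ) (ε : ℝ), StN th thp C0 n m r s ε →
      Bd ε (289 * (1 + b) ^ 2 * ((Wn k0 ε : ℝ) ^ 4 * LN (2 ^ r) (2 ^ s))) A (-(20 * k0)) := by
    refine ⟨?_, fun n m r s ε h => ?_⟩
    rotate_left
    have he := h.ε0
    have he1 := h.ε1'
    have w3 := (((bW hk he he1).pow he 4).mul he (bL hk ht h)).smul
      (by positivity : (0 : ℝ) ≤ 289 * (1 + b) ^ 2)
    have w5 := w3.exp he he1 (show -(20 * k0) ≤ _ by push_cast; linarith)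
    exact w5
  have s4 : ∃ A : ℝ, ∀ (n m r s : ℕ) (ε : ℝ), StN th thp C0 n m r s ε →
      Bd ε (4 * (5780 * (1 + b) ^ 2) * ((Wn k0 ε : ℝ) ^ 8 * ((2 : ℝ) ^ (n - s)) ^ 2 *
        LN (2 ^ r) (2 ^ s))) A (-(2 * C0 + 20 * k0)) := by
    refine ⟨?_, fun n m r s ε h => ?_⟩
    rotate_left
    have he := h.ε0
    have he1 := h.ε1'
    have w1 : Bd ε ((2 : ℝ) ^ (n - s)) 2 (-C0) := ⟨by positivity, by norm_num, h.mm_le⟩
    have w3 := ((((bW hk he he1).pow he 8).mul he (w1.pow he 2)).mul he (bL hk ht h)).smul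
      (by positivity : (0 : ℝ) ≤ 4 * (5780 * (1 + b) ^ 2))
    have w5 := w3.exp he he1 (show -(2 * C0 + 20 * k0) ≤ _ by push_cast; linarith)
    exact w5
  have s5 : ∃ A : ℝ, ∀ (n m r s : ℕ) (ε : ℝ), StN th thp C0 n m r s ε →
      Bd ε (10 ^ 17 * (1 + b) ^ 6 * ((Wn k0 ε : ℝ) ^ 18 * (LN (2 ^ r) (2 ^ s)) ^ 3 *
        ε ^ (-k0) * ε)) A (1 - 22 * k0) := by
    refine ⟨?_, fun n m r s ε h => ?_⟩
    rotate_left
    have he := h.ε0
    have he1 := h.ε1'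
    have w1 : Bd ε (ε ^ (-k0)) 1 (-k0) := ⟨Real.rpow_nonneg he.le _, zero_le_one, by rw [one_mul]⟩
    have w3 := (((((bW hk he he1).pow he 18).mul he ((bL hk ht h).pow he 3)).mul he w1).mul he
      (Bd.self he)).smul (by positivity : (0 : ℝ) ≤ 10 ^ 17 * (1 + b) ^ 6)
    have w5 := w3.exp he he1 (show 1 - 22 * k0 ≤ _ by push_cast; linarith)
    exact w5
  have s6 : ∃ A : ℝ, ∀ (n m r s : ℕ) (ε : ℝ), StN th thp C0 n m r s ε →
      Bd ε ((2 : ℝ) ^ (J + 2) * √(2 * (5780 * (1 + b) ^ 2 * ((Wn k0 ε : ℝ) ^ 6 *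
        LN (2 ^ r) (2 ^ s))))) A (-(4 * k0)) := by
    refine ⟨?_, fun n m r s ε h => ?_⟩
    rotate_left
    have he := h.ε0
    have he1 := h.ε1'
    have w3 := (((((bW hk he he1).pow he 6).mul he (bL hk ht h)).smul
      (by positivity : (0 : ℝ) ≤ 5780 * (1 + b) ^ 2)).smul
      (by norm_num : (0 : ℝ) ≤ 2)).sqrt he
    have w4 := w3.smul (by positivity : (0 : ℝ) ≤ (2 : ℝ) ^ (J + 2))
    have w5 := w4.exp he he1 (show -(4 * k0) ≤ _ by push_cast; linarith)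
    exact w5
  obtain ⟨A1, h1⟩ := s1
  obtain ⟨A2, h2⟩ := s2
  obtain ⟨A3, h3⟩ := s3
  obtain ⟨A4, h4⟩ := s4
  obtain ⟨A5, h5⟩ := s5
  obtain ⟨A6, h6⟩ := s6
  have q1 := abs_nonneg A1
  have q2 := abs_nonneg A2
  have q3 := abs_nonneg A3
  have q4 := abs_nonneg A4
  have q5 := abs_nonneg A5
  have q6 := abs_nonneg A6
  refine ⟨|A1| + |A2| + |A3| + |A4| + |A5| + |A6|, by positivity, fun n m r s ε h => ?_⟩
  have he := h.ε0
  have he1 := h.ε1'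
  have l1 := le_abs_self A1
  have l2 := le_abs_self A2
  have l3 := le_abs_self A3
  have l4 := le_abs_self A4
  have l5 := le_abs_self A5
  have l6 := le_abs_self A6
  refine ⟨(h1 n m r s ε h).mono he he1 (by linarith) le_rfl, ?_, ?_, ?_, ?_, ?_⟩
  · have e : ε ^ (-k0) * DB b (Wn k0 ε) (LN (2 ^ r) (2 ^ s)) ε =
        8 * (5780 * (1 + b) ^ 2) ^ 2 * (ε ^ (-k0) * ((Wn k0 ε : ℝ) ^ 14 *
        (LN (2 ^ r) (2 ^ s)) ^ 2 * ε)) := by
      unfold DB kwB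
      ring
    rw [e]
    exact (h2 n m r s ε h).mono he he1 (by linarith) le_rfl
  · have e : wcB b (Wn k0 ε) (LN (2 ^ r) (2 ^ s)) =
        289 * (1 + b) ^ 2 * ((Wn k0 ε : ℝ) ^ 4 * LN (2 ^ r) (2 ^ s)) := by
      unfold wcB
      ring
    rw [e]
    exact (h3 n m r s ε h).mono he he1 (by linarith) le_rfl
  · have e : qB b (Wn k0 ε) (2 ^ (n - s)) (LN (2 ^ r) (2 ^ s)) =
        4 * (5780 * (1 + b) ^ 2) * ((Wn k0 ε : ℝ) ^ 8 * ((2 : ℝ) ^ (n - s)) ^ 2 *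
        LN (2 ^ r) (2 ^ s)) := by
      unfold qB kwB
      push_cast
      ring
    rw [e]
    exact (h4 n m r s ε h).mono he he1 (by linarith) le_rfl
  · have e : ThB b (Wn k0 ε) (LN (2 ^ r) (2 ^ s)) (ε ^ (-k0)) * ε =
        10 ^ 17 * (1 + b) ^ 6 * ((Wn k0 ε : ℝ) ^ 18 * (LN (2 ^ r) (2 ^ s)) ^ 3 *
        ε ^ (-k0) * ε) := by
      unfold ThB
      ring
    rw [e]
    exact (h5 n m r s ε h).mono he he1 (by linarith) le_rfl
  · have e : kwB b (Wn k0 ε) (LN (2 ^ r) (2 ^ s)) =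
        5780 * (1 + b) ^ 2 * ((Wn k0 ε : ℝ) ^ 6 * LN (2 ^ r) (2 ^ s)) := by
      unfold kwB
      ring
    rw [e]
    exact (h6 n m r s ε h).mono he he1 (by linarith) le_rfl

end num4

end

end Vale.Agent.P159.H145
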