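import Vale.Agent.P159.H145.Nu4

/-!
P159 / P_up (helper145), module NUM, part 5: **the near part in powers of `ε`** (`nearB`): inputs (B1)
and (B3) of `D0Step`, from typical sources at the priors `t_m`, `4 t_m`.
-/

set_option linter.unusedSectionVars false

namespace Vale.Agent.P159.H145

open Finset Matrix MeasureTheory
open Vale.Agent.P159.H37
open Vale.Agent.P159.H972
open Vale.Agent.P159.TM.Spec (V)
open Vale.Agent.P159.TM.SpecC (wT)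
open Vale.Agent.P159.H963 (nwt Gnc)
open Vale.Agent.P159.H447 (K4S SN cl cl_eq cl_nonneg cl_mono Ful LN wcB kwB DB qB ThB NumW win_pair)
open Vale.Agent.P159.H239 (TypE)
open Vale.Agent.P159.H859 (Sgn)
open Vale.Agent.P159.H612 (PUH NearH dtN)

noncomputable section

variable {th thp C0 k0 b : ℝ} {J : ℕ}

/-- the number `ρ` of the exact good set -/
theorem rho_bd (ht0 : 0 < thp) (ht : thp ≤ 1 / 300) (hk : 0 < k0) (hk1 : k0 ≤ thp / 1000)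
    (hJ : (1 / 2 : ℝ) ^ J ≤ thp / 32) :
    ∃ A : ℝ, ∀ (n m r s : ℕ) (ε : ℝ), StN th thp C0 n m r s ε →
      Bd ε (cl J (8 * (ε ^ (-k0) * (512 * ((2 : ℝ) ^ (m - n)) ^ 4 * ((2 : ℝ) ^ (r - n)) ^ 2 *
        ε)))) A (3 / 4) := by
  obtain ⟨hh0, hh1⟩ := hJ_bounds ht0 ht hJ
  refine ⟨?_, fun n m r s ε h => ?_⟩
  rotate_left
  have he := h.ε0
  have he1 := h.ε1'
  have w1 : Bd ε (ε ^ (-k0)) 1 (-k0) := ⟨Real.rpow_nonneg he.le _, zero_le_one, by rw [one_mul]⟩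
  have bM : Bd ε ((2 : ℝ) ^ (m - n)) 64 (-(5 * thp)) := ⟨by positivity, by norm_num, h.M_leB⟩
  have bn : Bd ε ((2 : ℝ) ^ (r - n)) 64 (-(5 * thp)) := ⟨by positivity, by norm_num, h.nb_le⟩
  have w2 := ((((bM.pow he 4).smul (by norm_num : (0 : ℝ) ≤ 512)).mul he (bn.pow he 2)).mul he
    (Bd.self he))
  have w3 := (((w1.mul he w2).smul (by norm_num : (0 : ℝ) ≤ 8)).rp he
    (s := 1 - (1 / 2 : ℝ) ^ J) (by linarith)).smul (by norm_num : (0 : ℝ) ≤ 8)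
  have w4 := w3.exp he he1 (show 3 / 4 ≤ _ by push_cast; nlinarith)
  rw [cl_eq J (y := 8 * (ε ^ (-k0) * (512 * ((2 : ℝ) ^ (m - n)) ^ 4 * ((2 : ℝ) ^ (r - n)) ^ 2 *
    ε))) (by positivity)]
  exact w4

/-- data common to both priors -/
lemma exact_good {q T Y sp : ℝ} {n m r s : ℕ} {ε : ℝ} [NeZero (2 ^ r / 2 ^ s)] (hb : 0 < b)
    (h : StN th thp C0 n m r s ε) (hT1 : tn n ≤ T) (hT2 : T ≤ 4 * tn n)
    (hD : DN b n r s T ≤ ε) (hsp : tn m ≤ sp) (hspT : sp < T) (hY : (2 : ℝ) ^ (J + 1) ≤ Y)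
    (hp : ε ^ q ≤ 1 / 2) (hexp : Real.exp (-(√(ε ^ (-k0)) / 10)) ≤ ε ^ q)
    (hty : TypE (2 ^ r) (2 ^ s) b T sp Y 1 (ε ^ q)) :
    TypE (2 ^ r) (2 ^ s) b T sp 1
      (cl J (8 * (ε ^ (-k0) * (512 * ((2 : ℝ) ^ (m - n)) ^ 4 * ((2 : ℝ) ^ (r - n)) ^ 2 * ε))))
      (35 * ε ^ q) := by
  have he := h.ε0
  have htm : 0 < tn m := tn_pos m
  have hs0 : 0 < sp := htm.trans_le hsp
  have hT : 0 < T := (tn_pos n).trans_le hT1
  have hl : 2 ^ s ∣ 2 ^ r := Nat.pow_dvd_pow 2 (by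
    have := h.hsn; have := h.nm; have := h.mr; omega)
  have hr := tn_ratio h.nm
  set M : ℝ := 2 ^ (m - n) with hM
  set nb : ℝ := 2 ^ (r - n) with hnb
  have hM0 : 0 < M := by positivity
  have hnb0 : 0 < nb := by positivity
  set K4 := K4S (nwt (2 ^ r) b T 0) (SN (2 ^ r) (2 ^ s)) (SN (2 ^ r) (2 ^ s)) with hK4
  have hK := K4_le (b := b) (T := T) (by have := h.nm; have := h.mr; omega : n ≤ r) hD
  rw [← hK4, ← hnb] at hK
  have hratio : (T / sp) ^ 2 ≤ (4 * M ^ 2) ^ 2 := by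
    refine pow_le_pow_left₀ (by positivity) ?_ 2
    rw [div_le_iff₀ hs0]
    rw [hr] at hT2
    calc T ≤ 4 * M ^ 2 * tn m := by linarith
      _ ≤ 4 * M ^ 2 * sp := mul_le_mul_of_nonneg_left hsp (by positivity)
  have hK1 : (T ^ 2 / sp) ^ 2 * K4 ≤ (4 * M ^ 2) ^ 2 * (2 * nb ^ 2 * ε) := by
    have e : (T ^ 2 / sp) ^ 2 * K4 = (T / sp) ^ 2 * (T ^ 2 * K4) := by
      field_simp
    rw [e]
    rcases le_total 0 (T ^ 2 * K4) with h3 | h3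
    · exact mul_le_mul hratio hK h3 (by positivity)
    · exact (mul_nonpos_of_nonneg_of_nonpos (sq_nonneg _) h3).trans (by positivity)
  have h1 := hty.exact hb hl hs0 hspT (κ := 1) (D := 512 * M ^ 4 * nb ^ 2 * ε)
    (lam := ε ^ (-k0)) (n := J) zero_le_one (by rw [mul_one]; exact hY)
    ((one_le_pow₀ one_le_two).trans hY) le_rfl hp (by positivity) (by
      calc (1 : ℝ) ^ 4 * ((T ^ 2 / sp) ^ 2 * K4) ≤ 1 ^ 4 * ((4 * M ^ 2) ^ 2 *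
            (2 * nb ^ 2 * ε)) := mul_le_mul_of_nonneg_left hK1 (by norm_num)
        _ = 32 * (M ^ 4 * nb ^ 2 * ε) := by ring
        _ ≤ 512 * (M ^ 4 * nb ^ 2 * ε) := by
            have : 0 ≤ M ^ 4 * nb ^ 2 * ε := by positivity
            linarith
        _ = _ := by ring) (Real.rpow_nonneg he.le _)
  exact h1.mono hb.le hl hs0 hspT.le zero_le_one le_rfl le_rfl (by linarith)

/-- smallness of `ε` -/
structure Sml (thp k0 cp q A1 A2 : ℝ) (J : ℕ) (ε : ℝ) : Prop where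
  k2 : A1 * ε ^ (1 / 2 : ℝ) ≤ 1
  k3 : Real.exp (-(1 / 10 * ε ^ (-(k0 / 2)))) ≤ ε ^ q
  k4 : Real.exp (-(cp * ε ^ (-k0))) ≤ ε ^ q
  k5 : A1 * ε ^ k0 ≤ 1
  k6 : 200 * ε ^ q ≤ 1
  k7 : 3 * ε ^ thp ≤ 1
  k8 : 32 * A1 * ε ^ thp ≤ 1
  k9 : |A2| * ε ^ (3 / 4 : ℝ) ≤ 1
  k10 : (2 : ℝ) ^ (J + 2) * ε ^ (5 * k0) ≤ 1

lemma exists_sml {cp q A1 A2 : ℝ} (ht0 : 0 < thp) (hk : 0 < k0) (hcp : 0 < cp) (hA1 : 0 ≤ A1)
    (hq : 0 < q) (J : ℕ) :
    ∃ E : ℝ, 0 < E ∧ ∀ ε, 0 < ε → ε ≤ E → Sml thp k0 cp q A1 A2 J ε := by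
  have hA2 := abs_nonneg A2
  obtain ⟨E2, hE2, k2⟩ := absorb hA1 (by norm_num : (0 : ℝ) < 1 / 2) one_pos
  obtain ⟨E3, hE3, k3⟩ := exp_absorb (c := 1 / 10) (a := k0 / 2) q (by norm_num) (by linarith)
  obtain ⟨E4, hE4, k4⟩ := exp_absorb (c := cp) (a := k0) q hcp hk
  obtain ⟨E5, hE5, k5⟩ := absorb hA1 hk one_pos
  obtain ⟨E6, hE6, k6⟩ := absorb (A := 200) (by norm_num) hq one_pos
  obtain ⟨E7, hE7, k7⟩ := absorb (A := 3) (by norm_num) ht0 one_pos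
  obtain ⟨E8, hE8, k8⟩ := absorb (A := 32 * A1) (by positivity) ht0 one_pos
  obtain ⟨E9, hE9, k9⟩ := absorb hA2 (by norm_num : (0 : ℝ) < 3 / 4) one_pos
  obtain ⟨E10, hE10, k10⟩ := absorb (A := (2 : ℝ) ^ (J + 2)) (by positivity)
    (by linarith : 0 < 5 * k0) one_pos
  refine ⟨min (min E2 (min E3 E4)) (min (min (min E5 E6) (min E7 E8)) (min E9 E10)),
    by positivity, ?_⟩
  intro ε he hε
  simp only [le_min_iff] at hε
  obtain ⟨⟨x2, x3, x4⟩, ⟨⟨x5, x6⟩, x7, x8⟩, x9, x10⟩ := hε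
  exact ⟨k2 ε he x2, k3 ε he x3, k4 ε he x4, k5 ε he x5, k6 ε he x6, k7 ε he x7, k8 ε he x8,
    k9 ε he x9, k10 ε he x10⟩

lemma rpow_inv {e a : ℝ} (he : 0 < e) : e ^ a * e ^ (-a) = 1 := by
  rw [← Real.rpow_add he, add_neg_cancel, Real.rpow_zero]

/-- `A e ^ a ≤ 1` gives `A ≤ e ^ (-a)` -/
lemma le_of_absorb {e a A : ℝ} (he : 0 < e) (h : A * e ^ a ≤ 1) : A ≤ e ^ (-a) := by
  have e2 := Real.rpow_pos_of_pos he (-a)
  calc A = A * e ^ a * e ^ (-a) := by rw [mul_assoc, rpow_inv he, mul_one]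
    _ ≤ 1 * e ^ (-a) := mul_le_mul_of_nonneg_right h e2.le
    _ = _ := one_mul _

namespace Sml

variable {cp q A1 A2 ε : ℝ} (h : Sml thp k0 cp q A1 A2 J ε)
include h

lemma exps (he : 0 < ε) : Real.exp (-(√(ε ^ (-k0)) / 10)) ≤ ε ^ q := by
  have e : √(ε ^ (-k0)) = ε ^ (-(k0 / 2)) := by
    rw [Real.sqrt_eq_rpow, ← Real.rpow_mul he.le]
    congr 1
    ring
  rw [e]
  refine le_trans (le_of_eq ?_) h.k3
  congr 2
  ring

lemma Ya {Ya : ℝ} (he : 0 < ε) (hYa : ε ^ (-(5 * k0)) ≤ Ya) : (2 : ℝ) ^ (J + 2) ≤ Ya :=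
  (le_of_absorb he h.k10).trans hYa

lemma M3 {th C0 : ℝ} {n m r s : ℕ} (hN : StN th thp C0 n m r s ε) : 3 ≤ (2 : ℝ) ^ (m - n) :=
  (le_of_absorb hN.ε0 h.k7).trans hN.M_ge

end Sml

/-! ### masses -/

section mass

variable {T ε : ℝ} {n m r s : ℕ}

lemma tn_sq (n : ℕ) : tn n * (2 ^ n) ^ 2 = 1 := by
  unfold tn
  have : ((2 : ℝ) ^ n) ^ 2 = 4 ^ n := by
    rw [← pow_mul, mul_comm, pow_mul]
    norm_num
  rw [this]
  exact inv_mul_cancel₀ (by positivity)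

lemma nine_tn (hnm : n ≤ m) (hM : 3 ≤ (2 : ℝ) ^ (m - n)) : 9 * tn m ≤ tn n := by
  rw [tn_ratio hnm]
  have h2 : (9 : ℝ) ≤ (2 ^ (m - n)) ^ 2 := by nlinarith
  exact mul_le_mul_of_nonneg_right h2 (tn_pos m).le

lemma StN.ml (h : StN th thp C0 n m r s ε) :
    (((2 ^ (n - s) : ℕ) : ℝ)) * ((2 ^ s : ℕ) : ℝ) = 2 ^ n := by
  push_cast
  rw [← pow_add]
  congr 1
  have := h.hsn
  omega

lemma StN.nn (h : StN th thp C0 n m r s ε) : 2 ^ r / 2 ^ s = 2 ^ (r - n) * 2 ^ (n - s) := by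
  have h1 := h.hsn
  have h2 := h.nm
  have h3 := h.mr
  rw [Nat.pow_div (by omega) two_pos, ← pow_add]
  congr 1
  omega

lemma StN.dvd (h : StN th thp C0 n m r s ε) : 2 ^ s ∣ 2 ^ r :=
  Nat.pow_dvd_pow 2 (by have := h.hsn; have := h.nm; have := h.mr; omega)

/-- the scalar data of the windows -/
lemma numW_of [NeZero (2 ^ r / 2 ^ s)] (hb : 0 < b) (h : StN th thp C0 n m r s ε)
    (hM : 3 ≤ (2 : ℝ) ^ (m - n)) (hT1 : tn n ≤ T) (hT2 : T ≤ 4 * tn n)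
    (hD : DN b n r s T ≤ ε) {sp : ℝ} (h1 : tn m ≤ sp) (h2 : sp ≤ 4 * tn m) {W : ℕ} (hW : 1 ≤ W) :
    NumW (2 ^ r) (2 ^ s) (2 ^ (r - n)) (2 ^ (n - s)) W b T sp (((2 : ℝ) ^ (m - n)) ^ 2)⁻¹ ε := by
  have htm : 0 < tn m := tn_pos m
  have hT : 0 < T := (tn_pos n).trans_le hT1
  have hr := tn_ratio h.nm
  have hK := K4_le (b := b) (T := T) (by have := h.nm; have := h.mr; omega : n ≤ r) hD
  have hM0 : (0 : ℝ) < (2 ^ (m - n)) ^ 2 := by positivity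
  have hM9 : (9 : ℝ) ≤ (2 ^ (m - n)) ^ 2 := by nlinarith
  refine ⟨hb, h.dvd, h.nn, hW, hT, ?_, htm.trans_le h1, ?_, ?_, by positivity,
    ?_, h.ε0, ?_⟩
  · rw [h.ml]
    have h3 := tn_sq n
    calc T * (2 ^ n) ^ 2 ≤ 4 * tn n * (2 ^ n) ^ 2 :=
          mul_le_mul_of_nonneg_right hT2 (by positivity)
      _ = 4 * (tn n * (2 ^ n) ^ 2) := by ring
      _ = 4 := by rw [h3, mul_one]
  · rw [← tn_sq m]
    push_cast
    exact mul_le_mul h1 (pow_le_pow_left₀ (by positivity)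
      (pow_le_pow_right₀ one_le_two h.mr.le) 2) (by positivity) (htm.le.trans h1)
  · have e1 : tn m ≤ ((2 ^ (m - n)) ^ 2)⁻¹ * T := by
      rw [inv_mul_eq_div, le_div_iff₀ hM0]
      calc tn m * (2 ^ (m - n)) ^ 2 = tn n := by rw [hr]; ring
        _ ≤ T := hT1
    linarith
  · rw [← div_eq_mul_inv, div_le_one hM0]
    linarith
  · push_cast
    linarith

end mass

end

end Vale.Agent.P159.H145
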