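import Vale.Agent.P159.H145.Nu5

/-!
P159 / P_up (helper145), module NUM, part 6: `nearB` = the near part (inputs (B1), (B3) of `D0Step`)
from typical sources at the priors `t_m`, `4 t_m`.
-/

set_option linter.unusedSectionVars false

namespace Vale.Agent.P159.H145

open Finset Matrix MeasureTheory
open Vale.Agent.P159.H37
open Vale.Agent.P159.H972
open Vale.Agent.P159.TM.Spec (V)
open Vale.Agent.P159.TM.SpecC (wT)
open Vale.Agent.P159.H963 (nwt Gnc)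
open Vale.Agent.P159.H447 (K4S SN cl cl_eq cl_nonneg cl_mono Ful LN wcB kwB DB qB ThB NumW win_pair)
open Vale.Agent.P159.H239 (TypE)
open Vale.Agent.P159.H859 (Sgn)
open Vale.Agent.P159.H612 (PUH NearH dtN)

noncomputable section

variable {th thp C0 k0 b : ℝ} {J : ℕ}

/-- separation of the windows -/
def Rw (k0 ε : ℝ) (n s : ℕ) : ℝ :=
  ((3 * 2 ^ lg k0 ε + 5 - 2 ^ lg k0 ε : ℕ) : ℝ) * (((2 ^ s : ℕ) : ℝ) * ((2 ^ (n - s) : ℕ) : ℝ)) / 2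

/-- locality constant of `PUH` -/
def kapN (Cp cp ω R : ℝ) (n : ℕ) : ℝ :=
  Real.exp ((1 + 16 * ω) / 2) * ((2 : ℝ) ^ n) ^ 2 * (Cp * Real.exp (-(cp * (R / 2 ^ n))))

/-- size of `R` on the exact good set -/
def rhoN (J : ℕ) (k0 ε : ℝ) (n m r : ℕ) : ℝ :=
  cl J (8 * (ε ^ (-k0) * (512 * ((2 : ℝ) ^ (m - n)) ^ 4 * ((2 : ℝ) ^ (r - n)) ^ 2 * ε)))

section st

variable {n m r s : ℕ} {ε T Ya ω Cp cp q A1 A2 : ℝ}

lemma Rw_eq (h : StN th thp C0 n m r s ε) :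
    Rw k0 ε n s = (2 * ((2 ^ lg k0 ε : ℕ) : ℝ) + 5) / 2 * 2 ^ n := by
  unfold Rw
  have e1 : 3 * 2 ^ lg k0 ε + 5 - 2 ^ lg k0 ε = 2 * 2 ^ lg k0 ε + 5 := by omega
  have e2 : ((2 ^ s : ℕ) : ℝ) * ((2 ^ (n - s) : ℕ) : ℝ) = 2 ^ n := by rw [mul_comm]; exact h.ml
  rw [e1, e2]
  push_cast
  ring

lemma Rw_pos (h : StN th thp C0 n m r s ε) : 0 < Rw k0 ε n s := by
  rw [Rw_eq h]
  positivity

lemma wc_bd [NeZero (2 ^ r / 2 ^ s)] (hb : 0 < b) (h : StN th thp C0 n m r s ε)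
    (hM : 3 ≤ (2 : ℝ) ^ (m - n)) (hT1 : tn n ≤ T) (hT2 : T ≤ 4 * tn n) (hD : DN b n r s T ≤ ε) :
    H859.wc (2 ^ r) (2 ^ s) (Wn k0 ε * 2 ^ (n - s)) b T (tn m) ≤
      wcB b (Wn k0 ε) (LN (2 ^ r) (2 ^ s)) :=
  (numW_of hb h hM hT1 hT2 hD le_rfl (by linarith [tn_pos m]) (W := Wn k0 ε)
    (by unfold Wn; omega)).wc_le le_rfl

/-- `8 (c / T) wc` -/
def dlN (N l : ℕ) [NeZero N] (ρw : ℕ) (b T : ℝ) (m : ℕ) : ℝ :=
  8 * (4 * tn m / T) * H859.wc N l ρw b T (tn m)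

lemma dlN_le [NeZero (2 ^ r / 2 ^ s)] (hb : 0 < b) (h : StN th thp C0 n m r s ε)
    (hM : 3 ≤ (2 : ℝ) ^ (m - n)) (hT1 : tn n ≤ T) (hT2 : T ≤ 4 * tn n) (hD : DN b n r s T ≤ ε)
    (hA1 : 0 ≤ A1) (hk : 0 < k0)
    (b3 : Bd ε (wcB b (Wn k0 ε) (LN (2 ^ r) (2 ^ s))) A1 (-(20 * k0))) :
    dlN (2 ^ r) (2 ^ s) (Wn k0 ε * 2 ^ (n - s)) b T m ≤
      32 * A1 * ε ^ (-(20 * k0)) * (((2 : ℝ) ^ (m - n)) ^ 2)⁻¹ := by
  have htm := tn_pos m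
  have hT : 0 < T := (tn_pos n).trans_le hT1
  have hr := tn_ratio h.nm
  have hM0 : (0 : ℝ) < (2 ^ (m - n)) ^ 2 := by positivity
  have h1 := wc_bd (k0 := k0) hb h hM hT1 hT2 hD
  have h2 : 4 * tn m / T ≤ 4 * (((2 : ℝ) ^ (m - n)) ^ 2)⁻¹ := by
    rw [div_le_iff₀ hT]
    have h3 : tn m = ((2 ^ (m - n)) ^ 2)⁻¹ * tn n := by
      rw [hr, ← mul_assoc, inv_mul_cancel₀ hM0.ne', one_mul]
    rw [mul_assoc]
    refine mul_le_mul_of_nonneg_left ?_ (by norm_num)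
    nth_rw 1 [h3]
    exact mul_le_mul_of_nonneg_left hT1 (by positivity)
  have h4 := h1.trans b3.le
  have h5 : 0 ≤ H859.wc (2 ^ r) (2 ^ s) (Wn k0 ε * 2 ^ (n - s)) b T (tn m) :=
    zero_le_one.trans (H447.wc_ge1 (N := 2 ^ r) (T := T) hb h.dvd htm _)
  unfold dlN
  calc 8 * (4 * tn m / T) * H859.wc (2 ^ r) (2 ^ s) (Wn k0 ε * 2 ^ (n - s)) b T (tn m)
      ≤ 8 * (4 * (((2 : ℝ) ^ (m - n)) ^ 2)⁻¹) * (A1 * ε ^ (-(20 * k0))) :=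
        mul_le_mul (mul_le_mul_of_nonneg_left h2 (by norm_num)) h4 h5 (by positivity)
    _ = _ := by ring

lemma dlN_ge [NeZero (2 ^ r / 2 ^ s)] (hb : 0 < b) (h : StN th thp C0 n m r s ε)
    (hT1 : tn n ≤ T) (hT2 : T ≤ 4 * tn n) (ρw : ℕ) :
    (((2 : ℝ) ^ (m - n)) ^ 2)⁻¹ ≤ dlN (2 ^ r) (2 ^ s) ρw b T m := by
  have htm := tn_pos m
  have hT : 0 < T := (tn_pos n).trans_le hT1
  have hr := tn_ratio h.nm
  have hM0 : (0 : ℝ) < (2 ^ (m - n)) ^ 2 := by positivity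
  have h1 := H447.wc_ge1 (N := 2 ^ r) (T := T) hb h.dvd htm ρw
  have h2 : (((2 : ℝ) ^ (m - n)) ^ 2)⁻¹ ≤ 4 * tn m / T := by
    rw [le_div_iff₀ hT, inv_mul_le_iff₀ hM0]
    rw [hr] at hT2
    linarith
  have h3 : 0 ≤ 4 * tn m / T := by positivity
  unfold dlN
  nlinarith

/-- **the structure of the near part** -/
theorem near_struct [NeZero (2 ^ r / 2 ^ s)] (hb : 0 < b) (h : StN th thp C0 n m r s ε)
    (hs : Sml thp k0 cp q A1 A2 J ε) (hk : 0 < k0) (hk1 : k0 ≤ thp / 1000) (ht : thp ≤ 1 / 300)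
    (hA1 : 0 ≤ A1) (hJ1 : 1 ≤ J) (hCp : 0 ≤ Cp)
    (b3 : Bd ε (wcB b (Wn k0 ε) (LN (2 ^ r) (2 ^ s))) A1 (-(20 * k0)))
    (b5 : Bd ε (ThB b (Wn k0 ε) (LN (2 ^ r) (2 ^ s)) (ε ^ (-k0)) * ε) A1 (1 - 22 * k0))
    (b6 : Bd ε ((2 : ℝ) ^ (J + 2) * √(2 * kwB b (Wn k0 ε) (LN (2 ^ r) (2 ^ s)))) A1 (-(4 * k0)))
    (hT1 : tn n ≤ T) (hT2 : T ≤ 4 * tn n) (hD : DN b n r s T ≤ ε)
    (hPU : ∀ R : ℝ, 0 < R → PUH (2 ^ r) b T R (kapN Cp cp ω R n) ω)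
    (hYa : ε ^ (-(5 * k0)) ≤ Ya) (hta : TypE (2 ^ r) (2 ^ s) b T (tn m) Ya 1 (ε ^ q))
    (htc : TypE (2 ^ r) (2 ^ s) b T (4 * tn m) Ya 1 (ε ^ q))
    {Aa Ac : Matrix (V (2 ^ r / 2 ^ s)) (V (2 ^ r / 2 ^ s)) ℝ}
    (hAa : Aa * Aaᵀ = Sgn (2 ^ r) (2 ^ s) b T (tn m))
    (hAc : Ac * Acᵀ = Sgn (2 ^ r) (2 ^ s) b T (4 * tn m)) :
    NearH (2 ^ r) (2 ^ s) (2 ^ (r - n)) (2 ^ (n - s)) (2 ^ lg k0 ε) b T (tn m) (4 * tn m)
      Aa Ac (Wn k0 ε * 2 ^ (n - s)) J (Rw k0 ε n s)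
      (DB b (Wn k0 ε) (LN (2 ^ r) (2 ^ s)) ε) ((2 : ℝ) ^ (m - n))⁻¹ (ε ^ (-k0)) (12 * ε ^ q)
      (200 * ε ^ q) (qB b (Wn k0 ε) (2 ^ (n - s)) (LN (2 ^ r) (2 ^ s))) (6 * ε ^ q)
      (kapN Cp cp ω (Rw k0 ε n s) n) ω (rhoN J k0 ε n m r) (35 * ε ^ q)
      (fun _ => {J' | Rs (nwt (2 ^ r) b T 0) ((1 : ℝ) • J') ≤ rhoN J k0 ε n m r}) := by
  have he := h.ε0
  have he1 := h.ε1'
  have hM3 := hs.M3 h
  have h9 := nine_tn h.nm hM3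
  have htm := tn_pos m
  have hcT : 4 * tn m ≤ T / 2 := by linarith
  have hexp := hs.exps he
  have hYa2 := hs.Ya he hYa
  have hYa1 : (2 : ℝ) ^ (J + 1) ≤ Ya := le_trans (pow_le_pow_right₀ one_le_two (by omega)) hYa2
  have hY1 : 1 ≤ Ya := (one_le_pow₀ one_le_two).trans hYa2
  have hY4 : 4 ≤ Ya := by
    refine le_trans ?_ hYa2
    calc (4 : ℝ) = 2 ^ 2 := by norm_num
      _ ≤ 2 ^ (J + 2) := pow_le_pow_right₀ one_le_two (by omega)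
  have hq0 : 0 < ε ^ q := Real.rpow_pos_of_pos he _
  have hk6 := hs.k6
  have hp1 : ε ^ q ≤ 1 / 2 := by linarith
  have hlam1 : 1 ≤ ε ^ (-k0) := one_le_rpow_neg he he1 hk.le
  have hΘ : ThB b (Wn k0 ε) (LN (2 ^ r) (2 ^ s)) (ε ^ (-k0)) * ε ≤ 1 := by
    refine (b5.le.trans ?_).trans hs.k2
    exact mul_le_mul_of_nonneg_left (rpow_anti he he1 (by linarith)) hA1
  have hamp : (2 : ℝ) ^ (J + 2) * √(2 * kwB b (Wn k0 ε) (LN (2 ^ r) (2 ^ s))) ≤ Ya := by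
    refine (b6.le.trans ?_).trans hYa
    have e1 : ε ^ (-(4 * k0)) = ε ^ k0 * ε ^ (-(5 * k0)) := by
      rw [← Real.rpow_add he]
      congr 1
      ring
    rw [e1]
    have e2 := Real.rpow_pos_of_pos he (-(5 * k0))
    calc A1 * (ε ^ k0 * ε ^ (-(5 * k0))) = A1 * ε ^ k0 * ε ^ (-(5 * k0)) := by ring
      _ ≤ 1 * ε ^ (-(5 * k0)) := mul_le_mul_of_nonneg_right hs.k5 e2.le
      _ = _ := one_mul _
  have hKK : 2 ^ lg k0 ε + 5 ≤ 3 * 2 ^ lg k0 ε + 5 := by omega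
  have hnb2 : 2 ≤ 2 ^ (r - n) := by
    calc 2 = 2 ^ 1 := by norm_num
      _ ≤ 2 ^ (r - n) := Nat.pow_le_pow_right (by norm_num) (by
        have := h.nm; have := h.mr; omega)
  have hW1 : 1 ≤ 3 * 2 ^ lg k0 ε + 5 + 1 := by omega
  have hNa := numW_of hb h hM3 hT1 hT2 hD (le_refl (tn m)) (by linarith) hW1
  have hNc := numW_of hb h hM3 hT1 hT2 hD (by linarith : tn m ≤ 4 * tn m) le_rfl hW1
  have hδ : dlN (2 ^ r) (2 ^ s) (Wn k0 ε * 2 ^ (n - s)) b T m ≤ 1 := by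
    refine (dlN_le hb h hM3 hT1 hT2 hD hA1 hk b3).trans (le_trans ?_ hs.k8)
    have e1 : (((2 : ℝ) ^ (m - n)) ^ 2)⁻¹ ≤ ε ^ (2 * thp) := by
      have e2 := h.M_ge
      have e3 : ε ^ (2 * thp) = ((ε ^ (-thp)) ^ 2)⁻¹ := by
        rw [← Real.rpow_natCast (ε ^ (-thp)) 2, ← Real.rpow_mul he.le, ← Real.rpow_neg he.le]
        congr 1
        push_cast
        ring
      rw [e3]
      have e4 := Real.rpow_pos_of_pos he (-thp)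
      gcongr
    calc 32 * A1 * ε ^ (-(20 * k0)) * (((2 : ℝ) ^ (m - n)) ^ 2)⁻¹
        ≤ 32 * A1 * ε ^ (-(20 * k0)) * ε ^ (2 * thp) := by
          have := Real.rpow_nonneg he.le (-(20 * k0))
          gcongr
      _ = 32 * A1 * ε ^ (-(20 * k0) + 2 * thp) := by rw [mul_assoc, ← Real.rpow_add he]
      _ ≤ _ := mul_le_mul_of_nonneg_left (rpow_anti he he1 (by linarith)) (by positivity)
  have ea := exact_good hb h hT1 hT2 hD (le_refl (tn m)) (by linarith) hYa1 hp1 hexp hta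
  have ec := exact_good hb h hT1 hT2 hD (by linarith : tn m ≤ 4 * tn m) (by linarith) hYa1 hp1
    hexp htc
  refine NearH.of_typ h.dvd hb htm (by linarith) hcT hAa hAc
    (H447.DB_pos hb (by unfold Wn; omega) h.LN_one he) (Real.rpow_nonneg he.le _)
    (H447.qB_pos hb (by unfold Wn; omega) h.LN_one (by positivity)) ?_ hδ (by positivity)
    (inv_le_one_of_one_le₀ (by linarith)) (by unfold kapN; positivity) (hPU _ (Rw_pos h))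
    hta htc hY4 le_rfl hp1 (by linarith) ea ec (cl_nonneg J _) (by linarith)
  intro w w' hw
  exact win_pair (K := 2 ^ lg k0 ε) (Kw := 3 * 2 ^ lg k0 ε + 5) hKK hnb2 hNa hNc hAa hAc hJ1
    hlam1 hΘ hta htc hY1 le_rfl hp1 hamp (by linarith) hk6 w w' hw

/-- the locality constant is superpolynomially small -/
lemma kap_bd (h : StN th thp C0 n m r s ε) (hs : Sml thp k0 cp q A1 A2 J ε) (hCp : 0 ≤ Cp)
    (hcp : 0 < cp) (hω : ω ≤ 1 / 2) (hT1 : tn n ≤ T) (hT2 : T ≤ 4 * tn n) :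
    Bd ε (kapN Cp cp ω (Rw k0 ε n s) n * T) (1000 * Cp) q := by
  have he := h.ε0
  have hT : 0 < T := (tn_pos n).trans_le hT1
  have h1 : Real.exp ((1 + 16 * ω) / 2) ≤ 243 := by
    have h2 : Real.exp 1 ≤ 3 := by
      have := Real.exp_one_lt_d9
      linarith
    calc Real.exp ((1 + 16 * ω) / 2) ≤ Real.exp (5 * 1) := Real.exp_le_exp.2 (by linarith)
      _ = Real.exp 1 ^ 5 := by rw [Real.exp_mul, ← Real.exp_one_rpow 5]; norm_num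
      _ ≤ 3 ^ 5 := pow_le_pow_left₀ (Real.exp_pos _).le h2 5
      _ = 243 := by norm_num
  have h2 : ((2 : ℝ) ^ n) ^ 2 * T ≤ 4 := by
    have h3 := tn_sq n
    calc ((2 : ℝ) ^ n) ^ 2 * T ≤ (2 ^ n) ^ 2 * (4 * tn n) :=
          mul_le_mul_of_nonneg_left hT2 (by positivity)
      _ = 4 * (tn n * (2 ^ n) ^ 2) := by ring
      _ = 4 := by rw [h3, mul_one]
  have h3 : Real.exp (-(cp * (Rw k0 ε n s / 2 ^ n))) ≤ ε ^ q := by
    refine le_trans (Real.exp_le_exp.2 (neg_le_neg ?_)) hs.k4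
    refine mul_le_mul_of_nonneg_left ?_ hcp.le
    rw [Rw_eq h, mul_div_assoc, div_self (by positivity), mul_one]
    have h4 := two_lg_ge (c := k0) he
    push_cast
    linarith
  refine ⟨by unfold kapN; positivity, by positivity, ?_⟩
  unfold kapN
  calc Real.exp ((1 + 16 * ω) / 2) * ((2 : ℝ) ^ n) ^ 2 *
        (Cp * Real.exp (-(cp * (Rw k0 ε n s / 2 ^ n)))) * T
      = Real.exp ((1 + 16 * ω) / 2) * (((2 : ℝ) ^ n) ^ 2 * T) *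
        (Cp * Real.exp (-(cp * (Rw k0 ε n s / 2 ^ n)))) := by ring
    _ ≤ 243 * 4 * (Cp * ε ^ q) := by
        refine mul_le_mul (mul_le_mul h1 h2 (by positivity) (by norm_num))
          (mul_le_mul_of_nonneg_left h3 hCp) (by positivity) (by norm_num)
    _ ≤ 1000 * Cp * ε ^ q := by
        have : 0 ≤ Cp * ε ^ q := mul_nonneg hCp (Real.rpow_nonneg he.le _)
        linarith

/-- all numbers of the near part -/
theorem nb_of [NeZero (2 ^ r / 2 ^ s)] {A A0 : ℝ} (hb : 0 < b) (h : StN th thp C0 n m r s ε)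
    (hs : Sml thp k0 cp q A1 A2 J ε) (hk : 0 < k0) (hk1 : k0 ≤ thp / 1000) (ht : thp ≤ 1 / 300)
    (hA1 : 0 ≤ A1) (hCp : 0 ≤ Cp) (hcp : 0 < cp) (hA0 : 0 ≤ A0)
    (hA : A = 32 * A1 + |A2| + 235 + 1000 * Cp + 4096 * A0) (hω : ω ≤ 1 / 2)
    (b1 : Bd ε ((2 * ((2 ^ lg k0 ε : ℕ) : ℝ) + 1) ^ 4 * ((m - n + 1 : ℕ) : ℝ)) A1 (-(20 * k0)))
    (b2 : Bd ε (ε ^ (-k0) * DB b (Wn k0 ε) (LN (2 ^ r) (2 ^ s)) ε) A1 (1 - 20 * k0))
    (b3 : Bd ε (wcB b (Wn k0 ε) (LN (2 ^ r) (2 ^ s))) A1 (-(20 * k0)))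
    (b4 : Bd ε (qB b (Wn k0 ε) (2 ^ (n - s)) (LN (2 ^ r) (2 ^ s))) A1 (-(2 * C0 + 20 * k0)))
    (b7 : Bd ε (rhoN J k0 ε n m r) A2 (3 / 4))
    (hT1 : tn n ≤ T) (hT2 : T ≤ 4 * tn n) (hD : DN b n r s T ≤ ε) :
    NB thp (20 * k0) C0 A (2 * C0 + 1) q ε
      ((2 * ((2 ^ lg k0 ε : ℕ) : ℝ) + 1) ^ 4 * ((m - n + 1 : ℕ) : ℝ)) (2 ^ (m - n))
      ((2 ^ r / 2 ^ s : ℕ) : ℝ) (T / tn m) (ε ^ (-k0) * DB b (Wn k0 ε) (LN (2 ^ r) (2 ^ s)) ε)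
      (kapN Cp cp ω (Rw k0 ε n s) n * T) (200 * ε ^ q)
      (qB b (Wn k0 ε) (2 ^ (n - s)) (LN (2 ^ r) (2 ^ s)))
      (dlN (2 ^ r) (2 ^ s) (Wn k0 ε * 2 ^ (n - s)) b T m) (rhoN J k0 ε n m r) (35 * ε ^ q) := by
  have he := h.ε0
  have he1 := h.ε1'
  have hA2 := abs_nonneg A2
  have hA2' := le_abs_self A2
  have htm := tn_pos m
  have hT : 0 < T := (tn_pos n).trans_le hT1
  have hq0 : 0 ≤ ε ^ q := Real.rpow_nonneg he.le _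
  have hr := tn_ratio h.nm
  have hM3 := hs.M3 h
  have q1 : A1 ≤ A := by rw [hA]; linarith
  have q2 : A2 ≤ A := by rw [hA]; linarith
  have q3 : 235 ≤ A := by rw [hA]; linarith
  have q4 : 1000 * Cp ≤ A := by rw [hA]; linarith
  have q5 : 32 * A1 ≤ A := by rw [hA]; linarith
  have q6 : |A2| ≤ A := by rw [hA]; linarith
  refine ⟨he, he1, b1.mono he he1 q1 le_rfl, h.M_ge, h.M_leB, Nat.cast_nonneg _, ?_,
    by positivity, ?_, b2.mono he he1 q1 le_rfl,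
    (kap_bd h hs hCp hcp hω hT1 hT2).mono he he1 q4 le_rfl, ⟨by positivity, by linarith, ?_⟩,
    b4.mono he he1 q1 (by linarith), dlN_ge hb h hT1 hT2 _, ?_, cl_nonneg J _,
    (b7.mono he he1 q2 le_rfl).le, ?_, ⟨by positivity, by linarith, ?_⟩⟩
  · rw [h.cast_nc]
    exact h.nc_le
  · rw [div_le_iff₀ htm]
    rw [hr] at hT2
    linarith
  · exact mul_le_mul_of_nonneg_right (by linarith) hq0
  · refine (dlN_le hb h hM3 hT1 hT2 hD hA1 hk b3).trans ?_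
    have := Real.rpow_nonneg he.le (-(20 * k0))
    gcongr
  · refine (b7.le.trans ?_).trans hs.k9
    exact mul_le_mul_of_nonneg_right hA2' (Real.rpow_nonneg he.le _)
  · exact mul_le_mul_of_nonneg_right (by linarith) hq0

end st

/-- **the near part**: `NearH` for the window radius `K = 2 ^ lg k0 ε`, and its number -/
theorem nearB {sg κ₀ Cp cp A0 q : ℝ} (hb : 0 < b) (hκ : 0 < κ₀) (ht0 : 0 < thp)
    (ht : thp ≤ 1 / 300) (hsg : 60 * thp ≤ sg) (hC : 0 ≤ C0) (hk : 0 < k0)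
    (hk1 : k0 ≤ thp / 1000) (hCp : 0 ≤ Cp) (hcp : 0 < cp) (hA0 : 0 ≤ A0)
    (hJ : (1 / 2 : ℝ) ^ J ≤ thp / 32) (hq : 16 * C0 + 14 ≤ q) :
    ∃ E : ℝ, 0 < E ∧ ∀ (n m r s : ℕ) (ε : ℝ) [NeZero (2 ^ r / 2 ^ s)],
      StN th thp C0 n m r s ε → ε ≤ E → ∀ T Y Ya ω : ℝ, tn n ≤ T → T ≤ 4 * tn n →
      DN b n r s T ≤ ε → 0 < Y → 0 ≤ ω → ω ≤ 1 / 2 → ω ≤ A0 * 4 ^ (r - n) * max Y ε →
      (∀ R : ℝ, 0 < R → PUH (2 ^ r) b T R (Real.exp ((1 + 16 * ω) / 2) * ((2 : ℝ) ^ n) ^ 2 *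
        (Cp * Real.exp (-(cp * (R / 2 ^ n))))) ω) →
      ε ^ (-(5 * k0)) ≤ Ya → TypE (2 ^ r) (2 ^ s) b T (tn m) Ya 1 (ε ^ q) →
      TypE (2 ^ r) (2 ^ s) b T (4 * tn m) Ya 1 (ε ^ q) →
      ∃ (Aa Ac : Matrix (V (2 ^ r / 2 ^ s)) (V (2 ^ r / 2 ^ s)) ℝ) (ρw : ℕ)
        (R D e lam p β qq pX κ ρ pe : ℝ) (Gd : ℝ → Set (V (2 ^ r) → ℝ)),
        NearH (2 ^ r) (2 ^ s) (2 ^ (r - n)) (2 ^ (n - s)) (2 ^ lg k0 ε) b T (tn m) (4 * tn m)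
          Aa Ac ρw J R D e lam p β qq pX κ ω ρ pe Gd ∧
        T * dtN (2 ^ r) (2 ^ s) ρw J b T (tn m) (4 * tn m) D e lam qq β κ ω ρ pe *
          ((2 * ((2 ^ lg k0 ε : ℕ) : ℝ) + 1) ^ 4 * ((m - n + 1 : ℕ) : ℝ)) ≤
            κ₀ * max (ε / 8) (ε ^ (-(sg / 2)) * Y ^ 2) := by
  have ht5 : 5 * thp ≤ 1 := by linarith
  obtain ⟨A1, hA1, hnum⟩ := num_win (th := th) hb hk ht5 hC ht0 J
  obtain ⟨A2, hrho⟩ := rho_bd (th := th) (C0 := C0) ht0 ht hk hk1 hJ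
  have hA2 := abs_nonneg A2
  obtain ⟨A, hAd⟩ : ∃ A : ℝ, A = 32 * A1 + |A2| + 235 + 1000 * Cp + 4096 * A0 := ⟨_, rfl⟩
  have hA : 0 ≤ A := by rw [hAd]; positivity
  obtain ⟨E1, hE1, k1⟩ := near_core (σ := 20 * k0) (A := A) (c1 := 2 * C0 + 1) (q0 := q) (J := J)
    hκ ht0 ht hsg (by linarith) (by linarith) hC hA (by linarith) (by linarith) hJ
  obtain ⟨E2, hE2, k2⟩ := exists_sml (A2 := A2) ht0 hk hcp hA1 (by linarith : 0 < q) J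
  refine ⟨min E1 E2, lt_min hE1 hE2, ?_⟩
  intro n m r s ε _ h hε T Y Ya ω hT1 hT2 hD hY0 hω0 hω1 hω hPU hYa hta htc
  have he := h.ε0
  have hs := k2 ε he (hε.trans (min_le_right _ _))
  obtain ⟨b1, b2, b3, b4, b5, b6⟩ := hnum n m r s ε h
  have b7 := hrho n m r s ε h
  have hJ1 : 1 ≤ J := by
    rcases Nat.eq_zero_or_pos J with h0 | h0
    · rw [h0, pow_zero] at hJ
      linarith
    · exact h0
  have htm := tn_pos m
  have hT : 0 < T := (tn_pos n).trans_le hT1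
  have h9 := nine_tn h.nm (hs.M3 h)
  have hdat := H859.dat_neu' (N := 2 ^ r) (l := 2 ^ s) (t := T) hb h.dvd hT
  obtain ⟨Aa, hAa⟩ := H239.exists_increment (hdat.pd htm (by linarith)).posSemidef
  obtain ⟨Ac, hAc⟩ := H239.exists_increment (hdat.pd (by linarith : 0 < 4 * tn m)
    (by linarith)).posSemidef
  have hst := near_struct hb h hs hk hk1 ht hA1 hJ1 hCp b3 b5 b6 hT1 hT2 hD hPU hYa hta htc
    hAa.symm hAc.symm
  have hnb := nb_of (A0 := A0) hb h hs hk hk1 ht hA1 hCp hcp hA0 hAd hω1 b1 b2 b3 b4 b7 hT1 hT2 hD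
  have hω2 : ω ≤ A * ε ^ (-(10 * thp)) * max Y ε := by
    refine hω.trans (mul_le_mul_of_nonneg_right ?_ (hY0.le.trans (le_max_left _ _)))
    have e1 : (4 : ℝ) ^ (r - n) ≤ 4096 * ε ^ (-(10 * thp)) := by
      calc (4 : ℝ) ^ (r - n) = (2 ^ (r - n)) ^ 2 := by
            rw [← pow_mul, mul_comm, pow_mul]
            norm_num
        _ ≤ (64 * ε ^ (-(5 * thp))) ^ 2 := pow_le_pow_left₀ (by positivity) h.nb_le 2
        _ = _ := by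
            rw [pow_base he]
            norm_num
            congr 1
            ring
    calc A0 * 4 ^ (r - n) ≤ A0 * (4096 * ε ^ (-(10 * thp))) :=
          mul_le_mul_of_nonneg_left e1 hA0
      _ = 4096 * A0 * ε ^ (-(10 * thp)) := by ring
      _ ≤ A * ε ^ (-(10 * thp)) := by
          refine mul_le_mul_of_nonneg_right ?_ (Real.rpow_nonneg he.le _)
          rw [hAd]
          linarith
  have hfin := k1 ε _ _ _ _ _ _ _ _ _ _ _ Y ω hnb (hε.trans (min_le_left _ _)) hY0 hω0 hω2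
  refine ⟨Aa, Ac, _, _, _, _, _, _, _, _, _, _, _, _, _, hst, ?_⟩
  rw [T_dtN hT htm, mul_comm]
  exact hfin

end

end Vale.Agent.P159.H145
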