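import Vale.Agent.P159.H145.Lw3
import Vale.Agent.P159.H686.Loc1
import Vale.Agent.P159.H859.Idl4
import Vale.Agent.P159.H447.Sit9
import Vale.Agent.P159.H191.Ct6

/-!
P159 (helper145), S, letters of one level (row 8263), part 0: scales, window decorations, target
statements (a) - (f) of one pair.
-/

open MeasureTheory Filter Topology Finset Matrix

set_option linter.all false

namespace Vale.Agent.P159.H145.Sp

open Vale.Agent.P159.TM.Spec (V)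
open Vale.Agent.P159.TM.SpecC (wT)
open Vale.Agent.P159.H708 (Bx)
open Vale.Agent.P159.H770 (wTD Ed)
open Vale.Agent.P159.H773 (sd nuF PsF cMn)
open Vale.Agent.P159.H686 (wdS)
open Vale.Agent.P159.H817 (sz U e1 Dec SuppD edec)
open Vale.Agent.P159.H859.Idl (bC gsR)
open Vale.Agent.P159.H447 (tent)
open Vale.Agent.P159.H191 (dcs plp)

noncomputable section

/-! ### scales -/

/-- exponent of the locality length at the scale `j` -/
def lE (j : ℕ) : ℕ := 3 * j / 4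

/-- exponent of the block side -/
def mE (j : ℕ) : ℕ := 11 * j / 16

/-- exponent of the gap -/
def qE (j : ℕ) : ℕ := 5 * j / 8

/-- locality length at the scale `2^K`, level `n` -/
def lK (n K : ℕ) : ℕ := 2 ^ (n + lE (K - n))

/-- locality length of the pair `R` -/
def lR (n R : ℕ) : ℕ := lK n (Nat.log 2 R)

/-- length of the cut, fixed in the window; `k` = exponent of the window start -/
def lC (n k : ℕ) : ℕ := 2 ^ (n + k / 16)

/-- radius of the decorations -/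
def l0C (n k : ℕ) : ℕ := 32 * lC n k

/-- half side of the windows -/
def DC (n k : ℕ) : ℕ := 64 * lC n k

/-- the reference near field -/
def b0C (i K1 : ℕ) : ℤ → ℤ → Bool → ℝ := bC (sd i (2 ^ K1)) (2 ^ K1)

/-- the shift of the window of the pair `R` -/
def gC (i n K1 R : ℕ) : V (sd i R) → ℝ := gsR (sd i R) (sd i (2 ^ K1)) (2 ^ K1) (lR n R) R

/-! ### local maps on the lattice -/

/-- the box of radius `ρ` -/
def bZ (ρ : ℕ) : Finset (ℤ × ℤ) := (Finset.Icc (-(ρ : ℤ)) ρ) ×ˢ (Finset.Icc (-(ρ : ℤ)) ρ)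

/-- the left window, extended by zero -/
def zL {D : ℕ} (z : Bx D ⊕ Bx D → ℝ) (i j : ℤ) : ℝ :=
  if h : ((i, j) : ℤ × ℤ) ∈ (Finset.Icc (-(D : ℤ)) D) ×ˢ (Finset.Icc (-(D : ℤ)) D) then
    z (Sum.inl ⟨(i, j), h⟩) else 0

/-- the right window, extended by zero -/
def zR {D : ℕ} (z : Bx D ⊕ Bx D → ℝ) (i j : ℤ) : ℝ :=
  if h : ((i, j) : ℤ × ℤ) ∈ (Finset.Icc (-(D : ℤ)) D) ×ˢ (Finset.Icc (-(D : ℤ)) D) then
    z (Sum.inr ⟨(i, j), h⟩) else 0

/-- box average -/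
def bxZ (q : ℕ) (H : ℤ → ℤ → ℝ) (i j : ℤ) : ℝ :=
  ((q : ℝ) ^ 2)⁻¹ * ∑ a ∈ range q, ∑ c ∈ range q, H (i + (a : ℤ)) (j + (c : ℤ))

/-- tent average -/
def tnZ (q : ℕ) (H : ℤ → ℤ → ℝ) (i j : ℤ) : ℝ :=
  ((q : ℝ) ^ 2)⁻¹ * ∑ a ∈ range q, ∑ c ∈ range q, bxZ q H (i - (a : ℤ)) (j - (c : ℤ))

/-- the cut-off (helper191's `chi` on offsets) -/
def chZ (l : ℕ) (i j : ℤ) : ℝ :=
  max 0 (min 1 ((((18 * l : ℕ) : ℝ) + ((2 * l : ℕ) : ℝ) - (max i.natAbs j.natAbs : ℕ)) /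
    ((2 * l : ℕ) : ℝ)))

/-- the mean with the kernel `κ`, on the box of radius `ρ` -/
def mnZ (ρ : ℕ) (κ : ℤ × ℤ → ℝ) (H : ℤ → ℤ → ℝ) (c : ℤ × ℤ) : ℝ :=
  ∑ u ∈ bZ ρ, κ u * H (c.1 + u.1) (c.2 + u.2)

/-- **the decoration** of the field `H` near a core: cut-off length `l`, smearing radius `s`,
mean with the kernel `κ` on the box of radius `ρ` -/
def dcZ (l s ρ : ℕ) (κ : ℤ × ℤ → ℝ) (H : ℤ → ℤ → ℝ) (i j : ℤ) : ℝ :=
  (((2 * s + 1 : ℕ) : ℝ) ^ 2)⁻¹ *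
    ∑ v ∈ bZ s, chZ l (i - v.1) (j - v.2) * (H i j - mnZ ρ κ H v)

/-- the decoration of the core at the origin -/
def T0 (κ : ℤ × ℤ → ℝ) (n k q D : ℕ) (z : Bx D ⊕ Bx D → ℝ) : ℤ → ℤ → ℝ :=
  dcZ (lC n k) (2 ^ n) (lC n k) κ (tnZ q (zL z))

/-- the decoration of the core at `R e1` -/
def T1 (κ : ℤ × ℤ → ℝ) (n k q D : ℕ) (z : Bx D ⊕ Bx D → ℝ) : ℤ → ℤ → ℝ :=
  dcZ (lC n k) (2 ^ n) (lC n k) κ (tnZ q (zR z))

/-- uniform weights on the box of radius `ρ` of the torus -/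
def wB (N ρ : ℕ) [NeZero N] (v : V N) : ℝ :=
  if sz v ≤ ρ then (((2 * ρ + 1 : ℕ) : ℝ) ^ 2)⁻¹ else 0

/-- weights on the torus with the kernel `κ` on the box of radius `ρ` -/
def muK (N ρ : ℕ) [NeZero N] (κ : ℤ × ℤ → ℝ) (v : V N) : ℝ :=
  ∑ u ∈ bZ ρ, if v = (((u.1 : ℤ) : ZMod N), ((u.2 : ℤ) : ZMod N)) then κ u else 0

/-- the uniform kernel -/
def kU (ρ : ℕ) (_ : ℤ × ℤ) : ℝ := (((2 * ρ + 1 : ℕ) : ℝ) ^ 2)⁻¹

/-! ### elementary properties -/

lemma measurable_zL {D : ℕ} (i j : ℤ) : Measurable fun z : Bx D ⊕ Bx D → ℝ => zL z i j := by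
  unfold zL
  split_ifs with h
  · exact measurable_pi_apply _
  · exact measurable_const

lemma measurable_zR {D : ℕ} (i j : ℤ) : Measurable fun z : Bx D ⊕ Bx D → ℝ => zR z i j := by
  unfold zR
  split_ifs with h
  · exact measurable_pi_apply _
  · exact measurable_const

section meas

variable {Ω : Type*} [MeasurableSpace Ω] {G : Ω → ℤ → ℤ → ℝ}

lemma meas_bxZ (q : ℕ) (hG : ∀ i j, Measurable fun z => G z i j) (i j : ℤ) :
    Measurable fun z => bxZ q (G z) i j := by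
  unfold bxZ
  exact (Finset.measurable_fun_sum _ fun a _ => Finset.measurable_fun_sum _ fun c _ => hG _ _).const_mul _

lemma meas_tnZ (q : ℕ) (hG : ∀ i j, Measurable fun z => G z i j) (i j : ℤ) :
    Measurable fun z => tnZ q (G z) i j := by
  unfold tnZ
  exact (Finset.measurable_fun_sum _ fun a _ => Finset.measurable_fun_sum _ fun c _ =>
    meas_bxZ q hG _ _).const_mul _

lemma meas_mnZ (ρ : ℕ) (κ : ℤ × ℤ → ℝ) (hG : ∀ i j, Measurable fun z => G z i j) (c : ℤ × ℤ) :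
    Measurable fun z => mnZ ρ κ (G z) c := by
  unfold mnZ
  exact Finset.measurable_fun_sum _ fun u _ => (hG _ _).const_mul _

lemma meas_dcZ (l s ρ : ℕ) (κ : ℤ × ℤ → ℝ) (hG : ∀ i j, Measurable fun z => G z i j) (i j : ℤ) :
    Measurable fun z => dcZ l s ρ κ (G z) i j := by
  unfold dcZ
  exact (Finset.measurable_fun_sum _ fun v _ =>
    ((hG i j).sub (meas_mnZ ρ κ hG v)).const_mul _).const_mul _

end meas

lemma measurable_T0 (κ : ℤ × ℤ → ℝ) (n k q D : ℕ) (i j : ℤ) :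
    Measurable fun z : Bx D ⊕ Bx D → ℝ => T0 κ n k q D z i j :=
  meas_dcZ _ _ _ κ (meas_tnZ q measurable_zL) i j

lemma measurable_T1 (κ : ℤ × ℤ → ℝ) (n k q D : ℕ) (i j : ℤ) :
    Measurable fun z : Bx D ⊕ Bx D → ℝ => T1 κ n k q D z i j :=
  meas_dcZ _ _ _ κ (meas_tnZ q measurable_zR) i j

lemma chZ_zero {l : ℕ} {i j : ℤ} (h : 20 * l ≤ max i.natAbs j.natAbs) : chZ l i j = 0 := by
  unfold chZ
  refine max_eq_left ((min_le_right _ _).trans (div_nonpos_of_nonpos_of_nonneg ?_ (by positivity)))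
  have : ((20 * l : ℕ) : ℝ) ≤ (max i.natAbs j.natAbs : ℕ) := by exact_mod_cast h
  push_cast at this ⊢
  linarith

/-- the support of the decoration -/
lemma dcZ_zero {l s ρ : ℕ} {κ : ℤ × ℤ → ℝ} {H : ℤ → ℤ → ℝ} {i j : ℤ}
    (h : 20 * l + s ≤ max i.natAbs j.natAbs) : dcZ l s ρ κ H i j = 0 := by
  unfold dcZ
  rw [Finset.sum_eq_zero, mul_zero]
  intro v hv
  have h1 := Finset.mem_product.1 hv
  have h2 := Finset.mem_Icc.1 h1.1
  have h3 := Finset.mem_Icc.1 h1.2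
  rw [chZ_zero (by omega), zero_mul]

lemma suppD_dcZ {l s ρ L : ℕ} {κ : ℤ × ℤ → ℝ} (hL : 20 * l + s ≤ L + 1) (H : ℤ → ℤ → ℝ) :
    SuppD L (dcZ l s ρ κ H) := by
  intro i j hij
  by_contra hc
  exact hij (dcZ_zero (by omega))

/-- **supports of the decorations** -/
lemma supp_T0 (κ : ℤ × ℤ → ℝ) (n k q D : ℕ) (z : Bx D ⊕ Bx D → ℝ) :
    SuppD (l0C n k) (T0 κ n k q D z) := by
  refine suppD_dcZ ?_ _
  have h : 2 ^ n ≤ lC n k := Nat.pow_le_pow_right (by norm_num) (Nat.le_add_right _ _)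
  unfold l0C
  omega

lemma supp_T1 (κ : ℤ × ℤ → ℝ) (n k q D : ℕ) (z : Bx D ⊕ Bx D → ℝ) :
    SuppD (l0C n k) (T1 κ n k q D z) := by
  refine suppD_dcZ ?_ _
  have h : 2 ^ n ≤ lC n k := Nat.pow_le_pow_right (by norm_num) (Nat.le_add_right _ _)
  unfold l0C
  omega

/-! ### the target statements of one pair -/

section tgt

variable (b : ℝ) (i : ℕ) (η : ∀ R, Ed (sd i R) → ℤ) (φ : ∀ R, V (sd i R) → ℝ) (t : ℝ)

/-- the functional of the pair `R` -/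
abbrev Ps (R : ℕ) (F : V (sd i R) → ℝ) : ℝ :=
  PsF b (sd i) (fun R => wTD (sd i R) b (η R)) φ t R F

/-- its massless mean -/
abbrev cM (R : ℕ) : ℝ := cMn b (sd i) (fun R => wTD (sd i R) b (η R)) R

/-- the smoothed field -/
def HF (q R : ℕ) (g F : V (sd i R) → ℝ) : V (sd i R) → ℝ := tent (sd i R) q (F + g)

/-- decorations of the smoothed field, mean with the weights `μ` -/
def dcR (n k R : ℕ) (μ H : V (sd i R) → ℝ) : V (sd i R) → ℝ :=
  dcs (lC n k) μ (wB (sd i R) (2 ^ n)) (0 : V (sd i R)) (R • e1) H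

/-- plateau of the smoothed field, mean with the weights `μ` -/
def plR (n R : ℕ) (μ H : V (sd i R) → ℝ) : V (sd i R) → ℝ :=
  plp (U (30 * lR n R) (lR n R)) μ (wB (sd i R) (2 ^ n)) (0 : V (sd i R)) (R • e1) H

/-- **(a) the door** -/
def DoorP (q R : ℕ) (g : V (sd i R) → ℝ) (p s : ℝ) : Prop :=
  ∃ G : Set (V (sd i R) → ℝ), MeasurableSet G ∧ (nuF b (sd i) t R).real Gᶜ ≤ p ∧ ∀ F ∈ G,
    |Real.log (Ps b i η φ t R F) - Real.log (Ps b i η φ t R (HF i q R g F - g))| ≤ s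

/-- **(b) the cut** -/
def CutP (n k q R : ℕ) (μ g : V (sd i R) → ℝ) (p s : ℝ) : Prop :=
  ∃ G : Set (V (sd i R) → ℝ), MeasurableSet G ∧ (nuF b (sd i) t R).real Gᶜ ≤ p ∧ ∀ F ∈ G,
    |Real.log (Ps b i η φ t R (HF i q R g F - g)) -
      Real.log (Ps b i η φ t R
        (dcR i n k R μ (HF i q R g F) + plR i n R μ (HF i q R g F) - g))| ≤ s

/-- **(c) the plateau** -/
def PlaP (n k q R : ℕ) (μ g : V (sd i R) → ℝ) (p s : ℝ) : Prop :=
  ∃ G : Set (V (sd i R) → ℝ), MeasurableSet G ∧ (nuF b (sd i) t R).real Gᶜ ≤ p ∧ ∀ F ∈ G,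
    |Real.log (Ps b i η φ t R
        (dcR i n k R μ (HF i q R g F) + plR i n R μ (HF i q R g F) - g)) -
      Real.log (Ps b i η φ t R (dcR i n k R μ (HF i q R g F) - g))| ≤ s

/-- **(d) the decorations belong to the classes** -/
def MemP {D : ℕ} (U0 U1 : (Bx D ⊕ Bx D → ℝ) → ℤ → ℤ → ℝ) (R : ℕ) (g : V (sd i R) → ℝ)
    (D0 D1 : Dec) (p : ℝ) : Prop :=
  ∃ G : Set (V (sd i R) → ℝ), MeasurableSet G ∧ (nuF b (sd i) t R).real Gᶜ ≤ p ∧ ∀ F ∈ G,
    U0 (wdS (sd i) D R g F) ∈ D0 ∧ U1 (wdS (sd i) D R g F) ∈ D1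

/-- **(e) the size of the functional** -/
def LamP (R : ℕ) (p u : ℝ) : Prop :=
  ∃ G : Set (V (sd i R) → ℝ), MeasurableSet G ∧ (nuF b (sd i) t R).real Gᶜ ≤ p ∧ ∀ F ∈ G,
    Ps b i η φ t R F ≤ Real.exp u * cM b i η R

/-- **(f) transfer of events** -/
def QP (R : ℕ) (q0 M : ℝ) : Prop :=
  ∀ E : Set (V (sd i R) → ℝ), MeasurableSet E →
    ∫ F in E, Ps b i η φ t R F ∂(nuF b (sd i) t R) ≤
      cM b i η R * (q0 + M * √((nuF b (sd i) t R).real E))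

end tgt

/-- the identity of the decorations (bridge) -/
def BridgeP {D : ℕ} (U0 U1 : (Bx D ⊕ Bx D → ℝ) → ℤ → ℤ → ℝ) (i n k q R : ℕ)
    (μ g : V (sd i R) → ℝ) : Prop :=
  ∀ F x, edec (U0 (wdS (sd i) D R g F)) (U1 (wdS (sd i) D R g F)) 0 (R • e1) x =
    dcR i n k R μ (HF i q R g F) x

end

end Vale.Agent.P159.H145.Sp
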