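import Vale.Agent.P159.H145.Spc0
import Vale.Agent.P159.H686.Loc4
import Vale.Agent.P159.H552.Lq1

/-!
P159 (helper145), S, letters of one level (row 8263), part 1: the axis pairs, the crude ratio of the
means, the field `loc` at one pair from the target statements, and the output of a level.
-/

open MeasureTheory Filter Topology Finset Matrix

set_option linter.all false

namespace Vale.Agent.P159.H145.Sp

open Vale.Agent.P159.TM.Spec (V)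
open Vale.Agent.P159.TM.SpecC (wT)
open Vale.Agent.P159.H708 (Bx)
open Vale.Agent.P159.H770 (wTD Ed)
open Vale.Agent.P159.H773 (sd ax0 nuF PsF cMn cMn_pt cMn_pos Pth de cT0 Gcut sd_ge)
open Vale.Agent.P159.H686 (wdS Lcl Cmp Stp dcF StV RealR loc_G real_inter_compl measurable_dcF)
open Vale.Agent.P159.H817 (sz U e1 Dec SuppD edec eF bD eD IsPath)
open Vale.Agent.P159.H27 (Rb)
open Vale.Agent.P159.H801 (itw)
open Vale.Agent.P159.H253.Rec (ga ua RecAt ga_anti)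
open Vale.Agent.P159.H145.Lw
open Vale.Agent.P159.H37.Sf (NumS tn_pos)
open Vale.Agent.P159.H972 (tn)

noncomputable section

/-! ### the axis pairs -/

/-- paths and potentials of the axis pairs -/
structure AxP (i : ℕ) (η : ∀ R, Ed (sd i R) → ℤ) (φ : ∀ R, V (sd i R) → ℝ) : Prop where
  pth : Pth i η
  bd : ∀ R, 1 ≤ R → bD (0 : V (sd i R)) (R • e1) = eF (η R) (φ R)

theorem exists_axP {i : ℕ} (hi : 2 ≤ i) :
    ∃ (η : ∀ R, Ed (sd i R) → ℤ) (φ : ∀ R, V (sd i R) → ℝ), AxP i η φ := by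
  choose η hη using fun R : ℕ => H817.exists_path' (N := sd i R) (0 : V (sd i R)) (R • e1)
  refine ⟨η, fun R => H817.pot fun e => (η R e : ℝ), ⟨fun R hR => ?_, fun R hR => ?_⟩⟩
  · have h1 : 2 ^ i * R ≤ sd i R := sd_ge i R
    have h2 : 2 ^ 2 ≤ 2 ^ i := Nat.pow_le_pow_right (by norm_num) hi
    have h3 : 2 ^ 2 * R ≤ sd i R := (Nat.mul_le_mul_right R h2).trans h1
    have h4 : 2 * R < sd i R := by omega
    have h5 := hη R
    rw [H859.Idl.v1_z0 h4, H859.Idl.v2_z0] at h5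
    refine ⟨H817.l1 (R • (e1 : V (sd i R)) - 0), ?_⟩
    have e : ax0 (sd i R) R = R • (e1 : V (sd i R)) := (H817.nsmul_e1 R).symm
    rw [e]
    exact h5
  · funext e
    exact (hη R).bD_eq e

/-! ### the crude ratio of the means -/

/-- **the ratio of the means at the two ends**, from the knowledge -/
theorem cM_ratio {b β C2 A0 : ℝ} {Am i : ℕ} {a : ℕ → ℝ} {k w : ℕ → ℕ} {n0 j R : ℕ} (hb : 0 < b)
    (hi : 4 ≤ i) (hA : A0 ≤ 2 ^ i) (hAm : 1 ≤ Am) (K : KnW b β C2 A0 Am i a k w n0 j R)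
    {η : ∀ R, Ed (sd i R) → ℤ} (hη : Pth i η) (hR : Rb k w n0 j ≤ R) :
    cM b i η R * Real.exp (a (itw w n0 j) / 2 *
      (eD (sd i R) R - eD (sd i (Rb k w n0 j)) (Rb k w n0 j))) ≤
      (3 * Real.exp (1 / 4 * (Real.log R - Real.log (Rb k w n0 j)) + Real.pi / 2 * de 1)) *
        cM b i η (Rb k w n0 j) := by
  obtain ⟨κ, slo⟩ := K.slo
  have r0 : Rb k w n0 0 ≤ Rb k w n0 j := slo.Rb_mono (Nat.zero_le j)
  have r1 : 1 ≤ Rb k w n0 j := H27.Rb_pos k w n0 j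
  have hRA : R ≤ Am * R := Nat.le_mul_of_pos_left R hAm
  have key : ∀ R' : ℕ, Rb k w n0 0 ≤ R' → R' ≤ Am * R → 1 ≤ R' →
      |ga b R' - cM b i η R'| ≤ cM b i η R' / 2 := by
    intro R' g1 g2 g3
    have h1 : 2 ^ i * R' ≤ sd i R' := sd_ge i R'
    have hAR : A0 * R' ≤ sd i R' := by
      have h4 : (2 : ℝ) ^ i * R' ≤ sd i R' := by exact_mod_cast h1
      exact (mul_le_mul_of_nonneg_right hA (Nat.cast_nonneg R')).trans h4
    have h2 := (K.tor R' g1 g2 (sd i R') hAR).1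
    have h3 := cMn_pt (i := i) hb.le (by omega) hη g3
    unfold cM
    rw [h3]
    exact h2
  have k1 := abs_le.1 (key R (r0.trans hR) hRA (r1.trans hR))
  have k2 := abs_le.1 (key _ r0 (hR.trans hRA) r1)
  have k3 := ga_anti hb.le hR
  have c0 := cMn_pos (b := b) (Nf := sd i) (wD := fun R => wTD (sd i R) b (η R)) hb
    (fun R => H883.bw_wTD hb (η R)) (Rb k w n0 j)
  have hE := slo.e_le r0 hR j
  have h1 : cM b i η R ≤ 3 * cM b i η (Rb k w n0 j) := by linarith [k1.1, k2.2]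
  calc cM b i η R * Real.exp (a (itw w n0 j) / 2 *
        (eD (sd i R) R - eD (sd i (Rb k w n0 j)) (Rb k w n0 j)))
      ≤ 3 * cM b i η (Rb k w n0 j) *
        Real.exp (1 / 4 * (Real.log R - Real.log (Rb k w n0 j)) + Real.pi / 2 * de 1) :=
        mul_le_mul h1 (Real.exp_le_exp.2 hE) (Real.exp_pos _).le (by
          have : 0 ≤ cM b i η (Rb k w n0 j) := c0.le
          linarith)
    _ = _ := by ring

/-! ### the field `loc` at one pair -/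

/-- **(g) stationarity** at the pair `R` -/
def StP (i : ℕ) (b t a : ℝ) (n k0 K1 R : ℕ) (D0 D1 : Dec) (s : ℝ) : Prop :=
  ∃ (nd : ℕ) (Λc ε₂ ε₃ : ℕ → ℝ) (L S B E ε₄ : ℝ),
    StV i b t a nd (lK n) Λc ε₂ ε₃ L S B E D0 D1 (b0C i K1) k0 R (gC i n K1 (2 ^ k0))
      (gC i n K1 R) ∧
    RealR i b t a nd D0 D1 k0 R (gC i n K1 (2 ^ k0)) (gC i n K1 R) ε₄ ∧
    (Nat.clog 2 R - k0) * E + ε₄ ≤ s

/-- **all statements of one pair** -/
structure PairP {D : ℕ} (U0 U1 : (Bx D ⊕ Bx D → ℝ) → ℤ → ℤ → ℝ) (D0 D1 : Dec) (b : ℝ) (i : ℕ)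
    (η : ∀ R, Ed (sd i R) → ℤ) (φ : ∀ R, V (sd i R) → ℝ) (t a : ℝ) (n k q k0 K1 R : ℕ)
    (μ : V (sd i R) → ℝ) (p s u q0 M : ℝ) : Prop where
  door : DoorP b i η φ t q R (gC i n K1 R) p s
  cut : CutP b i η φ t n k q R μ (gC i n K1 R) p s
  pla : PlaP b i η φ t n k q R μ (gC i n K1 R) p s
  mem : MemP b i t U0 U1 R (gC i n K1 R) D0 D1 p
  lam : LamP b i η φ t R p u
  tr : QP b i η φ t R q0 M
  br : BridgeP U0 U1 i n k q R μ (gC i n K1 R)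
  st : StP i b t a n k0 K1 R D0 D1 s

/-- **the field `loc` at one pair** -/
theorem PairP.loc {D : ℕ} {U0 U1 : (Bx D ⊕ Bx D → ℝ) → ℤ → ℤ → ℝ}
    (m0 : ∀ u v, Measurable fun z => U0 z u v) (m1 : ∀ u v, Measurable fun z => U1 z u v)
    {D0 D1 : Dec} {b : ℝ} {i : ℕ} {η : ∀ R, Ed (sd i R) → ℤ} {φ : ∀ R, V (sd i R) → ℝ}
    {t a : ℝ} {n k q k0 K1 R : ℕ} {μ : V (sd i R) → ℝ} {p s u q0 M K δ : ℝ} (hb : 0 < b)
    (ht : 0 < t) (A : AxP i η φ) (H : PairP U0 U1 D0 D1 b i η φ t a n k q k0 K1 R μ p s u q0 M)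
    (hR0 : 2 ^ k0 ≤ R) (hs : 4 * s ≤ 1) (hδ : 8 * s ≤ δ) (hM : 0 ≤ M)
    (hK : cM b i η R * Real.exp (a / 2 * (eD (sd i R) R - eD (sd i (2 ^ k0)) (2 ^ k0))) ≤
      K * cM b i η (2 ^ k0)) :
    ∃ Gd : Set (V (sd i R) → ℝ),
      Lcl (nuF b (sd i) t R) (PsF b (sd i) (fun R => wTD (sd i R) b (η R)) φ t R)
        (cMn b (sd i) (fun R => wTD (sd i R) b (η R)) R)
        (cMn b (sd i) (fun R => wTD (sd i R) b (η R)) (2 ^ k0) *
          Real.exp (-(a / 2 * (eD (sd i R) R - eD (sd i (2 ^ k0)) (2 ^ k0)))))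
        (wdS (sd i) D R (gC i n K1 R))
        (Gcut b (sd i) (fun R => wTD (sd i R) b (η R)) φ t (2 ^ k0) D
          (dcF i D U0 U1 (2 ^ k0) (gC i n K1 (2 ^ k0))) (K * Real.exp (u + 1)))
        Gd (K * Real.exp (u + 1)) δ (q0 + M * √(5 * p)) (5 * p) := by
  have hpr : IsProbabilityMeasure (nuF b (sd i) t R) :=
    H883.prob_nuM (H963.gw_wT hb.le) (H883.bw_wT hb) (H883.mf_scalar ht) 0
  obtain ⟨G1, mG1, p1, h1⟩ := H.door
  obtain ⟨G2, mG2, p2, h2⟩ := H.cut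
  obtain ⟨G3, mG3, p3, h3⟩ := H.pla
  obtain ⟨G4, mG4, p4, h4⟩ := H.mem
  obtain ⟨G5, mG5, p5, h5⟩ := H.lam
  obtain ⟨nd, Λc, ε₂, ε₃, L, S, B, E, ε₄, hSt, hRe, hE⟩ := H.st
  have hR1 : 1 ≤ R := (Nat.one_le_two_pow (n := k0)).trans hR0
  refine ⟨G1 ∩ (G2 ∩ (G3 ∩ (G4 ∩ G5))), ?_⟩
  refine loc_G (gs := gC i n K1) hb ht (A.bd _ Nat.one_le_two_pow) (A.bd R hR1) hSt hRe m0 m1 hR0
    (e1 := s) (e2 := s) (e3 := s) (F1 := fun F => HF i q R (gC i n K1 R) F - gC i n K1 R)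
    (F2 := fun F => dcR i n k R μ (HF i q R (gC i n K1 R) F) +
      plR i n R μ (HF i q R (gC i n K1 R) F) - gC i n K1 R)
    (mG1.inter (mG2.inter (mG3.inter (mG4.inter mG5))))
    (fun F hF => (h4 F hF.2.2.2.1).1) (fun F hF => (h4 F hF.2.2.2.1).2) (fun F hF => h1 F hF.1)
    (fun F hF => h2 F hF.2.1) (fun F hF => ?_) (fun F hF => h5 F hF.2.2.2.2) hK (by linarith)
    (by linarith) H.tr hM ?_
  · have h6 := h3 F hF.2.2.1
    have e : dcF i D U0 U1 R (gC i n K1 R) (wdS (sd i) D R (gC i n K1 R) F) =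
        dcR i n k R μ (HF i q R (gC i n K1 R) F) - gC i n K1 R := by
      funext x
      unfold H686.dcF
      rw [H.br F x]
      rfl
    rw [e]
    exact h6
  · refine (real_inter_compl p1 (real_inter_compl p2 (real_inter_compl p3
      (real_inter_compl p4 p5)))).trans (le_of_eq ?_)
    ring

/-! ### the output of a level -/

/-- elementary: the numbers of `loc` -/
lemma num_loc {Z K : ℝ} (hZ : 8 ≤ Z) (hK : K ≤ Real.exp (Z / 32)) (hK0 : 1 ≤ K) :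
    1 ≤ K * Real.exp (Z / 16 + 1) ∧ K * Real.exp (Z / 16 + 1) ≤ Real.exp (Z / 8 + 1 - Z / 32) := by
  constructor
  · have := Real.one_le_exp (show 0 ≤ Z / 16 + 1 by linarith)
    nlinarith
  · calc K * Real.exp (Z / 16 + 1) ≤ Real.exp (Z / 32) * Real.exp (Z / 16 + 1) :=
        mul_le_mul_of_nonneg_right hK (Real.exp_pos _).le
      _ = Real.exp (Z / 8 + 1 - Z / 32) := by
        rw [← Real.exp_add]
        congr 1
        ring

lemma num_q {Z : ℝ} (hZ : 8 ≤ Z) :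
    Real.exp (-(2 * Z)) + Real.exp (Z / 4) * √(5 * Real.exp (-(4 * Z))) ≤ Real.exp (-Z) := by
  have h1 : √(5 * Real.exp (-(4 * Z))) ≤ 3 * Real.exp (-(2 * Z)) := by
    rw [Real.sqrt_le_left (by positivity)]
    rw [mul_pow, ← Real.exp_nat_mul]
    have e : ((2 : ℕ) : ℝ) * -(2 * Z) = -(4 * Z) := by push_cast; ring
    rw [e]
    have := Real.exp_pos (-(4 * Z))
    nlinarith
  have h2 : Real.exp (Z / 4) * √(5 * Real.exp (-(4 * Z))) ≤ 3 * Real.exp (-(7 / 4 * Z)) := by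
    calc Real.exp (Z / 4) * √(5 * Real.exp (-(4 * Z)))
        ≤ Real.exp (Z / 4) * (3 * Real.exp (-(2 * Z))) :=
          mul_le_mul_of_nonneg_left h1 (Real.exp_pos _).le
      _ = 3 * (Real.exp (Z / 4) * Real.exp (-(2 * Z))) := by ring
      _ = _ := by
        rw [← Real.exp_add]
        congr 2
        ring
  have h3 : Real.exp (-(7 / 4 * Z)) = Real.exp (-Z) * Real.exp (-(3 / 4 * Z)) := by
    rw [← Real.exp_add]
    congr 1
    ring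
  have h4 : Real.exp (-(2 * Z)) = Real.exp (-Z) * Real.exp (-Z) := by
    rw [← Real.exp_add]
    congr 1
    ring
  have h5 : Real.exp (-(3 / 4 * Z)) ≤ 1 / 6 := by
    have h6 : (6 : ℝ) ≤ Real.exp (3 / 4 * Z) := by
      have := Real.add_one_le_exp (3 / 4 * Z)
      linarith
    rw [Real.exp_neg, one_div]
    exact inv_anti₀ (by norm_num) h6
  have h6 : Real.exp (-Z) ≤ 1 / 2 := by
    have h7 : (2 : ℝ) ≤ Real.exp Z := by
      have := Real.add_one_le_exp Z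
      linarith
    rw [Real.exp_neg, one_div]
    exact inv_anti₀ (by norm_num) h7
  have h7 := Real.exp_pos (-Z)
  rw [h3] at h2
  rw [h4]
  nlinarith

lemma num_b {Z : ℝ} (hZ : 8 ≤ Z) : 5 * Real.exp (-(4 * Z)) ≤ Real.exp (-Z) := by
  have h1 : Real.exp (-(4 * Z)) = Real.exp (-Z) * Real.exp (-(3 * Z)) := by
    rw [← Real.exp_add]
    congr 1
    ring
  have h2 : Real.exp (-(3 * Z)) ≤ 1 / 5 := by
    have h3 : (5 : ℝ) ≤ Real.exp (3 * Z) := by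
      have := Real.add_one_le_exp (3 * Z)
      linarith
    rw [Real.exp_neg, one_div]
    exact inv_anti₀ (by norm_num) h3
  rw [h1]
  have := Real.exp_pos (-Z)
  nlinarith

/-- **THE OUTPUT OF A LEVEL** from the statements of its pairs, `cmp` and `stp` -/
theorem lvOutQ_of {D : ℕ} {U0 U1 : (Bx D ⊕ Bx D → ℝ) → ℤ → ℤ → ℝ}
    (m0 : ∀ u v, Measurable fun z => U0 z u v) (m1 : ∀ u v, Measurable fun z => U1 z u v)
    {D0 D1 : Dec} {b : ℝ} {i : ℕ} {η : ∀ R, Ed (sd i R) → ℤ} {φ : ∀ R, V (sd i R) → ℝ}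
    {a c3 c4 y : ℝ} {n n' k q k0 K1 : ℕ} {μ : ∀ R, V (sd i R) → ℝ} {Q : ℕ → Prop}
    {K τ ηn κP bW : ℝ} (hb : 0 < b) (A : AxP i η φ) (hy : 0 < y) (hy1 : y ≤ 1) (h4 : 0 < c4) (hZ : 64 ≤ y ^ (-c3)) (hK0 : 1 ≤ K)
    (hK : K ≤ Real.exp (y ^ (-c3) / 64))
    (hP : ∀ R, 2 ^ k0 ≤ R → R ≤ 2 ^ K1 → Q R →
      PairP U0 U1 D0 D1 b i η φ (tn n) a n k q k0 K1 R (μ R) (Real.exp (-(4 * y ^ (-c3))))
        (y ^ (1 + c4) / 16) (y ^ (-c3) / 16) (Real.exp (-(2 * y ^ (-c3))))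
        (Real.exp (y ^ (-c3) / 4)))
    (hR : ∀ R, 2 ^ k0 ≤ R → R ≤ 2 ^ K1 → Q R →
      cM b i η R * Real.exp (a / 2 * (eD (sd i R) R - eD (sd i (2 ^ k0)) (2 ^ k0))) ≤
        K * cM b i η (2 ^ k0))
    (hτ0 : 0 ≤ τ) (hτ1 : τ ≤ Real.exp (-y ^ (-c3))) (hη0 : 0 ≤ ηn) (hη1 : ηn ≤ 1 / 500)
    (hκ0 : 0 ≤ κP) (hκ1 : κP ≤ 1 / 30) (hW0 : 0 ≤ bW) (hW1 : bW ≤ Real.exp (-y ^ (-c3)))
    (hcmp : ∀ R, 2 ^ k0 ≤ R → R ≤ 2 ^ K1 → Q R →
      Cmp (nuF b (sd i) (tn n) (2 ^ k0)) (nuF b (sd i) (tn n) R)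
        (wdS (sd i) D (2 ^ k0) (gC i n K1 (2 ^ k0))) (wdS (sd i) D R (gC i n K1 R)) (1 / 40) τ)
    (hstp : Q (2 ^ K1) → Stp (nuF b (sd i) (tn n) (2 ^ K1)) (nuF b (sd i) (tn n') (2 ^ K1))
      (PsF b (sd i) (fun R => wTD (sd i R) b (η R)) φ (tn n) (2 ^ K1))
      (PsF b (sd i) (fun R => wTD (sd i R) b (η R)) φ (tn n') (2 ^ K1))
      (cMn b (sd i) (fun R => wTD (sd i R) b (η R)) (2 ^ K1))
      (wdS (sd i) D (2 ^ K1) (gC i n K1 (2 ^ K1))) κP ηn bW) :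
    LvOutQ b i η φ c3 c4 y a n n' (2 ^ k0) (2 ^ K1) Q := by
  set Z := y ^ (-c3) with hZd
  have hs0 : 0 < y ^ (1 + c4) := Real.rpow_pos_of_pos hy _
  have hs1 : y ^ (1 + c4) ≤ 1 := Real.rpow_le_one hy.le hy1 (by linarith)
  have hK' : K ≤ Real.exp (Z / 32) := hK.trans (Real.exp_le_exp.2 (by linarith))
  have hn1 := num_loc (by linarith : 8 ≤ Z) hK' hK0
  have hΛ : K * Real.exp (Z / 16 + 1) ≤ Real.exp (Z / 8) := by
    calc K * Real.exp (Z / 16 + 1) ≤ Real.exp (Z / 64) * Real.exp (Z / 16 + 1) :=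
        mul_le_mul_of_nonneg_right hK (Real.exp_pos _).le
      _ = Real.exp (Z / 64 + (Z / 16 + 1)) := by rw [← Real.exp_add]
      _ ≤ Real.exp (Z / 8) := Real.exp_le_exp.2 (by linarith)
  refine ⟨D, fun R => wdS (sd i) D R (gC i n K1 R),
    Gcut b (sd i) (fun R => wTD (sd i R) b (η R)) φ (tn n) (2 ^ k0) D
      (dcF i D U0 U1 (2 ^ k0) (gC i n K1 (2 ^ k0))) (K * Real.exp (Z / 16 + 1)),
    y ^ (1 + c4), Real.exp (-(2 * Z)) + Real.exp (Z / 4) * √(5 * Real.exp (-(4 * Z))),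
    5 * Real.exp (-(4 * Z)), K * Real.exp (Z / 16 + 1), 1 / 40, τ, ηn, κP, bW, ?_, ?_, ?_, ?_⟩
  · exact ⟨hs0.le, le_rfl, by positivity, num_q (by linarith), by positivity,
      num_b (by linarith), hn1.1, hΛ, by norm_num, le_rfl, hτ0, hτ1, hη0, hη1, hκ0, hκ1, hW0, hW1⟩
  · intro R h1 h2 hQ
    exact (hP R h1 h2 hQ).loc m0 m1 hb (tn_pos n) A h1 (by linarith) (by linarith)
      (Real.exp_pos _).le (hR R h1 h2 hQ)
  · exact hcmp
  · exact hstp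

end

end Vale.Agent.P159.H145.Sp
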