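import Vale.Agent.P159.H145.Spc1
import Vale.Agent.P159.H37.Lq3
import Vale.Agent.P159.H552.Lq3
import Vale.Agent.P159.H640.Up2
import Vale.Agent.P159.H801.Fin0

/-!
P159 (helper145), S, letters of one level, part 2: statements along the flow, the size and the
transfer of the functional along the flow, and the static part `SOut` from the statements of the
pairs.
-/

open MeasureTheory Filter Topology Finset Matrix

set_option linter.all false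

namespace Vale.Agent.P159.H145.Sp

open Vale.Agent.P159.TM.Spec (V)
open Vale.Agent.P159.TM.SpecC (wT)
open Vale.Agent.P159.H708 (Bx WtOK)
open Vale.Agent.P159.H770 (wTD Ed)
open Vale.Agent.P159.H773 (sd nuF PsF cMn Pth de Gcut)
open Vale.Agent.P159.H686 (wdS Lcl Cmp Stp dcF)
open Vale.Agent.P159.H817 (sz U e1 Dec SuppD edec eF bD eD)
open Vale.Agent.P159.H27 (Rb)
open Vale.Agent.P159.H801 (itw itw_ge SFlow SOut)
open Vale.Agent.P159.H145.Lw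
open Vale.Agent.P159.H37.Sf (Kn kf tn_pos sf_big sf_win sf_D sf_lb0 gS lvOutQ_ev)
open Vale.Agent.P159.H972 (tn Par)
open Vale.Agent.P159.H552.Sm (Ag)

noncomputable section

/-! ### statements along the flow -/

/-- the pairs of the level `n` -/
def Win (P : Par) (ck : ℝ) (y ε : ℕ → ℝ) (n R : ℕ) : Prop :=
  2 ^ (n + kf ck y n) ≤ R ∧ R ≤ 2 ^ (n + P.w (ε n) + kf ck y (n + P.w (ε n)))

/-- **a statement for all pairs of all levels**, with the knowledge at the pair -/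
def Along (P : Par) (b β ck : ℝ) (Am : ℕ) (a y ε : ℕ → ℝ)
    (X : ∀ (i : ℕ), (∀ R, Ed (sd i R) → ℤ) → (∀ R, V (sd i R) → ℝ) → ℕ → ℕ → Prop) : Prop :=
  ∀ A0 C2 : ℝ, 8 ≤ A0 → 1 ≤ C2 → ∃ i1 : ℕ, ∀ i, i1 ≤ i → ∀ᶠ n in atTop, ∀ n0 j,
    n = itw (fun n => P.w (ε n)) n0 j → ∀ η φ, AxP i η φ → ∀ R, Win P ck y ε n R →
    KnW b β C2 A0 Am i a (kf ck y) (fun n => P.w (ε n)) n0 j R → X i η φ n R

section along

variable {P : Par} {b β ck : ℝ} {Am : ℕ} {a y ε : ℕ → ℝ}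
variable {X Y : ∀ (i : ℕ), (∀ R, Ed (sd i R) → ℤ) → (∀ R, V (sd i R) → ℝ) → ℕ → ℕ → Prop}

lemma Along.mono (h : Along P b β ck Am a y ε X) (hXY : ∀ i η φ n R, X i η φ n R → Y i η φ n R) :
    Along P b β ck Am a y ε Y := by
  intro A0 C2 hA hC
  obtain ⟨i1, h1⟩ := h A0 C2 hA hC
  refine ⟨i1, fun i hi => ?_⟩
  filter_upwards [h1 i hi] with n hn n0 j hj η φ hx R hR K
  exact hXY _ _ _ _ _ (hn n0 j hj η φ hx R hR K)

lemma Along.and (h : Along P b β ck Am a y ε X) (h' : Along P b β ck Am a y ε Y) :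
    Along P b β ck Am a y ε fun i η φ n R => X i η φ n R ∧ Y i η φ n R := by
  intro A0 C2 hA hC
  obtain ⟨i1, h1⟩ := h A0 C2 hA hC
  obtain ⟨i2, h2⟩ := h' A0 C2 hA hC
  refine ⟨max i1 i2, fun i hi => ?_⟩
  filter_upwards [h1 i ((le_max_left _ _).trans hi), h2 i ((le_max_right _ _).trans hi)]
    with n g1 g2 n0 j hj η φ hx R hR K
  exact ⟨g1 n0 j hj η φ hx R hR K, g2 n0 j hj η φ hx R hR K⟩

/-- a statement which does not use the knowledge -/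
lemma Along.of (h : ∃ i1 : ℕ, ∀ i, i1 ≤ i → ∀ᶠ n in atTop, ∀ η φ, AxP i η φ → ∀ R,
    Win P ck y ε n R → X i η φ n R) : Along P b β ck Am a y ε X := by
  intro A0 C2 hA hC
  obtain ⟨i1, h1⟩ := h
  refine ⟨i1, fun i hi => ?_⟩
  filter_upwards [h1 i hi] with n hn n0 j _ η φ hx R hR _
  exact hn η φ hx R hR

end along

lemma win_ge {P : Par} {ck : ℝ} {y ε : ℕ → ℝ} {n R : ℕ} (h : Win P ck y ε n R) (hk : 32 ≤ kf ck y n) :
    8 ≤ R ∧ 1 ≤ R := by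
  have h1 : 2 ^ 3 ≤ 2 ^ (n + kf ck y n) := Nat.pow_le_pow_right (by norm_num) (by omega)
  have := h.1
  constructor <;> omega

/-! ### the size and the transfer -/

section flow

variable {P : Par} {b β σ c c1 q2 qx : ℝ} {a y ε xs : ℕ → ℝ} {c' r q A : ℝ} {N : ℕ}

/-- **`LamP` and `QP` along the flow** from the energy number `Del` and the typicality of the
amplitude `192` -/
theorem lamQ_along (h : SFlow P b σ c c1 q2 qx a y ε xs c' r q A N) (hb : 0 < b) (hσ : σ ≤ 1 / 4)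
    {ck c3 : ℝ} (hck : 0 < ck) (hck1 : ck ≤ P.thp) (hc3 : 0 < c3) (hβ : 1 / 4 ≤ β)
    (hβ2 : β < 1 / 2) {Am : ℕ} (hAm : 1 ≤ Am)
    (hDel : Along P b β ck Am a y ε fun i η φ n R =>
      H856.Dl.Del (wTD (sd i R) b) (tn n • 1) (tn n) 0 (η R) (φ R) ≤ y n ^ (-(c3 / 2)))
    (hAg : Along P b β ck Am a y ε fun i η φ n R => ∃ r : ℝ, 0 ≤ r ∧ r ≤ 2 ∧
      (nuF b (sd i) (tn n) R).real (Ag (wTD (sd i R) b) (tn n • 1) (tn n) 0 192 r)ᶜ ≤
        Real.exp (-(5 * y n ^ (-c3)))) :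
    Along P b β ck Am a y ε fun i η φ n R =>
      LamP b i η φ (tn n) R (Real.exp (-(4 * y n ^ (-c3)))) (y n ^ (-c3) / 16) ∧
      QP b i η φ (tn n) R (Real.exp (-(2 * y n ^ (-c3)))) (Real.exp (y n ^ (-c3) / 4)) := by
  intro A0 C2 hA hC
  obtain ⟨i1, h1⟩ := hDel A0 C2 hA hC
  obtain ⟨i2, h2⟩ := hAg A0 C2 hA hC
  obtain ⟨Ca, hCa, ha⟩ := H640.Up.lev_E5 (b := b) (β := β) (C2 := C2) hb hβ hβ2 hC
  obtain ⟨Cb, hCb, hbb⟩ := H552.Lq.lev_qf (b := b) (β := β) (C2 := C2) hb hβ hβ2 hC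
  obtain ⟨i3, hi3⟩ := (tendsto_pow_atTop_atTop_of_one_lt (one_lt_two (α := ℝ))).eventually_ge_atTop
    A0 |>.exists_forall_of_atTop
  refine ⟨max (max i1 i2) (max i3 4), fun i hi => ?_⟩
  have e1 : i1 ≤ i := ((le_max_left _ _).trans (le_max_left _ _)).trans hi
  have e2 : i2 ≤ i := ((le_max_right _ _).trans (le_max_left _ _)).trans hi
  have e3 : i3 ≤ i := ((le_max_left _ _).trans (le_max_right _ _)).trans hi
  have e4 : 4 ≤ i := ((le_max_right _ _).trans (le_max_right _ _)).trans hi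
  filter_upwards [h1 i e1, h2 i e2, sf_win h hσ hck hck1 0, sf_big h hc3 (M := Ca + 8 * Cb + 1)
    (by linarith), sf_big h (p := c3 / 2) (M := 24576) (by linarith) (by norm_num),
    eventually_ge_atTop N] with n g1 g2 hwin hZ hY hN n0 j hj η φ hx R hR K
  have hy := h.fl.y0 n
  have hw := win_ge hR hwin.1
  obtain ⟨r, hr0, hr2, hν⟩ := g2 n0 j hj η φ hx R hR K
  have hD := g1 n0 j hj η φ hx R hR K
  have hΔ0 : 0 < y n ^ (-(c3 / 2)) := Real.rpow_pos_of_pos hy _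
  have hZZ : y n ^ (-c3) = y n ^ (-(c3 / 2)) * y n ^ (-(c3 / 2)) := by
    rw [← Real.rpow_add hy]
    congr 1
    ring
  have hΔZ : 24576 * y n ^ (-(c3 / 2)) ≤ y n ^ (-c3) := by
    rw [hZZ]
    exact mul_le_mul_of_nonneg_right hY hΔ0.le
  have hR0 : Rb (kf ck y) (fun n => P.w (ε n)) n0 0 ≤ R := by
    obtain ⟨κ, slo⟩ := K.slo
    refine (slo.Rb_mono (Nat.zero_le j)).trans ?_
    have := hR.1
    rw [hj] at this
    exact this
  have hA0 : A0 ≤ 2 ^ i := hi3 i e3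
  have hs := ha A0 Am i a _ _ n0 j R η φ e4 hA0 hAm K hR0 hw.1 hx.pth (tn n) r
    (y n ^ (-(c3 / 2))) (y n ^ (-c3)) (tn_pos n) hr2 hΔ0 (by linarith) hΔZ hD hν
  have hAg4 : (nuF b (sd i) (tn n) R).real (Ag (wTD (sd i R) b) (tn n • 1) (tn n) 0 4 r)ᶜ ≤
      Real.exp (-(5 * y n ^ (-c3))) := by
    have hpr : IsProbabilityMeasure (nuF b (sd i) (tn n) R) :=
      H883.prob_nuM (H963.gw_wT hb.le) (H883.bw_wT hb) (H883.mf_scalar (tn_pos n)) 0
    refine le_trans (measureReal_mono (Set.compl_subset_compl.2 fun F hF => ?_)) hν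
    have h6 : H552.Sm.Rw (wTD (sd i R) b) (tn n • 1) (tn n) 0 ((2 : ℝ) • ((192 : ℝ) • F)) ≤ r := hF
    have h7 := H640.Up.Rw_amp (x₀ := (0 : V (sd i R))) (H770.gwf_wTD hb)
      (H883.mf_scalar (tn_pos n)) (s := 48) (by norm_num) ((2 : ℝ) • ((4 : ℝ) • F))
    have e : (48 : ℝ) • ((2 : ℝ) • ((4 : ℝ) • F)) = (2 : ℝ) • ((192 : ℝ) • F) := by
      rw [smul_smul, smul_smul, smul_smul]
      norm_num
    rw [e] at h7
    exact h7.trans h6
  have hq := hbb A0 Am i a _ _ n0 j R η φ e4 hA0 hAm K hR0 hw.1 hx.pth (tn n) r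
    (y n ^ (-(c3 / 2))) (y n ^ (-c3)) (tn_pos n) hr0 hr2 hΔ0.le (by linarith) hD
    (by linarith) hAg4
  refine ⟨⟨_, hs.1, hs.2, fun F hF => hF⟩, fun E hE => ?_⟩
  rw [mul_comm]
  exact hq E hE

end flow

/-! ### the static part from the statements of the pairs -/

/-- **the statement of one pair along the flow** -/
def PairA (P : Par) (b ck c3 c4 : ℝ) (a y ε : ℕ → ℝ) (κ : ℕ → ℤ × ℤ → ℝ) (sm : ℕ → ℕ)
    (D0 D1 : ℕ → ℕ → Dec) (i : ℕ) (η : ∀ R, Ed (sd i R) → ℤ) (φ : ∀ R, V (sd i R) → ℝ)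
    (n R : ℕ) : Prop :=
  PairP (D := DC n (kf ck y n)) (T0 (κ n) n (kf ck y n) (sm n) (DC n (kf ck y n)))
    (T1 (κ n) n (kf ck y n) (sm n) (DC n (kf ck y n))) (D0 i n) (D1 i n) b i η φ (tn n) (a n) n
    (kf ck y n) (sm n) (n + kf ck y n) (n + P.w (ε n) + kf ck y (n + P.w (ε n))) R
    (muK (sd i R) (lC n (kf ck y n)) (κ n)) (Real.exp (-(4 * y n ^ (-c3))))
    (y n ^ (1 + c4) / 16) (y n ^ (-c3) / 16) (Real.exp (-(2 * y n ^ (-c3))))
    (Real.exp (y n ^ (-c3) / 4))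

/-- **THE STATIC PART FROM THE STATEMENTS OF THE PAIRS** -/
theorem sOut_of {b1 : ℝ} (hb1 : 0 < b1) (b2 pf : ℝ) (Q : ℕ) :
    Vale.Agent.P159.H801.Ev b1 b2 pf Q fun P _ => ∀ {b σ c c1 q2 qx : ℝ} {a y ε xs : ℕ → ℝ}
      {c' r q A : ℝ} {N : ℕ},
      SFlow P b σ c c1 q2 qx a y ε xs c' r q A N → 0 < b → 0 < σ → σ ≤ 1 / 4 → 0 ≤ c →
      4 * c ≤ σ → ∀ ck : ℝ, 0 < ck → 2 * P.th ≤ ck → ck ≤ P.thp → ∀ c3 : ℝ, 0 < c3 →
      32 * c3 ≤ ck → ∀ c4 : ℝ, 0 < c4 → ∀ (β : ℝ) (Am : ℕ), 1 ≤ Am →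
      ∀ (κ : ℕ → ℤ × ℤ → ℝ) (sm : ℕ → ℕ) (D0 D1 : ℕ → ℕ → Dec),
      (∀ i, ∀ᶠ n in atTop, ∃ ηw bw : ℝ, 0 ≤ ηw ∧ ηw ≤ 1 / 4000 ∧
        bw ≤ Real.exp (-(4 * y n ^ (-c3))) ∧ ∀ R, Win P ck y ε n R →
        WtOK b (tn n) ηw bw (sd i R)) →
      Along P b β ck Am a y ε (PairA P b ck c3 c4 a y ε κ sm D0 D1) →
      SOut P b β Am a y ε := by
  refine (lvOutQ_ev hb1 b2 pf Q).mono fun P _ hAdm H => ?_
  intro b σ c c1 q2 qx a y ε xs c' r q A N h hb hσ0 hσ hc hc4 ck hck hck2 hck1 c3 hc3 hc3k c4 h4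
    β Am hAm κ sm D0 D1 hWt hPair
  refine ⟨ck, c3, c4, hck, hck1, hc3, h4, fun A0 C2 hA0 hC2 => ?_⟩
  obtain ⟨i1, hi1⟩ := hPair A0 C2 hA0 hC2
  obtain ⟨i3, hi3⟩ := (tendsto_pow_atTop_atTop_of_one_lt (one_lt_two (α := ℝ))).eventually_ge_atTop
    A0 |>.exists_forall_of_atTop
  refine ⟨max i1 (max i3 6), fun i hi => ?_⟩
  have e1 : i1 ≤ i := (le_max_left _ _).trans hi
  have e3 : i3 ≤ i := ((le_max_left _ _).trans (le_max_right _ _)).trans hi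
  have e6 : 6 ≤ i := ((le_max_right _ _).trans (le_max_right _ _)).trans hi
  obtain ⟨η, φ, hx⟩ := exists_axP (i := i) (by omega)
  refine ⟨η, φ, hx.pth, ?_⟩
  have hKS : 1 ≤ H552.Lq.KS := by
    unfold H552.Lq.KS
    have hde : 0 ≤ de 1 := by unfold de; positivity
    have hπ := Real.pi_pos
    exact Real.one_le_exp (by positivity)
  have hcl1 : ck ≤ 1 := by
    have := hAdm.hx
    have := hAdm.x11
    have := P.th0
    linarith
  have hev : ∀ᶠ n in atTop, ∀ n0 j, n = itw (fun n => P.w (ε n)) n0 j →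
      Kn b β i a (kf ck y) (fun n => P.w (ε n)) n0 j →
      LvOutQ b i η φ c3 c4 (y n) (a n) n (n + P.w (ε n)) (2 ^ (n + kf ck y n))
        (2 ^ (n + P.w (ε n) + kf ck y (n + P.w (ε n))))
        (KnW b β C2 A0 Am i a (kf ck y) (fun n => P.w (ε n)) n0 j) := by
    filter_upwards [hi1 i e1, hWt i, H h hb hσ0 hσ hc hc4 ck hck hck2 hck1 c3 hc3 hc3k c4 i e6,
      sf_D h hck hcl1 6, sf_win h hσ hck hck1 0,
      sf_big h hc3 (M := 64 + 64 * Real.log H552.Lq.KS) (by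
        have := Real.log_nonneg hKS
        linarith), eventually_ge_atTop N] with n g1 g2 g3 g4 hwin hZ hN n0 j hj hKn
    obtain ⟨ηw, bw, w0, w1, w2, w3⟩ := g2
    have hy := h.fl.y0 n
    have hy1 := h.y1 n hN
    have hs0 : 0 < y n ^ (1 + c4) := Real.rpow_pos_of_pos hy _
    have hs1 : y n ^ (1 + c4) ≤ 1 := Real.rpow_le_one hy.le hy1 (by linarith)
    have hlog := Real.log_nonneg hKS
    have hK : H552.Lq.KS ≤ Real.exp (y n ^ (-c3) / 64) := by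
      rw [← Real.exp_log (by linarith : (0 : ℝ) < H552.Lq.KS)]
      exact Real.exp_le_exp.2 (by linarith)
    have hK' : H552.Lq.KS ≤ Real.exp (y n ^ (-c3) / 32) :=
      hK.trans (Real.exp_le_exp.2 (by linarith))
    have hn1 := num_loc (by linarith : 8 ≤ y n ^ (-c3)) hK' hKS
    have hΛ : H552.Lq.KS * Real.exp (y n ^ (-c3) / 16 + 1) ≤ Real.exp (y n ^ (-c3) / 8) := by
      calc H552.Lq.KS * Real.exp (y n ^ (-c3) / 16 + 1) ≤
            Real.exp (y n ^ (-c3) / 64) * Real.exp (y n ^ (-c3) / 16 + 1) :=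
          mul_le_mul_of_nonneg_right hK (Real.exp_pos _).le
        _ = Real.exp (y n ^ (-c3) / 64 + (y n ^ (-c3) / 16 + 1)) := by rw [← Real.exp_add]
        _ ≤ Real.exp (y n ^ (-c3) / 8) := Real.exp_le_exp.2 (by linarith)
    have hD1 : 1 ≤ DC n (kf ck y n) := by
      unfold DC lC
      have : 0 < 2 ^ (n + kf ck y n / 16) := by positivity
      omega
    have hD2 : ((DC n (kf ck y n) : ℕ) : ℝ) ≤ y n ^ (-(ck / 8)) * 2 ^ n := by
      have e : DC n (kf ck y n) = 2 ^ (n + kf ck y n / 16 + 6) := by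
        unfold DC lC
        rw [pow_add _ (n + kf ck y n / 16) 6]
        ring
      rw [e]
      exact g4
    refine g3 η φ (DC n (kf ck y n)) hD1 hD2 ηw bw w0 w1 w2 (fun R r1 r2 => w3 R ⟨r1, r2⟩)
      (Gcut b (sd i) (fun R => wTD (sd i R) b (η R)) φ (tn n) (2 ^ (n + kf ck y n))
        (DC n (kf ck y n))
        (dcF i (DC n (kf ck y n)) (T0 (κ n) n (kf ck y n) (sm n) (DC n (kf ck y n)))
          (T1 (κ n) n (kf ck y n) (sm n) (DC n (kf ck y n))) (2 ^ (n + kf ck y n))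
          (gC i n (n + P.w (ε n) + kf ck y (n + P.w (ε n))) (2 ^ (n + kf ck y n))))
        (H552.Lq.KS * Real.exp (y n ^ (-c3) / 16 + 1)))
      (y n ^ (1 + c4)) (Real.exp (-(2 * y n ^ (-c3))) + Real.exp (y n ^ (-c3) / 4) *
        √(5 * Real.exp (-(4 * y n ^ (-c3))))) (5 * Real.exp (-(4 * y n ^ (-c3))))
      (H552.Lq.KS * Real.exp (y n ^ (-c3) / 16 + 1)) _ hs0.le le_rfl (by positivity)
      (num_q (by linarith)) (by positivity) (num_b (by linarith)) hn1.1 hΛ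
      fun R r1 r2 K => ?_
    have hp := g1 n0 j hj η φ hx R ⟨r1, r2⟩ K
    have hR0 : 2 ^ (n + kf ck y n) = Rb (kf ck y) (fun n => P.w (ε n)) n0 j := by
      rw [hj]
      rfl
    have hr := H552.Lq.lev_K hb (by omega) (hi3 i e3) hAm K hR0 r1 hx.pth
    rw [← hj] at hr
    exact PairP.loc (measurable_T0 _ _ _ _ _) (measurable_T1 _ _ _ _ _) hb (tn_pos n) hx hp r1
      (by linarith) (by linarith) (Real.exp_pos _).le hr
  obtain ⟨N1, hN1⟩ := eventually_atTop.1 (hev.and (sf_win h hσ hck hck1 1))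
  refine ⟨N1, fun n0 hn0 j n n' hKn hn hn' => ?_⟩
  have hge : N1 ≤ n := by
    rw [hn]
    have := itw_ge (w := fun n => P.w (ε n)) (N := N1) (fun m hm => (hN1 m hm).2.2.1) hn0 j
    omega
  subst hn'
  exact (hN1 n hge).1 n0 j hn hKn

end

end Vale.Agent.P159.H145.Sp
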