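import Vale.Agent.P159.H37.Lq5
import Vale.Agent.P159.H640.Up2
import Vale.Agent.P159.H816.St2

/-!
P159 (helper145), S, letters of one level, part 3: the fields `lam` and `tr` of all pairs of the
large levels in helper37's form `Win`, and the size of the weights `WtFam`.
-/

open MeasureTheory Filter Topology Finset Matrix

set_option linter.all false

namespace Vale.Agent.P159.H145.Sp

open Vale.Agent.P159.TM.Spec (V)
open Vale.Agent.P159.TM.SpecC (wT)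
open Vale.Agent.P159.H708 (Bx WtOK)
open Vale.Agent.P159.H770 (wTD Ed)
open Vale.Agent.P159.H773 (sd nuF PsF cMn Pth)
open Vale.Agent.P159.H27 (Rb)
open Vale.Agent.P159.H801 (itw SFlow)
open Vale.Agent.P159.H145.Lw
open Vale.Agent.P159.H37.Sf (kf tn_pos sf_big sf_win kE1 Win WtFam)
open Vale.Agent.P159.H972 (tn Par)
open Vale.Agent.P159.H552.Sm (Ag)

noncomputable section

section flow

variable {P : Par} {b β σ c c1 q2 qx : ℝ} {a y ε xs : ℕ → ℝ} {c' r q A : ℝ} {N : ℕ}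

/-- **`lam` and `tr` along the flow** from the energy number `Del` and the typicality of the
amplitude `192` -/
theorem lamQ_win (h : SFlow P b σ c c1 q2 qx a y ε xs c' r q A N) (hb : 0 < b) (hσ : σ ≤ 1 / 4)
    {ck c3 : ℝ} (hck : 0 < ck) (hck1 : ck ≤ P.thp) (hc3 : 0 < c3) (hβ : 1 / 4 ≤ β)
    (hβ2 : β < 1 / 2) {Am : ℕ} (hAm : 1 ≤ Am) {A0 C2 : ℝ} (hC2 : 1 ≤ C2) {i : ℕ} (hi : 4 ≤ i)
    (hA0 : A0 ≤ 2 ^ i) {η : ∀ R, Ed (sd i R) → ℤ} {φ : ∀ R, V (sd i R) → ℝ} (hx : AxP i η φ)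
    (hDel : Win P b β C2 A0 Am i ck a y ε fun n R =>
      H856.Dl.Del (wTD (sd i R) b) (tn n • 1) (tn n) 0 (η R) (φ R) ≤ y n ^ (-(c3 / 2)))
    (hAg : Win P b β C2 A0 Am i ck a y ε fun n R =>
      (nuF b (sd i) (tn n) R).real (Ag (wTD (sd i R) b) (tn n • 1) (tn n) 0 192 1)ᶜ ≤
        Real.exp (-(5 * y n ^ (-c3)))) :
    (Win P b β C2 A0 Am i ck a y ε fun n R =>
      LamP b i η φ (tn n) R (Real.exp (-(4 * y n ^ (-c3)))) (y n ^ (-c3) / 16)) ∧
    (Win P b β C2 A0 Am i ck a y ε fun n R =>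
      QP b i η φ (tn n) R (Real.exp (-(2 * y n ^ (-c3)))) (Real.exp (y n ^ (-c3) / 4))) := by
  obtain ⟨Ca, hCa, ha⟩ := H640.Up.lev_E5 (b := b) (β := β) (C2 := C2) hb hβ hβ2 hC2
  obtain ⟨Cb, hCb, hbb⟩ := H552.Lq.lev_qf (b := b) (β := β) (C2 := C2) hb hβ hβ2 hC2
  have key : Win P b β C2 A0 Am i ck a y ε fun n R =>
      LamP b i η φ (tn n) R (Real.exp (-(4 * y n ^ (-c3)))) (y n ^ (-c3) / 16) ∧
      QP b i η φ (tn n) R (Real.exp (-(2 * y n ^ (-c3)))) (Real.exp (y n ^ (-c3) / 4)) := by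
    unfold Win at hDel hAg ⊢
    filter_upwards [hDel, hAg, sf_win h hσ hck hck1 0, sf_big h hc3 (M := Ca + 8 * Cb + 1)
      (by linarith), sf_big h (p := c3 / 2) (M := 24576) (by linarith) (by norm_num),
      eventually_ge_atTop N] with n g1 g2 hwin hZ hY hN n0 j hj R hR1 hR2 K
    have hy := h.fl.y0 n
    have hw : 8 ≤ R := by
      have h1 : 2 ^ 3 ≤ 2 ^ (n + kf ck y n) := Nat.pow_le_pow_right (by norm_num) (by
        have := hwin.1
        omega)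
      omega
    have hν := g2 n0 j hj R hR1 hR2 K
    have hD := g1 n0 j hj R hR1 hR2 K
    have hΔ0 : 0 < y n ^ (-(c3 / 2)) := Real.rpow_pos_of_pos hy _
    have hZZ : y n ^ (-c3) = y n ^ (-(c3 / 2)) * y n ^ (-(c3 / 2)) := by
      rw [← Real.rpow_add hy]
      congr 1
      ring
    have hΔZ : 24576 * y n ^ (-(c3 / 2)) ≤ y n ^ (-c3) := by
      rw [hZZ]
      exact mul_le_mul_of_nonneg_right hY hΔ0.le
    have hR0 : Rb (kf ck y) (fun n => P.w (ε n)) n0 0 ≤ R := by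
      obtain ⟨κ, slo⟩ := K.slo
      refine (slo.Rb_mono (Nat.zero_le j)).trans ?_
      have := hR1
      rw [hj] at this
      exact this
    have hs := ha A0 Am i a _ _ n0 j R η φ hi hA0 hAm K hR0 hw hx.pth (tn n) 1
      (y n ^ (-(c3 / 2))) (y n ^ (-c3)) (tn_pos n) (by norm_num) hΔ0 (by linarith) hΔZ hD hν
    have hAg4 : (nuF b (sd i) (tn n) R).real (Ag (wTD (sd i R) b) (tn n • 1) (tn n) 0 4 1)ᶜ ≤
        Real.exp (-(5 * y n ^ (-c3))) := by
      have hpr : IsProbabilityMeasure (nuF b (sd i) (tn n) R) :=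
        H883.prob_nuM (H963.gw_wT hb.le) (H883.bw_wT hb) (H883.mf_scalar (tn_pos n)) 0
      refine le_trans (measureReal_mono (Set.compl_subset_compl.2 fun F hF => ?_)) hν
      have h6 : H552.Sm.Rw (wTD (sd i R) b) (tn n • 1) (tn n) 0 ((2 : ℝ) • ((192 : ℝ) • F)) ≤ 1 :=
        hF
      have h7 := H640.Up.Rw_amp (x₀ := (0 : V (sd i R))) (H770.gwf_wTD hb)
        (H883.mf_scalar (tn_pos n)) (s := 48) (by norm_num) ((2 : ℝ) • ((4 : ℝ) • F))
      have e : (48 : ℝ) • ((2 : ℝ) • ((4 : ℝ) • F)) = (2 : ℝ) • ((192 : ℝ) • F) := by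
        rw [smul_smul, smul_smul, smul_smul]
        norm_num
      rw [e] at h7
      exact h7.trans h6
    have hq := hbb A0 Am i a _ _ n0 j R η φ hi hA0 hAm K hR0 hw hx.pth (tn n) 1
      (y n ^ (-(c3 / 2))) (y n ^ (-c3)) (tn_pos n) (by norm_num) (by norm_num) hΔ0.le
      (by linarith) hD (by linarith) hAg4
    refine ⟨⟨_, hs.1, hs.2, fun F hF => hF⟩, fun E hE => ?_⟩
    rw [mul_comm]
    exact hq E hE
  constructor
  · refine key.mono ?_
    exact Eventually.of_forall fun n R _ _ h => h.1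
  · refine key.mono ?_
    exact Eventually.of_forall fun n R _ _ h => h.2

end flow

/-- **the numbers of typicality**: the size of the weights and the amplitude `192` -/
theorem sit_fam {b b1 b2 pf : ℝ} (hb1 : 0 < b1) (h1 : b1 ≤ b) (hpf : 0 < pf) (Q : ℕ) :
    Vale.Agent.P159.H801.Ev b1 b2 pf Q fun P c1 => 0 < c1 ∧ c1 ≤ P.th / 100 ∧
      ∀ {σ c q2 qx : ℝ} {a y ε xs : ℕ → ℝ} {c' r q A : ℝ} {N : ℕ},
      SFlow P b σ c c1 q2 qx a y ε xs c' r q A N → 0 ≤ σ → σ ≤ 1 / 4 →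
      ∀ ck : ℝ, 0 < ck → 2 * P.th ≤ ck → ck ≤ P.thp → ∀ c3 : ℝ, c3 < 2 * c1 →
      WtFam P b ck c3 y ε ∧ ∀ i : ℕ, 1 ≤ i → ∀ (β C2 A0 : ℝ) (Am : ℕ) (s κ : ℝ),
        Win P b β C2 A0 Am i ck a y ε fun n R =>
          (nuF b (sd i) (tn n) R).real (Ag (wTD (sd i R) b) (tn n • 1) (tn n) 0 s 1)ᶜ ≤
            Real.exp (-(κ * y n ^ (-c3))) := by
  refine (H816.sit_flow (b2 := b2) hb1 h1 hpf Q).mono fun P c1 hadm hT => ?_
  obtain ⟨hc0, hc1, hT⟩ := hT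
  refine ⟨hc0, hc1, ?_⟩
  intro σ c q2 qx a y ε xs c' r q A N h hσ0 hσ ck hck hck2 hck1 c3 hc3
  refine ⟨⟨1, fun i hi => ?_⟩, fun i hi β C2 A0 Am s κ => ?_⟩
  · filter_upwards [hT h hσ0 hσ ck hck hck2 hck1 i hi c3 hc3 4 1 1 (1 / 4000) 1 one_pos
      (by norm_num)] with n hn R g1 g2
    exact (hn.2 R g1 g2).2.2
  · refine Win.of ?_
    filter_upwards [hT h hσ0 hσ ck hck hck2 hck1 i hi c3 hc3 κ 1 1 1 s one_pos one_pos]
      with n hn R g1 g2
    exact (hn.2 R g1 g2).2.1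

end

end Vale.Agent.P159.H145.Sp
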