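import Vale.Agent.P159.H145.Spc3
import Vale.Agent.P159.H764.Tk0
import Vale.Agent.P159.H663.Kap
import Vale.Agent.P159.H447.Dn3

/-!
P159 (helper145), S, letters of one level, part 4: the side of the tents, the kernel of the mean,
the fields `br` and `door` in helper37's form `Win`.
-/

open MeasureTheory Filter Topology Finset Matrix

set_option linter.all false

namespace Vale.Agent.P159.H145.Sp

open Vale.Agent.P159.TM.Spec (V)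
open Vale.Agent.P159.H708 (Bx WtOK)
open Vale.Agent.P159.H770 (wTD Ed)
open Vale.Agent.P159.H773 (sd nuF PsF cMn Pth)
open Vale.Agent.P159.H27 (Rb)
open Vale.Agent.P159.H801 (itw SFlow)
open Vale.Agent.P159.H145.Lw
open Vale.Agent.P159.H37.Sf (kf tn_pos sf_big sf_win kE1 Win WtFam sf_neg sf_lb0)
open Vale.Agent.P159.H972 (tn Par)

noncomputable section

/-- depth of the tents below the level -/
def scF (c1 : ℝ) (y : ℕ → ℝ) (n : ℕ) : ℕ := ⌈y n ^ (-c1)⌉₊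

/-- exponent of the side of the tents -/
def sF (c1 : ℝ) (y : ℕ → ℝ) (n : ℕ) : ℕ := n - scF c1 y n

/-- side of the tents -/
def qF (c1 : ℝ) (y : ℕ → ℝ) (n : ℕ) : ℕ := 2 ^ sF c1 y n

/-- the kernel of the mean -/
def kapF (ck : ℝ) (y : ℕ → ℝ) (n : ℕ) : ℤ × ℤ → ℝ := H663.Dr.kT (lC n (kf ck y n) / 4)

lemma qF_pos (c1 : ℝ) (y : ℕ → ℝ) (n : ℕ) : 0 < qF c1 y n := by
  unfold qF
  positivity

lemma qF_le (c1 : ℝ) (y : ℕ → ℝ) (n : ℕ) : qF c1 y n ≤ 2 ^ n :=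
  Nat.pow_le_pow_right (by norm_num) (Nat.sub_le _ _)

section flow

variable {P : Par} {b β σ c c1 q2 qx : ℝ} {a y ε xs : ℕ → ℝ} {c' r q A : ℝ} {N : ℕ}

/-- the depth is at most the level -/
lemma scF_le (h : SFlow P b σ c c1 q2 qx a y ε xs c' r q A N) (hσ0 : 0 ≤ σ) (hσ : σ ≤ 1 / 4)
    (hc1 : 0 < c1) (hc18 : c1 ≤ 1 / 8) :
    ∀ᶠ n in atTop, scF c1 y n ≤ n ∧ (scF c1 y n : ℝ) ≤ y n ^ (-c1) + 1 ∧
      y n ^ (-c1) ≤ (n : ℝ) - sF c1 y n := by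
  filter_upwards [H816.sf_n2 h hσ0 hc1 hc18, eventually_ge_atTop N] with n g1 hn
  have hy := h.fl.y0 n
  have hy1 := h.y1 n hn
  have hε := H37.Sf.sf_eps h hn
  have hε1 : ε n ≤ 1 := (H37.Sf.sf_ey h hσ hn).trans hy1
  have h1 := sf_neg h hσ hn hc1.le
  have h2 : ε n ^ (-c1) ≤ ε n ^ (-(2 * c1)) :=
    Real.rpow_le_rpow_of_exponent_ge hε hε1 (by linarith)
  have h3 : 1 ≤ ε n ^ (-(2 * c1)) := Real.one_le_rpow_of_pos_of_le_one_of_nonpos hε hε1 (by linarith)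
  have h4 : 0 < y n ^ (-c1) := Real.rpow_pos_of_pos hy _
  have h5 : (scF c1 y n : ℝ) ≤ y n ^ (-c1) + 1 := (Nat.ceil_lt_add_one h4.le).le
  have h6 : scF c1 y n ≤ n := by
    have h7 : (scF c1 y n : ℝ) ≤ n := by linarith
    exact_mod_cast h7
  refine ⟨h6, h5, ?_⟩
  have h8 : ((sF c1 y n : ℕ) : ℝ) = (n : ℝ) - scF c1 y n := by
    unfold sF
    rw [Nat.cast_sub h6]
  rw [h8]
  have h9 : y n ^ (-c1) ≤ (scF c1 y n : ℝ) := Nat.le_ceil _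
  linarith

/-- **the field `br`** -/
theorem br_win (h : SFlow P b σ c c1 q2 qx a y ε xs c' r q A N) (hσ : σ ≤ 1 / 4) {ck : ℝ}
    (hck : 0 < ck) (hck1 : ck ≤ P.thp) {Am i : ℕ} {A0 C2 : ℝ} (κ : ℕ → ℤ × ℤ → ℝ) (qq : ℕ → ℕ)
    (hκ : ∀ n, ∑ u ∈ bZ (lC n (kf ck y n)), κ n u = 1) (hq0 : ∀ n, 0 < qq n)
    (hq1 : ∀ n, qq n ≤ 2 ^ n) :
    Win P b β C2 A0 Am i ck a y ε fun n R =>
      BridgeP (T0 (κ n) n (kf ck y n) (qq n) (DC n (kf ck y n)))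
        (T1 (κ n) n (kf ck y n) (qq n) (DC n (kf ck y n))) i n (kf ck y n) (qq n) R
        (muK (sd i R) (lC n (kf ck y n)) (κ n)) (gC i n (kE1 P ck y ε n) R) := by
  refine Win.of ?_
  filter_upwards [sf_win h hσ hck hck1 0] with n hwin R h1 _
  exact H764.Tk.bridge_flow (hκ n) (hq0 n) (hq1 n) (by have := hwin.1; omega) h1 _

/-- the kernel has mass one -/
lemma sum_kapF (ck : ℝ) (y : ℕ → ℝ) {n : ℕ} (hn : 2 ≤ n) :
    ∑ u ∈ bZ (lC n (kf ck y n)), kapF ck y n u = 1 := by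
  have h1 : 4 ≤ lC n (kf ck y n) := by
    unfold lC
    calc 4 = 2 ^ 2 := by norm_num
      _ ≤ _ := Nat.pow_le_pow_right (by norm_num) (by omega)
  exact H663.Dr.sum_kT_one (by omega) (by omega)

/-- **the field `br`**, final letters -/
theorem br_fin (h : SFlow P b σ c c1 q2 qx a y ε xs c' r q A N) (hσ : σ ≤ 1 / 4) {ck : ℝ}
    (hck : 0 < ck) (hck1 : ck ≤ P.thp) {Am i : ℕ} {A0 C2 : ℝ} :
    Win P b β C2 A0 Am i ck a y ε fun n R =>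
      BridgeP (T0 (kapF ck y n) n (kf ck y n) (qF c1 y n) (DC n (kf ck y n)))
        (T1 (kapF ck y n) n (kf ck y n) (qF c1 y n) (DC n (kf ck y n))) i n (kf ck y n)
        (qF c1 y n) R (muK (sd i R) (lC n (kf ck y n)) (kapF ck y n))
        (gC i n (kE1 P ck y ε n) R) := by
  refine Win.of ?_
  filter_upwards [sf_win h hσ hck hck1 0, eventually_ge_atTop 2] with n hwin hn R h1 _
  exact H764.Tk.bridge_flow (sum_kapF ck y hn) (qF_pos c1 y n) (qF_le c1 y n)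
    (by have := hwin.1; omega) h1 _

/-- **the field `door`** from the energy number -/
theorem door_win (h : SFlow P b σ c c1 q2 qx a y ε xs c' r q A N) (hb : 0 < b) (hA : P.Adm)
    (hσ0 : 0 ≤ σ) (hσ : σ ≤ 1 / 4) (hc1 : 0 < c1) (hc18 : c1 ≤ 1 / 8) {ck c3 κ : ℝ}
    (hck : 0 < ck) (hck1 : ck ≤ P.thp) (hc3 : 0 < c3) (hc3c : c3 < c1) (hκ : 0 ≤ κ)
    (hβ : 0 ≤ β) {Am : ℕ} (hAm : 1 ≤ Am) {A0 C2 : ℝ} (hC2 : 1 ≤ C2) {i : ℕ} (hi : 6 ≤ i)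
    (hA0 : A0 ≤ 2 ^ i) {η : ∀ R, Ed (sd i R) → ℤ} {φ : ∀ R, V (sd i R) → ℝ} (hx : AxP i η φ)
    (c4 : ℝ)
    (hDel : Win P b β C2 A0 Am i ck a y ε fun n R =>
      H856.Dl.Del (wTD (sd i R) b) (tn n • 1) (tn n) 0 (η R) (φ R) ≤ y n ^ (-κ)) :
    Win P b β C2 A0 Am i ck a y ε fun n R =>
      DoorP b i η φ (tn n) (qF c1 y n) R (gC i n (kE1 P ck y ε n) R)
        (Real.exp (-(4 * y n ^ (-c3)))) (y n ^ (1 + c4) / 16) := by
  unfold Win at hDel ⊢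
  filter_upwards [hDel, H447.door_lvl hb h hA hσ0 hσ hck hck1 hc3 hc3c hκ hβ hC2 hi hA0 hAm c4,
    scF_le h hσ0 hσ hc1 hc18] with n g1 g2 g3 n0 j hj R hR1 hR2 K
  have hR0 : Rb (kf ck y) (fun n => P.w (ε n)) n0 0 ≤ R := by
    obtain ⟨κ', slo⟩ := K.slo
    refine (slo.Rb_mono (Nat.zero_le j)).trans ?_
    have := hR1
    rw [hj] at this
    exact this
  exact g2 _ rfl R hR1 hR2 n0 j hR0 K (sF c1 y n) g3.2.2 η φ hx (g1 n0 j hj R hR1 hR2 K)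

end flow

end

end Vale.Agent.P159.H145.Sp
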