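import Vale.Agent.P159.H145.Spc4
import Vale.Agent.P159.H37.Lq6
import Vale.Agent.P159.H340.Dlx

/-!
P159 (helper145), S, letters of one level, part 5: the energy number of the pairs as a power, the
fields `door`, `lam`, `tr`, `br` of the final instance without hypothesis; all pairs of the large
levels from the four fields `cut`, `pla`, `mem`, `st`.
-/

open MeasureTheory Filter Topology Finset Matrix

set_option linter.all false

namespace Vale.Agent.P159.H145.Sp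

open Vale.Agent.P159.TM.Spec (V)
open Vale.Agent.P159.H708 (Bx WtOK)
open Vale.Agent.P159.H770 (wTD Ed)
open Vale.Agent.P159.H773 (sd nuF PsF cMn Pth)
open Vale.Agent.P159.H817 (Dec)
open Vale.Agent.P159.H801 (itw SFlow Ev)
open Vale.Agent.P159.H37.Sf (kf tn_pos sf_big sf_win kE1 Win WtFam PairLv PairFam pairLv_ev ev_cS)
open Vale.Agent.P159.H972 (tn Par)

noncomputable section

/-- logarithms are small powers -/
lemma sf_lgp {P : Par} {b σ c c1 q2 qx : ℝ} {a y ε xs : ℕ → ℝ} {c' r q A : ℝ} {N : ℕ}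
    (h : SFlow P b σ c c1 q2 qx a y ε xs c' r q A N) {C κ : ℝ} (hC : 0 < C) (hκ : 0 < κ) :
    ∀ᶠ n in atTop, C * (1 + Real.log (1 / y n)) ^ 2 ≤ y n ^ (-κ) := by
  filter_upwards [sf_big h (p := κ / 4) (M := C) (by linarith) hC,
    sf_big h (p := κ / 8) (M := 1 + 4 / κ) (by linarith) (by positivity),
    sf_big h (p := κ / 4) (M := 1) (by linarith) (by norm_num), eventually_ge_atTop N]
    with n g1 g2 g3 hn
  have hy := h.fl.y0 n
  have hy1 := h.y1 n hn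
  have hi : 1 ≤ 1 / y n := by
    rw [le_div_iff₀ hy]
    linarith
  have hl0 : 0 ≤ Real.log (1 / y n) := Real.log_nonneg hi
  have e1 : (1 / y n) ^ (κ / 4) = y n ^ (-(κ / 4)) := by
    rw [one_div, Real.inv_rpow hy.le, Real.rpow_neg hy.le]
  have h1 : Real.log (1 / y n) ≤ y n ^ (-(κ / 4)) * (4 / κ) := by
    have h2 := Real.log_le_rpow_div (show 0 ≤ 1 / y n by linarith) (show 0 < κ / 4 by linarith)
    rw [e1] at h2
    refine h2.trans (le_of_eq ?_)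
    field_simp
  have h3 : 1 + Real.log (1 / y n) ≤ y n ^ (-(κ / 4)) * (1 + 4 / κ) := by
    rw [mul_add, mul_one]
    linarith
  have hp : 0 < y n ^ (-(κ / 4)) := Real.rpow_pos_of_pos hy _
  have hp8 : 0 < y n ^ (-(κ / 8)) := Real.rpow_pos_of_pos hy _
  have h4 : (1 + Real.log (1 / y n)) ^ 2 ≤ (y n ^ (-(κ / 4)) * y n ^ (-(κ / 8))) ^ 2 := by
    refine pow_le_pow_left₀ (by linarith) (h3.trans ?_) 2
    exact mul_le_mul_of_nonneg_left g2 hp.le
  calc C * (1 + Real.log (1 / y n)) ^ 2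
      ≤ y n ^ (-(κ / 4)) * (y n ^ (-(κ / 4)) * y n ^ (-(κ / 8))) ^ 2 :=
        mul_le_mul g1 h4 (by positivity) hp.le
    _ = y n ^ (-κ) := by
        rw [mul_pow, ← Real.rpow_natCast, ← Real.rpow_natCast, ← Real.rpow_mul hy.le,
          ← Real.rpow_mul hy.le, ← Real.rpow_add hy, ← Real.rpow_add hy]
        congr 1
        push_cast
        ring

/-- **the four fields which depend only on the pair**: `door`, `lam`, `tr`, `br` -/
structure Four (P : Par) (b β C2 A0 : ℝ) (Am i : ℕ) (c1 : ℝ) (a y ε : ℕ → ℝ)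
    (η : ∀ R, Ed (sd i R) → ℤ) (φ : ∀ R, V (sd i R) → ℝ) : Prop where
  del : ∀ κ : ℝ, 0 < κ → Win P b β C2 A0 Am i (P.thp / 4) a y ε fun n R =>
    H856.Dl.Del (wTD (sd i R) b) (tn n • 1) (tn n) 0 (η R) (φ R) ≤ y n ^ (-κ)
  door : ∀ c4 : ℝ, Win P b β C2 A0 Am i (P.thp / 4) a y ε fun n R =>
    DoorP b i η φ (tn n) (qF c1 y n) R (gC i n (kE1 P (P.thp / 4) y ε n) R)
      (Real.exp (-(4 * y n ^ (-(c1 / 2))))) (y n ^ (1 + c4) / 16)
  lam : Win P b β C2 A0 Am i (P.thp / 4) a y ε fun n R =>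
    LamP b i η φ (tn n) R (Real.exp (-(4 * y n ^ (-(c1 / 2))))) (y n ^ (-(c1 / 2)) / 16)
  tr : Win P b β C2 A0 Am i (P.thp / 4) a y ε fun n R =>
    QP b i η φ (tn n) R (Real.exp (-(2 * y n ^ (-(c1 / 2))))) (Real.exp (y n ^ (-(c1 / 2)) / 4))
  br : Win P b β C2 A0 Am i (P.thp / 4) a y ε fun n R =>
    BridgeP (T0 (kapF (P.thp / 4) y n) n (kf (P.thp / 4) y n) (qF c1 y n)
        (DC n (kf (P.thp / 4) y n)))
      (T1 (kapF (P.thp / 4) y n) n (kf (P.thp / 4) y n) (qF c1 y n) (DC n (kf (P.thp / 4) y n)))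
      i n (kf (P.thp / 4) y n) (qF c1 y n) R
      (muK (sd i R) (lC n (kf (P.thp / 4) y n)) (kapF (P.thp / 4) y n))
      (gC i n (kE1 P (P.thp / 4) y ε n) R)

/-- **THE FOUR FIELDS ALONG THE FLOW**, no hypothesis left -/
theorem four_ev {b b1 b2 pf : ℝ} (hb1 : 0 < b1) (h1 : b1 ≤ b) (hpf : 2 / 3 ≤ pf) (Q : ℕ)
    (hh : 0 < helicity b) (hs : 1 / helicity b < 5 / 2)
    (hSi : ∀ i, 2 / Real.pi ≤ stiff (2 ^ i) b) (hL : H513.LkS b (2 / Real.pi)) :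
    Ev b1 b2 pf Q fun P c1 => ∀ {σ c q2 qx : ℝ} {a y ε xs : ℕ → ℝ} {c' r q A : ℝ} {N : ℕ},
      SFlow P b σ c c1 q2 qx a y ε xs c' r q A N → 0 ≤ σ → σ ≤ 1 / 6 → 0 ≤ c → c < 3 / 16 →
      ∀ (β C2 A0 : ℝ) (Am : ℕ), 1 / 4 ≤ β → β < 1 / 2 → 1 ≤ C2 → 1 ≤ Am →
      ∃ i0 : ℕ, ∀ i, i0 ≤ i → A0 ≤ 2 ^ i →
        ∀ (η : ∀ R, Ed (sd i R) → ℤ) (φ : ∀ R, V (sd i R) → ℝ), AxP i η φ →
        Four P b β C2 A0 Am i c1 a y ε η φ := by
  have hb : 0 < b := hb1.trans_le h1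
  refine ((H340.Dlv.del_flowW (b2 := b2) hb1 h1 hpf Q hh hs hSi hL).and
    ((sit_fam (b2 := b2) hb1 h1 (by linarith : 0 < pf) Q).and (ev_cS b1 b2 pf Q))).mono
    fun P c1 hA hT => ?_
  obtain ⟨hD, ⟨-, -, hW⟩, hc1, hc1t, hthp, hthpx, hth, hth4, hx1⟩ := hT
  intro σ c q2 qx a y ε xs c' r q A N h hσ0 hσ hc hc3 β C2 A0 Am hβ hβ2 hC2 hAm
  have hck : 0 < P.thp / 4 := by linarith
  have hck1 : P.thp / 4 ≤ P.thp := by linarith
  have hck2 : 2 * P.th ≤ P.thp / 4 := by linarith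
  have hc18 : c1 ≤ 1 / 8 := by
    have := hA.x11
    linarith
  obtain ⟨C, i0, hC, hDel⟩ := hD h hσ0 hσ hc hc3 (P.thp / 4) hck hck2 hck1 β C2 A0 Am hβ hβ2 hC2
    hAm
  obtain ⟨-, hAg⟩ := hW h hσ0 (by linarith) (P.thp / 4) hck hck2 hck1 (c1 / 2) (by linarith)
  refine ⟨max i0 6, fun i hi hA0 η φ hx => ?_⟩
  have e0 : i0 ≤ i := (le_max_left _ _).trans hi
  have e6 : 6 ≤ i := (le_max_right _ _).trans hi
  have del : ∀ κ : ℝ, 0 < κ → Win P b β C2 A0 Am i (P.thp / 4) a y ε fun n R =>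
      H856.Dl.Del (wTD (sd i R) b) (tn n • 1) (tn n) 0 (η R) (φ R) ≤ y n ^ (-κ) := by
    intro κ hκ
    refine (hDel i e0 η φ hx).mono ?_
    filter_upwards [sf_lgp h (C := C) (κ := κ) (by linarith) hκ] with n hn R _ _ h3
    exact h3.trans hn
  obtain ⟨hlam, htr⟩ := lamQ_win h hb (by linarith) hck hck1 (c3 := c1 / 2) (by linarith) hβ hβ2
    hAm hC2 (by omega) hA0 hx (del _ (by linarith))
    (hAg i (by omega) β C2 A0 Am 192 5)
  exact ⟨del, fun c4 => door_win h hb hA hσ0 (by linarith) hc1 hc18 hck hck1 (by linarith)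
    (by linarith) zero_le_one (by linarith) hAm hC2 e6 hA0 hx c4 (del 1 one_pos), hlam, htr,
    br_fin h (by linarith) hck hck1⟩

/-- **ALL PAIRS OF THE LARGE LEVELS** from the four fields `cut`, `pla`, `mem`, `st` -/
theorem Four.pairLv {P : Par} {b β C2 A0 : ℝ} {Am i : ℕ} {c1 c4 : ℝ} {a y ε : ℕ → ℝ}
    {η : ∀ R, Ed (sd i R) → ℤ} {φ : ∀ R, V (sd i R) → ℝ}
    (H : Four P b β C2 A0 Am i c1 a y ε η φ) (D0 D1 : ℕ → Dec)
    (cut : Win P b β C2 A0 Am i (P.thp / 4) a y ε fun n R =>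
      CutP b i η φ (tn n) n (kf (P.thp / 4) y n) (qF c1 y n) R
        (muK (sd i R) (lC n (kf (P.thp / 4) y n)) (kapF (P.thp / 4) y n))
        (gC i n (kE1 P (P.thp / 4) y ε n) R) (Real.exp (-(4 * y n ^ (-(c1 / 2)))))
        (y n ^ (1 + c4) / 16))
    (pla : Win P b β C2 A0 Am i (P.thp / 4) a y ε fun n R =>
      PlaP b i η φ (tn n) n (kf (P.thp / 4) y n) (qF c1 y n) R
        (muK (sd i R) (lC n (kf (P.thp / 4) y n)) (kapF (P.thp / 4) y n))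
        (gC i n (kE1 P (P.thp / 4) y ε n) R) (Real.exp (-(4 * y n ^ (-(c1 / 2)))))
        (y n ^ (1 + c4) / 16))
    (mem : Win P b β C2 A0 Am i (P.thp / 4) a y ε fun n R =>
      MemP b i (tn n)
        (T0 (kapF (P.thp / 4) y n) n (kf (P.thp / 4) y n) (qF c1 y n)
          (DC n (kf (P.thp / 4) y n)))
        (T1 (kapF (P.thp / 4) y n) n (kf (P.thp / 4) y n) (qF c1 y n)
          (DC n (kf (P.thp / 4) y n))) R
        (gC i n (kE1 P (P.thp / 4) y ε n) R) (D0 n) (D1 n)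
        (Real.exp (-(4 * y n ^ (-(c1 / 2))))))
    (st : Win P b β C2 A0 Am i (P.thp / 4) a y ε fun n R =>
      StP i b (tn n) (a n) n (n + kf (P.thp / 4) y n) (kE1 P (P.thp / 4) y ε n) R (D0 n) (D1 n)
        (y n ^ (1 + c4) / 16)) :
    ∀ᶠ n in atTop, PairLv P b β C2 A0 Am i (P.thp / 4) (c1 / 2) c4 a y ε η φ n :=
  pairLv_ev (fun n => kapF (P.thp / 4) y n) (fun n => qF c1 y n) D0 D1 (H.door c4) cut pla mem
    H.lam H.tr H.br st

end

end Vale.Agent.P159.H145.Sp
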