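import Vale.Agent.P159.H145.Spc5
import Vale.Agent.P159.H801.FinP

/-!
P159 (helper145), S, the last assembly: helper801's `SPairs` from the four fields `cut`, `pla`,
`mem`, `st` along the flow, letters of the final instance.
-/

open MeasureTheory Filter Topology Finset Matrix

set_option linter.all false

namespace Vale.Agent.P159.H145.Sp

open Vale.Agent.P159.TM.Spec (V)
open Vale.Agent.P159.H708 (Bx WtOK)
open Vale.Agent.P159.H770 (wTD Ed)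
open Vale.Agent.P159.H773 (sd nuF PsF cMn Pth)
open Vale.Agent.P159.H817 (Dec)
open Vale.Agent.P159.H801 (itw SFlow Ev SPairs)
open Vale.Agent.P159.H37.Sf (kf tn_pos kE1 Win PairLv PairFam)
open Vale.Agent.P159.H972 (tn Par)

noncomputable section

/-- the field `cut`, final letters -/
def CutW (P : Par) (b β C2 A0 : ℝ) (Am i : ℕ) (c1 c4 : ℝ) (a y ε : ℕ → ℝ)
    (η : ∀ R, Ed (sd i R) → ℤ) (φ : ∀ R, V (sd i R) → ℝ) : Prop :=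
  Win P b β C2 A0 Am i (P.thp / 4) a y ε fun n R =>
    CutP b i η φ (tn n) n (kf (P.thp / 4) y n) (qF c1 y n) R
      (muK (sd i R) (lC n (kf (P.thp / 4) y n)) (kapF (P.thp / 4) y n))
      (gC i n (kE1 P (P.thp / 4) y ε n) R) (Real.exp (-(4 * y n ^ (-(c1 / 2)))))
      (y n ^ (1 + c4) / 16)

/-- the field `pla`, final letters -/
def PlaW (P : Par) (b β C2 A0 : ℝ) (Am i : ℕ) (c1 c4 : ℝ) (a y ε : ℕ → ℝ)
    (η : ∀ R, Ed (sd i R) → ℤ) (φ : ∀ R, V (sd i R) → ℝ) : Prop :=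
  Win P b β C2 A0 Am i (P.thp / 4) a y ε fun n R =>
    PlaP b i η φ (tn n) n (kf (P.thp / 4) y n) (qF c1 y n) R
      (muK (sd i R) (lC n (kf (P.thp / 4) y n)) (kapF (P.thp / 4) y n))
      (gC i n (kE1 P (P.thp / 4) y ε n) R) (Real.exp (-(4 * y n ^ (-(c1 / 2)))))
      (y n ^ (1 + c4) / 16)

/-- the field `mem`, final letters, probability `p` -/
def MemW (P : Par) (b β C2 A0 : ℝ) (Am i : ℕ) (c1 : ℝ) (a y ε : ℕ → ℝ) (D0 D1 : ℕ → Dec)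
    (p : ℕ → ℝ) : Prop :=
  Win P b β C2 A0 Am i (P.thp / 4) a y ε fun n R =>
    MemP b i (tn n)
      (T0 (kapF (P.thp / 4) y n) n (kf (P.thp / 4) y n) (qF c1 y n) (DC n (kf (P.thp / 4) y n)))
      (T1 (kapF (P.thp / 4) y n) n (kf (P.thp / 4) y n) (qF c1 y n) (DC n (kf (P.thp / 4) y n))) R
      (gC i n (kE1 P (P.thp / 4) y ε n) R) (D0 n) (D1 n) (p n)

/-- the field `st`, final letters -/
def StW (P : Par) (b β C2 A0 : ℝ) (Am i : ℕ) (c4 : ℝ) (a y ε : ℕ → ℝ) (D0 D1 : ℕ → Dec) : Prop :=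
  Win P b β C2 A0 Am i (P.thp / 4) a y ε fun n R =>
    StP i b (tn n) (a n) n (n + kf (P.thp / 4) y n) (kE1 P (P.thp / 4) y ε n) R (D0 n) (D1 n)
      (y n ^ (1 + c4) / 16)

/-- **the remaining four fields** of one family -/
def RestF (P : Par) (b β C2 A0 : ℝ) (Am i : ℕ) (c1 c4 : ℝ) (a y ε : ℕ → ℝ)
    (η : ∀ R, Ed (sd i R) → ℤ) (φ : ∀ R, V (sd i R) → ℝ) : Prop :=
  CutW P b β C2 A0 Am i c1 c4 a y ε η φ ∧ PlaW P b β C2 A0 Am i c1 c4 a y ε η φ ∧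
    ∃ D0 D1 : ℕ → Dec,
      (MemW P b β C2 A0 Am i c1 a y ε D0 D1 fun n => Real.exp (-(4 * y n ^ (-(c1 / 2))))) ∧
      StW P b β C2 A0 Am i c4 a y ε D0 D1

lemma Four.pairLv' {P : Par} {b β C2 A0 : ℝ} {Am i : ℕ} {c1 c4 : ℝ} {a y ε : ℕ → ℝ}
    {η : ∀ R, Ed (sd i R) → ℤ} {φ : ∀ R, V (sd i R) → ℝ}
    (H : Four P b β C2 A0 Am i c1 a y ε η φ) (K : RestF P b β C2 A0 Am i c1 c4 a y ε η φ) :
    ∀ᶠ n in atTop, PairLv P b β C2 A0 Am i (P.thp / 4) (c1 / 2) c4 a y ε η φ n := by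
  obtain ⟨k1, k2, D0, D1, k3, k4⟩ := K
  exact H.pairLv D0 D1 k1 k2 k3 k4

lemma hel_pos : 0 < helicity bCrit ∧ 1 / helicity bCrit < 5 / 2 := by
  have hY : helicity bCrit = 2 / Real.pi := Vale.Agent.P159.TM.Frame.T1
  have hπ := Real.pi_pos
  have hπ4 := Real.pi_lt_four
  rw [hY]
  refine ⟨by positivity, ?_⟩
  rw [one_div_div]
  linarith

lemma stiff_crit (i : ℕ) : 2 / Real.pi ≤ stiff (2 ^ i) bCrit := by
  have hY : helicity bCrit = 2 / Real.pi := Vale.Agent.P159.TM.Frame.T1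
  rw [← hY]
  exact H873.hel_le H170.bCrit_pos.le Nat.one_le_two_pow

/-- **THE PAIRS FROM THE FOUR FIELDS** -/
theorem spairs_of {b1 b2 qx β c : ℝ} {Q Am : ℕ} (hb1 : 0 < b1) (h1 : b1 ≤ bCrit)
    (hL : H513.LkS bCrit (2 / Real.pi)) (hc : 0 < c) (hc1 : c ≤ 1 / 80) (hβ : 1 / 4 ≤ β)
    (hβ2 : β < 1 / 2) (hAm : 1 ≤ Am)
    (H : Ev b1 b2 (9 / 10) Q fun P c1 => ∀ (q2 : ℝ) (a y ε xs : ℕ → ℝ) (c' r q A : ℝ) (N : ℕ),
      SFlow P bCrit (1 / 20) c c1 q2 qx a y ε xs c' r q A N →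
      ∃ c4 : ℝ, 0 < c4 ∧ ∀ A0 C2 : ℝ, 8 ≤ A0 → 1 ≤ C2 → ∃ i1 : ℕ, ∀ i, i1 ≤ i → A0 ≤ 2 ^ i →
        ∀ (η : ∀ R, Ed (sd i R) → ℤ) (φ : ∀ R, V (sd i R) → ℝ), AxP i η φ →
        Four P bCrit β C2 A0 Am i c1 a y ε η φ →
        RestF P bCrit β C2 A0 Am i c1 c4 a y ε η φ) :
    SPairs b1 b2 qx β Q Am := by
  refine ⟨c, hc, hc1, ?_⟩
  refine (H.and (four_ev (b2 := b2) hb1 h1 (by norm_num) Q hel_pos.1 hel_pos.2 stiff_crit
    hL)).mono fun P c1 _ h => ?_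
  intro q2 a y ε xs c' r q A N hF
  obtain ⟨c4, h4, h5⟩ := h.1 q2 a y ε xs c' r q A N hF
  refine ⟨c4, h4, fun A0 C2 hA0 hC2 => ?_⟩
  obtain ⟨i1, g1⟩ := h5 A0 C2 hA0 hC2
  obtain ⟨i2, g2⟩ := h.2 hF (by norm_num) (by norm_num) hc.le (by linarith) β C2 A0 Am hβ hβ2 hC2
    hAm
  refine ⟨max i1 i2, fun i hi hA η φ hx => ?_⟩
  have e := g2 i ((le_max_right _ _).trans hi) hA η φ hx
  exact e.pairLv' (g1 i ((le_max_left _ _).trans hi) hA η φ hx e)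

end

end Vale.Agent.P159.H145.Sp
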